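import Vale.Agent.P098.Six.S19.Root

/-!
# P098, six dimensions: checked pieces of the tree
-/

namespace Vale.Agent.P098.Six.S19

/-- A piece of the tree. -/
noncomputable def tree25 : Tree LeafX :=
  .s0
    (.s1
    (.s0
    (.s2
    (.leaf (.box ⟨438, 3, -2048, 31, 59, 106, 87845, 0, 0, 0, 0, 0, 11575523106⟩ ⟨0, 0, 0, 0, 0, 0, 117158, 0, 0, 0, 0, 0, 0⟩ ⟨0, 0, 0, 0, 0, 0, 117158, 0, 0, 0, 0, 0, 0⟩ ⟨0, 0, 0, 0, 0, 0, 175828, 0, 0, 0, 0, 0, 0⟩ ⟨0, 0, 0, 0, 0, 0, 175828, 0, 0, 0, 0, 0, 0⟩ ⟨429, 1, -2048, 9, 15, 109, 352207, 0, 0, 0, 0, 0, 0⟩))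
    (.leaf (.box ⟨417, 0, -2048, 29, 50, 105, 86625, 0, 0, 0, 0, 0, 1625735075⟩ ⟨0, 0, 0, 0, 0, 0, 115663, 0, 0, 0, 0, 0, 0⟩ ⟨0, 0, 0, 0, 0, 0, 115663, 0, 0, 0, 0, 0, 0⟩ ⟨0, 0, 0, 0, 0, 0, 173982, 0, 0, 0, 0, 0, 0⟩ ⟨0, 0, 0, 0, 0, 0, 173982, 0, 0, 0, 0, 0, 0⟩ ⟨429, 0, -2048, 8, 13, 109, 350927, 0, 0, 0, 0, 0, 0⟩)))
    (.s3
    (.s0
    (.leaf (.box ⟨245, 2, -2048, 26, 64, 117, 106819, 0, 0, 0, 0, 0, 12562303318⟩ ⟨0, 0, 0, 0, 0, 0, 145955, 0, 0, 0, 0, 0, 0⟩ ⟨0, 0, 0, 0, 0, 0, 145955, 0, 0, 0, 0, 0, 0⟩ ⟨0, 0, 0, 0, 0, 0, 230349, 0, 0, 0, 0, 0, 0⟩ ⟨0, 0, 0, 0, 0, 0, 230349, 0, 0, 0, 0, 0, 0⟩ ⟨292, 1, -2232, 6, 14, 131, 546131, 0, 0, 0, 0, 0, 0⟩))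
    (.leaf (.box ⟨229, 3, -2048, 26, 71, 126, 118838, 0, 0, 0, 0, 0, 10059824919⟩ ⟨0, 0, 0, 0, 0, 0, 162227, 0, 0, 0, 0, 0, 0⟩ ⟨0, 0, 0, 0, 0, 0, 162227, 0, 0, 0, 0, 0, 0⟩ ⟨0, 0, 0, 0, 0, 0, 255518, 0, 0, 0, 0, 0, 0⟩ ⟨0, 0, 0, 0, 0, 0, 255518, 0, 0, 0, 0, 0, 0⟩ ⟨249, 1, -2063, 6, 15, 130, 601313, 0, 0, 0, 0, 0, 0⟩)))
    (.leaf (.box ⟨356, 3, -2048, 31, 66, 121, 117930, 0, 0, 0, 0, 0, 0⟩ ⟨0, 0, 0, 0, 0, 0, 155409, 0, 0, 0, 0, 0, 0⟩ ⟨0, 0, 0, 0, 0, 0, 155409, 0, 0, 0, 0, 0, 0⟩ ⟨0, 0, 0, 0, 0, 0, 227805, 0, 0, 0, 0, 0, 0⟩ ⟨0, 0, 0, 0, 0, 0, 227805, 0, 0, 0, 0, 0, 0⟩ ⟨362, 1, -2048, 9, 19, 123, 426477, 0, 0, 0, 0, 0, 0⟩))))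
    (.s0
    (.leaf (.box ⟨394, -5, -2048, 54, 42, 125, 80209, 0, 0, 0, 0, 0, 0⟩ ⟨0, 0, 0, 0, 0, 0, 107065, 0, 0, 0, 0, 0, 0⟩ ⟨0, 0, 0, 0, 0, 0, 107065, 0, 0, 0, 0, 0, 0⟩ ⟨0, 0, 0, 0, 0, 0, 160954, 0, 0, 0, 0, 0, 0⟩ ⟨0, 0, 0, 0, 0, 0, 160954, 0, 0, 0, 0, 0, 0⟩ ⟨424, -1, -2048, 14, 11, 132, 324072, 0, 0, 0, 0, 0, 0⟩))
    (.s0
    (.leaf (.box ⟨280, -1, -2048, 40, 58, 133, 96245, 0, 0, 0, 0, 0, 0⟩ ⟨0, 0, 0, 0, 0, 0, 128447, 0, 0, 0, 0, 0, 0⟩ ⟨0, 0, 0, 0, 0, 0, 128447, 0, 0, 0, 0, 0, 0⟩ ⟨0, 0, 0, 0, 0, 0, 193033, 0, 0, 0, 0, 0, 0⟩ ⟨0, 0, 0, 0, 0, 0, 193033, 0, 0, 0, 0, 0, 0⟩ ⟨328, 0, -2048, 11, 15, 139, 388253, 0, 0, 0, 0, 0, 0⟩))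
    (.leaf (.box ⟨267, 0, -2048, 40, 69, 142, 106166, 0, 0, 0, 0, 0, 0⟩ ⟨0, 0, 0, 0, 0, 0, 141611, 0, 0, 0, 0, 0, 0⟩ ⟨0, 0, 0, 0, 0, 0, 141611, 0, 0, 0, 0, 0, 0⟩ ⟨0, 0, 0, 0, 0, 0, 212582, 0, 0, 0, 0, 0, 0⟩ ⟨0, 0, 0, 0, 0, 0, 212582, 0, 0, 0, 0, 0, 0⟩ ⟨299, 0, -2048, 11, 18, 147, 426165, 0, 0, 0, 0, 0, 0⟩)))))
    (.s0
    (.s1
    (.leaf (.box ⟨388, 7, -2048, 40, 85, 144, 131470, 0, 0, 0, 0, 0, 5547519820⟩ ⟨0, 0, 0, 0, 0, 0, 175034, 0, 0, 0, 0, 0, 0⟩ ⟨0, 0, 0, 0, 0, 0, 175034, 0, 0, 0, 0, 0, 0⟩ ⟨0, 0, 0, 0, 0, 0, 261774, 0, 0, 0, 0, 0, 0⟩ ⟨0, 0, 0, 0, 0, 0, 261774, 0, 0, 0, 0, 0, 0⟩ ⟨387, 2, -2048, 10, 22, 144, 518945, 0, 0, 0, 0, 0, 0⟩))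
    (.s0
    (.s3
    (.leaf (.box ⟨250, 1, -2048, 38, 77, 153, 117589, 0, 0, 0, 0, 0, 0⟩ ⟨0, 0, 0, 0, 0, 0, 160652, 0, 0, 0, 0, 0, 0⟩ ⟨0, 0, 0, 0, 0, 0, 160652, 0, 0, 0, 0, 0, 0⟩ ⟨0, 0, 0, 0, 0, 0, 253477, 0, 0, 0, 0, 0, 0⟩ ⟨0, 0, 0, 0, 0, 0, 253477, 0, 0, 0, 0, 0, 0⟩ ⟨260, 0, -2048, 8, 16, 158, 600382, 0, 0, 0, 0, 0, 0⟩))
    (.leaf (.box ⟨263, 1, -2048, 34, 72, 152, 129633, 0, 0, 0, 0, 0, 0⟩ ⟨0, 0, 0, 0, 0, 0, 170844, 0, 0, 0, 0, 0, 0⟩ ⟨0, 0, 0, 0, 0, 0, 170844, 0, 0, 0, 0, 0, 0⟩ ⟨0, 0, 0, 0, 0, 0, 250469, 0, 0, 0, 0, 0, 0⟩ ⟨0, 0, 0, 0, 0, 0, 250469, 0, 0, 0, 0, 0, 0⟩ ⟨272, 0, -2048, 11, 20, 156, 469103, 0, 0, 0, 0, 0, 0⟩)))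
    (.leaf (.box ⟨254, 2, -2048, 40, 85, 165, 130650, 0, 0, 0, 0, 0, 0⟩ ⟨0, 0, 0, 0, 0, 0, 174106, 0, 0, 0, 0, 0, 0⟩ ⟨0, 0, 0, 0, 0, 0, 174106, 0, 0, 0, 0, 0, 0⟩ ⟨0, 0, 0, 0, 0, 0, 260876, 0, 0, 0, 0, 0, 0⟩ ⟨0, 0, 0, 0, 0, 0, 260876, 0, 0, 0, 0, 0, 0⟩ ⟨271, 1, -2048, 10, 22, 168, 520061, 0, 0, 0, 0, 0, 0⟩))))
    (.s1
    (.leaf (.box ⟨442, 13, -2048, 57, 89, 174, 165418, 0, 0, 0, 0, 0, 0⟩ ⟨0, 0, 0, 0, 0, 0, 219918, 0, 0, 0, 0, 0, 0⟩ ⟨0, 0, 0, 0, 0, 0, 219918, 0, 0, 0, 0, 0, 0⟩ ⟨0, 0, 0, 0, 0, 0, 327976, 0, 0, 0, 0, 0, 0⟩ ⟨0, 0, 0, 0, 0, 0, 327976, 0, 0, 0, 0, 0, 0⟩ ⟨419, 4, -2048, 15, 22, 170, 644799, 0, 0, 0, 0, 0, 0⟩))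
    (.leaf (.box ⟨370, 5, -2048, 49, 97, 190, 146342, 0, 0, 0, 143202565, 0, 0⟩ ⟨0, 0, 0, 0, 0, 0, 194923, 0, 0, 0, 0, 0, 0⟩ ⟨0, 0, 0, 0, 0, 0, 194923, 0, 0, 0, 0, 0, 0⟩ ⟨0, 0, 0, 0, 0, 0, 291788, 0, 0, 0, 0, 0, 0⟩ ⟨0, 0, 0, 0, 0, 0, 291788, 0, 0, 0, 0, 0, 0⟩ ⟨395, 2, -2048, 14, 24, 190, 580020, 0, 0, 0, 0, 0, 0⟩))))

/-- A piece of the tree. -/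
noncomputable def tree26 : Tree LeafX :=
  .s0
    (.s1
    (.s0
    (.s1
    (.leaf (.box ⟨359, -4, -2048, 28, 34, 103, 85527, 0, 26899842, 0, 0, 0, 2393481645⟩ ⟨0, 0, 0, 0, 0, 0, 114343, 0, 0, 0, 0, 0, 0⟩ ⟨0, 0, 0, 0, 0, 0, 114343, 0, 0, 0, 0, 0, 0⟩ ⟨0, 0, 0, 0, 0, 0, 172441, 0, 0, 0, 0, 0, 0⟩ ⟨0, 0, 0, 0, 0, 0, 172441, 0, 0, 0, 0, 0, 0⟩ ⟨367, -1, -2048, 8, 8, 106, 350566, 0, 0, 0, 0, 0, 0⟩))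
    (.s2
    (.leaf (.box ⟨316, -4, -2048, 27, 40, 113, 86070, 0, 0, 0, 0, 0, 0⟩ ⟨0, 0, 0, 0, 0, 0, 115057, 0, 0, 0, 0, 0, 0⟩ ⟨0, 0, 0, 0, 0, 0, 115057, 0, 0, 0, 0, 0, 0⟩ ⟨0, 0, 0, 0, 0, 0, 173480, 0, 0, 0, 0, 0, 0⟩ ⟨0, 0, 0, 0, 0, 0, 173480, 0, 0, 0, 0, 0, 0⟩ ⟨337, -1, -2048, 7, 10, 117, 352445, 0, 0, 0, 0, 0, 0⟩))
    (.leaf (.box ⟨338, -5, -2048, 27, 28, 117, 86014, 0, 0, 0, 0, 4434138179, 0⟩ ⟨0, 0, 0, 0, 0, 0, 115012, 0, 0, 0, 0, 0, 0⟩ ⟨0, 0, 0, 0, 0, 0, 115012, 0, 0, 0, 0, 0, 0⟩ ⟨0, 0, 0, 0, 0, 0, 173506, 0, 0, 0, 0, 0, 0⟩ ⟨0, 0, 0, 0, 0, 0, 173506, 0, 0, 0, 0, 0, 0⟩ ⟨351, -1, -2048, 7, 7, 120, 353076, 0, 0, 0, 0, 5622422016, 0⟩))))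
    (.s2
    (.leaf (.box ⟨400, -2, -2048, 23, 54, 123, 107301, 0, 0, 0, 0, 0, 6246627776⟩ ⟨0, 0, 0, 0, 0, 0, 143295, 0, 0, 0, 0, 0, 0⟩ ⟨0, 0, 0, 0, 0, 0, 143295, 0, 0, 0, 0, 0, 0⟩ ⟨0, 0, 0, 0, 0, 0, 215624, 0, 0, 0, 0, 0, 0⟩ ⟨0, 0, 0, 0, 0, 0, 215624, 0, 0, 0, 0, 0, 0⟩ ⟨401, 0, -2048, 6, 13, 125, 435389, 0, 0, 0, 0, 0, 0⟩))
    (.leaf (.box ⟨513, -4, -2048, 25, 40, 129, 108608, 0, 0, 0, 0, 2951223019, 0⟩ ⟨0, 0, 0, 0, 0, 0, 145225, 0, 0, 0, 0, 0, 0⟩ ⟨0, 0, 0, 0, 0, 0, 145225, 0, 0, 0, 0, 0, 0⟩ ⟨0, 0, 0, 0, 0, 0, 219091, 0, 0, 0, 0, 0, 0⟩ ⟨0, 0, 0, 0, 0, 0, 219091, 0, 0, 0, 0, 0, 0⟩ ⟨464, -1, -2048, 7, 10, 128, 445877, 0, 0, 0, 0, 1196892831, 0⟩))))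
    (.s0
    (.s2
    (.leaf (.box ⟨429, -6, -2048, 47, 24, 132, 79530, 0, 0, 0, 0, 0, 0⟩ ⟨0, 0, 0, 0, 0, 0, 106163, 0, 0, 0, 0, 0, 0⟩ ⟨0, 0, 0, 0, 0, 0, 106163, 0, 0, 0, 0, 0, 0⟩ ⟨0, 0, 0, 0, 0, 0, 159615, 0, 0, 0, 0, 0, 0⟩ ⟨0, 0, 0, 0, 0, 0, 159615, 0, 0, 0, 0, 0, 0⟩ ⟨462, -2, -2048, 13, 6, 137, 321468, 0, 0, 0, 0, 0, 0⟩))
    (.s1
    (.leaf (.box ⟨316, -6, -2048, 35, 16, 131, 83010, 0, 0, 0, 0, 6016585821, 0⟩ ⟨0, 0, 0, 0, 0, 0, 110924, 0, 0, 0, 0, 0, 0⟩ ⟨0, 0, 0, 0, 0, 0, 110924, 0, 0, 0, 0, 0, 0⟩ ⟨0, 0, 0, 0, 0, 0, 167121, 0, 0, 0, 0, 0, 0⟩ ⟨0, 0, 0, 0, 0, 0, 167121, 0, 0, 0, 0, 0, 0⟩ ⟨333, -2, -2048, 10, 4, 134, 338731, 0, 0, 0, 0, 7067576927, 0⟩))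
    (.leaf (.box ⟨276, -5, -2048, 40, -2, 146, 79455, 0, 0, 0, 0, 8330594552, 0⟩ ⟨0, 0, 0, 0, 0, 0, 106065, 0, 0, 0, 0, 0, 0⟩ ⟨0, 0, 0, 0, 0, 0, 106065, 0, 0, 0, 0, 0, 0⟩ ⟨0, 0, 0, 0, 0, 0, 159470, 0, 0, 0, 0, 0, 0⟩ ⟨0, 0, 0, 0, 0, 0, 159470, 0, 0, 0, 0, 0, 0⟩ ⟨281, -1, -2048, 11, -1, 150, 321201, 0, 0, 0, 0, 8813956932, 0⟩))))
    (.s2
    (.leaf (.box ⟨403, -4, -2048, 42, 49, 145, 96727, 0, 0, 0, 0, 0, 0⟩ ⟨0, 0, 0, 0, 0, 0, 129120, 0, 0, 0, 0, 0, 0⟩ ⟨0, 0, 0, 0, 0, 0, 129120, 0, 0, 0, 0, 0, 0⟩ ⟨0, 0, 0, 0, 0, 0, 194131, 0, 0, 0, 0, 0, 0⟩ ⟨0, 0, 0, 0, 0, 0, 194131, 0, 0, 0, 0, 0, 0⟩ ⟨416, -1, -2048, 11, 12, 149, 390996, 0, 0, 0, 0, 0, 0⟩))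
    (.s1
    (.leaf (.box ⟨323, -5, -2048, 29, 38, 146, 103426, 0, 0, 0, 0, 4964336913, 0⟩ ⟨0, 0, 0, 0, 0, 0, 138217, 0, 0, 0, 0, 0, 0⟩ ⟨0, 0, 0, 0, 0, 0, 138217, 0, 0, 0, 0, 0, 0⟩ ⟨0, 0, 0, 0, 0, 0, 208279, 0, 0, 0, 0, 0, 0⟩ ⟨0, 0, 0, 0, 0, 0, 208279, 0, 0, 0, 0, 0, 0⟩ ⟨331, -1, -2048, 8, 9, 149, 422384, 0, 0, 0, 0, 7402648087, 0⟩))
    (.leaf (.box ⟨308, -4, -2048, 34, 27, 160, 98092, 0, 0, 0, 0, 5855932238, 0⟩ ⟨0, 0, 0, 0, 0, 0, 130970, 0, 0, 0, 0, 0, 0⟩ ⟨0, 0, 0, 0, 0, 0, 130970, 0, 0, 0, 0, 0, 0⟩ ⟨0, 0, 0, 0, 0, 0, 196997, 0, 0, 0, 0, 0, 0⟩ ⟨0, 0, 0, 0, 0, 0, 196997, 0, 0, 0, 0, 0, 0⟩ ⟨314, -1, -2048, 9, 7, 164, 397282, 0, 0, 0, 0, 6374916849, 0⟩))))))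
    (.s2
    (.s1
    (.leaf (.box ⟨663, -2, -2048, 75, 58, 159, 136294, 0, 0, 0, 0, 0, 0⟩ ⟨0, 0, 0, 0, 0, 0, 181901, 0, 0, 0, 0, 0, 0⟩ ⟨0, 0, 0, 0, 0, 0, 181901, 0, 0, 0, 0, 0, 0⟩ ⟨0, 0, 0, 0, 0, 0, 273379, 0, 0, 0, 0, 0, 0⟩ ⟨0, 0, 0, 0, 0, 0, 273379, 0, 0, 0, 0, 0, 0⟩ ⟨617, -1, -2048, 18, 14, 157, 549944, 0, 0, 0, 0, 0, 0⟩))
    (.leaf (.box ⟨579, -2, -2048, 37, 71, 178, 121451, 0, 0, 0, 0, 0, 0⟩ ⟨0, 0, 0, 0, 0, 0, 162110, 0, 0, 0, 0, 0, 0⟩ ⟨0, 0, 0, 0, 0, 0, 162110, 0, 0, 0, 0, 0, 0⟩ ⟨0, 0, 0, 0, 0, 0, 243693, 0, 0, 0, 0, 0, 0⟩ ⟨0, 0, 0, 0, 0, 0, 243693, 0, 0, 0, 0, 0, 0⟩ ⟨636, -1, -2048, 11, 18, 184, 490579, 0, 0, 0, 0, 0, 0⟩)))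
    (.s2
    (.s1
    (.leaf (.box ⟨696, -12, -2048, 82, 36, 161, 139417, 0, 0, 0, 0, 0, 0⟩ ⟨0, 0, 0, 0, 0, 0, 186426, 0, 0, 0, 0, 0, 0⟩ ⟨0, 0, 0, 0, 0, 0, 186426, 0, 0, 0, 0, 0, 0⟩ ⟨0, 0, 0, 0, 0, 0, 281263, 0, 0, 0, 0, 0, 0⟩ ⟨0, 0, 0, 0, 0, 0, 281263, 0, 0, 0, 0, 0, 0⟩ ⟨645, -3, -2048, 19, 9, 159, 572495, 0, 0, 0, 0, 0, 0⟩))
    (.leaf (.box ⟨780, -5, -2048, 42, 57, 198, 125369, 0, 0, 0, 0, 5319700546, 0⟩ ⟨0, 0, 0, 0, 0, 0, 167443, 0, 0, 0, 0, 0, 0⟩ ⟨0, 0, 0, 0, 0, 0, 167443, 0, 0, 0, 0, 0, 0⟩ ⟨0, 0, 0, 0, 0, 0, 252020, 0, 0, 0, 0, 0, 0⟩ ⟨0, 0, 0, 0, 0, 0, 252020, 0, 0, 0, 0, 0, 0⟩ ⟨623, -1, -2048, 9, 13, 189, 509247, 0, 0, 0, 0, 1582049462, 0⟩)))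
    (.leaf (.box ⟨981, -26, -2048, 140, 29, 178, 127847, 0, 0, 58415612, 7649195, 71452465084, 0⟩ ⟨0, 0, 0, 0, 0, 0, 170800, 0, 0, 0, 0, 0, 0⟩ ⟨0, 0, 0, 0, 0, 0, 170800, 0, 0, 0, 0, 0, 0⟩ ⟨0, 0, 0, 0, 0, 0, 257218, 0, 0, 0, 0, 0, 0⟩ ⟨0, 0, 0, 0, 0, 0, 257218, 0, 0, 0, 0, 0, 0⟩ ⟨934, -6, -2048, 33, 7, 176, 520638, 0, 0, 0, 0, 100847979932, 0⟩))))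

/-- A piece of the tree. -/
noncomputable def tree27 : Tree LeafX :=
  .s1
    (.s0
    (.s0
    (.leaf (.box ⟨545, -3, -2048, 79, 2, 167, 72790, 0, 0, 0, 0, 7761791728, 0⟩ ⟨0, 0, 0, 0, 0, 0, 96985, 0, 0, 0, 0, 0, 0⟩ ⟨0, 0, 0, 0, 0, 0, 96985, 0, 0, 0, 0, 0, 0⟩ ⟨0, 0, 0, 0, 0, 0, 145271, 0, 0, 0, 0, 0, 0⟩ ⟨0, 0, 0, 0, 0, 0, 145271, 0, 0, 0, 0, 0, 0⟩ ⟨672, -1, -2048, 22, 0, 180, 289308, 0, 0, 0, 0, 7450730800, 0⟩))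
    (.s2
    (.leaf (.box ⟨389, -3, -2048, 55, 50, 163, 88520, 0, 0, 0, 0, 0, 0⟩ ⟨0, 0, 0, 0, 0, 0, 118109, 0, 0, 0, 0, 0, 0⟩ ⟨0, 0, 0, 0, 0, 0, 118109, 0, 0, 0, 0, 0, 0⟩ ⟨0, 0, 0, 0, 0, 0, 177409, 0, 0, 0, 0, 0, 0⟩ ⟨0, 0, 0, 0, 0, 0, 177409, 0, 0, 0, 0, 0, 0⟩ ⟨440, -1, -2048, 16, 13, 175, 356303, 0, 0, 0, 0, 0, 0⟩))
    (.leaf (.box ⟨410, -2, -2048, 69, 7, 176, 88745, 0, 0, 0, 0, 5350140409, 0⟩ ⟨0, 0, 0, 0, 0, 0, 118380, 0, 0, 0, 0, 0, 0⟩ ⟨0, 0, 0, 0, 0, 0, 118380, 0, 0, 0, 0, 0, 0⟩ ⟨0, 0, 0, 0, 0, 0, 177729, 0, 0, 0, 0, 0, 0⟩ ⟨0, 0, 0, 0, 0, 0, 177729, 0, 0, 0, 0, 0, 0⟩ ⟨459, 0, -2048, 15, 5, 187, 356413, 0, 0, 0, 0, 7997136693, 0⟩))))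
    (.s0
    (.s0
    (.s2
    (.leaf (.box ⟨355, -1, -2048, 41, 66, 173, 106626, 0, 0, 0, 0, 0, 0⟩ ⟨0, 0, 0, 0, 0, 0, 142343, 0, 0, 0, 0, 0, 0⟩ ⟨0, 0, 0, 0, 0, 0, 142343, 0, 0, 0, 0, 0, 0⟩ ⟨0, 0, 0, 0, 0, 0, 214039, 0, 0, 0, 0, 0, 0⟩ ⟨0, 0, 0, 0, 0, 0, 214039, 0, 0, 0, 0, 0, 0⟩ ⟨321, 0, -2048, 12, 17, 185, 431258, 0, 0, 0, 0, 0, 0⟩))
    (.leaf (.box ⟨392, -2, -2048, 42, 39, 193, 111054, 0, 0, 0, 0, 3159618263, 0⟩ ⟨0, 0, 0, 0, 0, 0, 148208, 0, 0, 0, 0, 0, 0⟩ ⟨0, 0, 0, 0, 0, 0, 148208, 0, 0, 0, 0, 0, 0⟩ ⟨0, 0, 0, 0, 0, 0, 222719, 0, 0, 0, 0, 0, 0⟩ ⟨0, 0, 0, 0, 0, 0, 222719, 0, 0, 0, 0, 0, 0⟩ ⟨385, 0, -2048, 11, 10, 199, 447902, 0, 0, 0, 0, 5983319096, 0⟩)))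
    (.s2
    (.s3
    (.leaf (.box ⟨297, -1, -2048, 40, 75, 187, 118417, 0, 0, 0, 0, 0, 0⟩ ⟨0, 0, 0, 0, 0, 0, 161946, 0, 0, 0, 0, 0, 0⟩ ⟨0, 0, 0, 0, 0, 0, 161946, 0, 0, 0, 0, 0, 0⟩ ⟨0, 0, 0, 0, 0, 0, 256077, 0, 0, 0, 0, 0, 0⟩ ⟨0, 0, 0, 0, 0, 0, 256077, 0, 0, 0, 0, 0, 0⟩ ⟨291, 0, -2048, 9, 15, 196, 611523, 0, 0, 0, 0, 0, 0⟩))
    (.leaf (.box ⟨303, -1, -2048, 37, 71, 189, 131178, 0, 0, 0, 0, 0, 0⟩ ⟨0, 0, 0, 0, 0, 0, 173062, 0, 0, 0, 0, 0, 0⟩ ⟨0, 0, 0, 0, 0, 0, 173062, 0, 0, 0, 0, 0, 0⟩ ⟨0, 0, 0, 0, 0, 0, 254238, 0, 0, 0, 0, 0, 0⟩ ⟨0, 0, 0, 0, 0, 0, 254238, 0, 0, 0, 0, 0, 0⟩ ⟨308, 0, -2048, 11, 20, 196, 478841, 0, 0, 0, 0, 0, 0⟩)))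
    (.leaf (.box ⟨381, -2, -2048, 39, 48, 206, 126045, 0, 0, 0, 0, 0, 0⟩ ⟨0, 0, 0, 0, 0, 0, 168243, 0, 0, 0, 0, 0, 0⟩ ⟨0, 0, 0, 0, 0, 0, 168243, 0, 0, 0, 0, 0, 0⟩ ⟨0, 0, 0, 0, 0, 0, 252916, 0, 0, 0, 0, 0, 0⟩ ⟨0, 0, 0, 0, 0, 0, 252916, 0, 0, 0, 0, 0, 0⟩ ⟨382, -1, -2048, 11, 12, 211, 509163, 0, 0, 0, 0, 0, 0⟩))))
    (.s2
    (.s3
    (.leaf (.box ⟨373, 1, -2048, 47, 90, 212, 132852, 0, 0, 0, 0, 0, 0⟩ ⟨0, 0, 0, 0, 0, 0, 181635, 0, 0, 0, 0, 0, 0⟩ ⟨0, 0, 0, 0, 0, 0, 181635, 0, 0, 0, 0, 0, 0⟩ ⟨0, 0, 0, 0, 0, 0, 287033, 0, 0, 0, 0, 0, 0⟩ ⟨0, 0, 0, 0, 0, 0, 287033, 0, 0, 0, 0, 0, 0⟩ ⟨379, 0, -2048, 10, 18, 218, 683856, 0, 0, 0, 0, 0, 0⟩))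
    (.leaf (.box ⟨379, 1, -2048, 43, 94, 209, 146979, 0, 0, 0, 0, 0, 0⟩ ⟨0, 0, 0, 0, 0, 0, 193850, 0, 0, 0, 0, 0, 0⟩ ⟨0, 0, 0, 0, 0, 0, 193850, 0, 0, 0, 0, 0, 0⟩ ⟨0, 0, 0, 0, 0, 0, 284609, 0, 0, 0, 0, 0, 0⟩ ⟨0, 0, 0, 0, 0, 0, 284609, 0, 0, 0, 0, 0, 0⟩ ⟨387, 0, -2048, 13, 24, 217, 535174, 0, 0, 0, 0, 0, 0⟩)))
    (.leaf (.box ⟨499, -2, -2048, 40, 58, 233, 143864, 0, 0, 0, 0, 0, 0⟩ ⟨0, 0, 0, 0, 0, 0, 192047, 0, 0, 0, 0, 0, 0⟩ ⟨0, 0, 0, 0, 0, 0, 192047, 0, 0, 0, 0, 0, 0⟩ ⟨0, 0, 0, 0, 0, 0, 288756, 0, 0, 0, 0, 0, 0⟩ ⟨0, 0, 0, 0, 0, 0, 288756, 0, 0, 0, 0, 0, 0⟩ ⟨487, -1, -2048, 12, 14, 235, 581668, 0, 0, 0, 0, 0, 0⟩)))))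
    (.s0
    (.leaf (.box ⟨1103, -5, -2048, 122, 22, 231, 70861, 0, 0, 0, 0, 4929886758, 0⟩ ⟨0, 0, 0, 0, 0, 0, 94393, 0, 0, 0, 0, 0, 0⟩ ⟨0, 0, 0, 0, 0, 0, 94393, 0, 0, 0, 0, 0, 0⟩ ⟨0, 0, 0, 0, 0, 0, 141322, 0, 0, 0, 0, 0, 0⟩ ⟨0, 0, 0, 0, 0, 0, 141322, 0, 0, 0, 0, 0, 0⟩ ⟨1235, -1, -2048, 32, 6, 243, 281056, 0, 0, 0, 0, 11481879902, 0⟩))
    (.s0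
    (.s1
    (.s2
    (.leaf (.box ⟨345, -3, -2048, 39, 73, 208, 103758, 0, 0, 0, 0, 0, 0⟩ ⟨0, 0, 0, 0, 0, 0, 138654, 0, 0, 0, 0, 0, 0⟩ ⟨0, 0, 0, 0, 0, 0, 138654, 0, 0, 0, 0, 0, 0⟩ ⟨0, 0, 0, 0, 0, 0, 208917, 0, 0, 0, 0, 0, 0⟩ ⟨0, 0, 0, 0, 0, 0, 208917, 0, 0, 0, 0, 0, 0⟩ ⟨272, -1, -2048, 11, 19, 222, 423552, 0, 0, 0, 0, 0, 0⟩))
    (.leaf (.box ⟨356, -1, -2048, 37, 46, 226, 108640, 0, 0, 0, 0, 0, 0⟩ ⟨0, 0, 0, 0, 0, 0, 145045, 0, 0, 0, 0, 0, 0⟩ ⟨0, 0, 0, 0, 0, 0, 145045, 0, 0, 0, 0, 0, 0⟩ ⟨0, 0, 0, 0, 0, 0, 218144, 0, 0, 0, 0, 0, 0⟩ ⟨0, 0, 0, 0, 0, 0, 218144, 0, 0, 0, 0, 0, 0⟩ ⟨267, 0, -2048, 10, 12, 235, 439782, 0, 0, 0, 0, 0, 0⟩)))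
    (.leaf (.box ⟨431, -4, -2048, 57, 69, 239, 102826, 0, 0, 0, 0, 0, 0⟩ ⟨0, 0, 0, 0, 0, 0, 137515, 0, 0, 0, 0, 0, 0⟩ ⟨0, 0, 0, 0, 0, 0, 137515, 0, 0, 0, 0, 0, 0⟩ ⟨0, 0, 0, 0, 0, 0, 207522, 0, 0, 0, 0, 0, 0⟩ ⟨0, 0, 0, 0, 0, 0, 207522, 0, 0, 0, 0, 0, 0⟩ ⟨283, -1, -2048, 15, 18, 253, 422728, 0, 0, 0, 0, 0, 0⟩)))
    (.s2
    (.leaf (.box ⟨446, -3, -2048, 40, 95, 244, 127013, 0, 0, 0, 0, 0, 0⟩ ⟨0, 0, 0, 0, 0, 0, 169876, 0, 0, 0, 0, 0, 0⟩ ⟨0, 0, 0, 0, 0, 0, 169876, 0, 0, 0, 0, 0, 0⟩ ⟨0, 0, 0, 0, 0, 0, 256401, 0, 0, 0, 0, 0, 0⟩ ⟨0, 0, 0, 0, 0, 0, 256401, 0, 0, 0, 0, 0, 0⟩ ⟨391, -1, -2048, 11, 24, 255, 522569, 0, 0, 0, 0, 0, 0⟩))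
    (.leaf (.box ⟨463, -2, -2048, 36, 70, 264, 141115, 0, 0, 0, 0, 0, 0⟩ ⟨0, 0, 0, 0, 0, 0, 188510, 0, 0, 0, 0, 0, 0⟩ ⟨0, 0, 0, 0, 0, 0, 188510, 0, 0, 0, 0, 0, 0⟩ ⟨0, 0, 0, 0, 0, 0, 283839, 0, 0, 0, 0, 0, 0⟩ ⟨0, 0, 0, 0, 0, 0, 283839, 0, 0, 0, 0, 0, 0⟩ ⟨418, 0, -2048, 10, 18, 271, 574222, 0, 0, 0, 0, 0, 0⟩)))))

/-- A piece of the tree. -/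
noncomputable def tree28 : Tree LeafX :=
  .s1
    (.s0
    (.leaf (.box ⟨2048, -105, 645, 194, 29, 299, 58407, 0, 0, 0, 0, 0, 0⟩ ⟨0, 0, 0, 0, 0, 0, 77877, 0, 0, 0, 0, 0, 0⟩ ⟨0, 0, 0, 0, 0, 0, 77877, 0, 0, 0, 0, 0, 0⟩ ⟨0, 0, 0, 0, 0, 0, 116818, 0, 0, 0, 0, 0, 0⟩ ⟨0, 0, 0, 0, 0, 0, 116818, 0, 0, 0, 0, 0, 0⟩ ⟨2048, -27, 793, 48, 6, 288, 233649, 0, 0, 0, 0, 0, 0⟩))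
    (.s0
    (.leaf (.box ⟨2048, -51, 717, 100, 112, 608, 71412, 0, 0, 0, 0, 0, 0⟩ ⟨0, 0, 0, 0, 0, 0, 95281, 0, 0, 0, 0, 0, 0⟩ ⟨0, 0, 0, 0, 0, 0, 95281, 0, 0, 0, 0, 0, 0⟩ ⟨0, 0, 0, 0, 0, 0, 143115, 0, 0, 0, 0, 0, 0⟩ ⟨0, 0, 0, 0, 0, 0, 143115, 0, 0, 0, 0, 0, 0⟩ ⟨2048, -13, 1010, 24, 26, 586, 287398, 0, 0, 0, 0, 0, 0⟩))
    (.leaf (.box ⟨2048, -73, -329, 120, 131, 533, 74711, 0, 0, 0, 0, 0, 0⟩ ⟨0, 0, 0, 0, 0, 0, 99726, 0, 0, 0, 0, 0, 0⟩ ⟨0, 0, 0, 0, 0, 0, 99726, 0, 0, 0, 0, 0, 0⟩ ⟨0, 0, 0, 0, 0, 0, 149923, 0, 0, 0, 0, 0, 0⟩ ⟨0, 0, 0, 0, 0, 0, 149923, 0, 0, 0, 0, 0, 0⟩ ⟨2048, -19, -70, 32, 34, 577, 301865, 0, 0, 0, 0, 0, 0⟩))))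
    (.s0
    (.s2
    (.s1
    (.leaf (.box ⟨2048, -129, 464, 137, -14, 219, 67831, 0, 0, 0, 0, 0, 0⟩ ⟨0, 0, 0, 0, 0, 0, 90770, 0, 0, 0, 0, 0, 0⟩ ⟨0, 0, 0, 0, 0, 0, 90770, 0, 0, 0, 0, 0, 0⟩ ⟨0, 0, 0, 0, 0, 0, 137149, 0, 0, 0, 0, 0, 0⟩ ⟨0, 0, 0, 0, 0, 0, 137149, 0, 0, 0, 0, 0, 0⟩ ⟨2048, -38, 684, 38, -5, 256, 280440, 0, 0, 0, 0, 0, 0⟩))
    (.s1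
    (.leaf (.box ⟨2048, -106, 215, 131, 1, 137, 66857, 0, 0, 0, 0, 0, 0⟩ ⟨2048, -82, 247, 99, 0, 151, 95837, 0, 0, 0, 0, 0, 0⟩ ⟨2048, -82, 247, 99, 0, 151, 95837, 0, 0, 0, 0, 0, 0⟩ ⟨2048, -58, 282, 70, 0, 165, 147888, 0, 0, 0, 0, 0, 0⟩ ⟨2048, -58, 282, 70, 0, 165, 147888, 0, 0, 0, 0, 0, 0⟩ ⟨2048, -36, 330, 43, 0, 185, 265445, 0, 0, 0, 0, 0, 0⟩))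
    (.s0
    (.leaf (.box ⟨2048, 6, 411, 146, 2, 70, 62217, 0, 0, 0, 0, 0, 0⟩ ⟨0, 0, 0, 0, 0, 0, 82470, 0, 0, 0, 0, 0, 0⟩ ⟨0, 0, 0, 0, 0, 0, 82470, 0, 0, 0, 0, 0, 0⟩ ⟨0, 0, 0, 0, 0, 0, 122271, 0, 0, 0, 0, 0, 0⟩ ⟨0, 0, 0, 0, 0, 0, 122271, 0, 0, 0, 0, 0, 0⟩ ⟨2048, 2, 619, 53, 1, 143, 236323, 0, 0, 0, 0, 0, 0⟩))
    (.leaf (.box ⟨2048, -145, -640, 216, 110, 305, 70309, 0, 0, 0, 0, 0, 0⟩ ⟨0, 0, 0, 0, 0, 0, 93665, 0, 0, 0, 0, 0, 0⟩ ⟨0, 0, 0, 0, 0, 0, 93665, 0, 0, 0, 0, 0, 0⟩ ⟨0, 0, 0, 0, 0, 0, 140255, 0, 0, 0, 0, 0, 0⟩ ⟨0, 0, 0, 0, 0, 0, 140255, 0, 0, 0, 0, 0, 0⟩ ⟨2048, -67, -961, 102, 50, 566, 279065, 0, 0, 0, 0, 0, 0⟩)))))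
    (.leaf (.box ⟨2048, -271, 218, 249, -34, 102, 63795, 0, 0, 0, 0, 0, 0⟩ ⟨0, 0, 0, 0, 0, 0, 84765, 0, 0, 0, 0, 0, 0⟩ ⟨0, 0, 0, 0, 0, 0, 84765, 0, 0, 0, 0, 0, 0⟩ ⟨0, 0, 0, 0, 0, 0, 126270, 0, 0, 0, 0, 0, 0⟩ ⟨0, 0, 0, 0, 0, 0, 126270, 0, 0, 0, 0, 0, 0⟩ ⟨2048, -84, 288, 72, -10, 111, 247420, 0, 0, 0, 0, 0, 0⟩)))
    (.s1
    (.leaf (.box ⟨2048, -322, -1251, 290, 242, 868, 81009, 0, 0, 0, 0, 0, 0⟩ ⟨0, 0, 0, 0, 0, 0, 108873, 0, 0, 0, 0, 0, 0⟩ ⟨0, 0, 0, 0, 0, 0, 108873, 0, 0, 0, 0, 0, 0⟩ ⟨0, 0, 0, 0, 0, 0, 165952, 0, 0, 0, 0, 0, 0⟩ ⟨0, 0, 0, 0, 0, 0, 165952, 0, 0, 0, 0, 0, 0⟩ ⟨2048, -73, -721, 64, 49, 816, 348841, 0, 0, 0, 0, 0, 0⟩))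
    (.leaf (.box ⟨2048, -697, -1807, 619, 222, 550, 78204, 0, 0, 0, 0, 0, 0⟩ ⟨0, 0, 0, 0, 0, 0, 104644, 0, 0, 0, 0, 0, 0⟩ ⟨0, 0, 0, 0, 0, 0, 104644, 0, 0, 0, 0, 0, 0⟩ ⟨0, 0, 0, 0, 0, 0, 158090, 0, 0, 0, 0, 0, 0⟩ ⟨0, 0, 0, 0, 0, 0, 158090, 0, 0, 0, 0, 0, 0⟩ ⟨2048, -146, -1208, 129, 42, 475, 323129, 0, 0, 0, 0, 0, 0⟩))))

/-- A piece of the tree. -/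
noncomputable def tree29 : Tree LeafX :=
  .leaf (.box ⟨1901, -127, -2048, 201, 181, 416, 79314, 0, 0, 0, 0, 0, 0⟩ ⟨0, 0, 0, 0, 0, 0, 105953, 0, 0, 0, 0, 0, 0⟩ ⟨0, 0, 0, 0, 0, 0, 105953, 0, 0, 0, 0, 0, 0⟩ ⟨0, 0, 0, 0, 0, 0, 159535, 0, 0, 0, 0, 0, 0⟩ ⟨0, 0, 0, 0, 0, 0, 159535, 0, 0, 0, 0, 0, 0⟩ ⟨2048, -35, -1963, 57, 48, 473, 322759, 0, 0, 0, 0, 0, 0⟩)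

/-- A piece of the tree. -/
noncomputable def tree30 : Tree LeafX :=
  .s2
    (.leaf (.box ⟨815, -13, -2048, 50, 150, 255, 103099, 0, 0, 0, 0, 0, 0⟩ ⟨0, 0, 0, 0, 0, 0, 137900, 0, 0, 0, 0, 0, 0⟩ ⟨0, 0, 0, 0, 0, 0, 137900, 0, 0, 0, 0, 0, 0⟩ ⟨0, 0, 0, 0, 0, 0, 208164, 0, 0, 0, 0, 0, 0⟩ ⟨0, 0, 0, 0, 0, 0, 208164, 0, 0, 0, 0, 0, 0⟩ ⟨819, -5, -2048, 20, 42, 320, 424420, 0, 0, 0, 0, 0, 0⟩))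
    (.leaf (.box ⟨463, -15, -2048, 41, 125, 262, 102043, 0, 0, 0, 0, 0, 0⟩ ⟨0, 0, 0, 0, 0, 0, 136560, 0, 0, 0, 0, 0, 0⟩ ⟨0, 0, 0, 0, 0, 0, 136560, 0, 0, 0, 0, 0, 0⟩ ⟨0, 0, 0, 0, 0, 0, 206364, 0, 0, 0, 0, 0, 0⟩ ⟨0, 0, 0, 0, 0, 0, 206364, 0, 0, 0, 0, 0, 0⟩ ⟨476, -4, -2048, 12, 32, 289, 422152, 0, 0, 0, 0, 0, 0⟩))

/-- A piece of the tree. -/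
noncomputable def tree31 : Tree LeafX :=
  .s0
    (.leaf (.box ⟨589, -7, -2048, 37, 147, 263, 119242, 0, 0, 0, 0, 0, 0⟩ ⟨0, 0, 0, 0, 0, 0, 159407, 0, 0, 0, 0, 0, 0⟩ ⟨0, 0, 0, 0, 0, 0, 159407, 0, 0, 0, 0, 0, 0⟩ ⟨0, 0, 0, 0, 0, 0, 240372, 0, 0, 0, 0, 0, 0⟩ ⟨0, 0, 0, 0, 0, 0, 240372, 0, 0, 0, 0, 0, 0⟩ ⟨553, -2, -2048, 12, 42, 312, 488474, 0, 0, 0, 0, 0, 0⟩))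
    (.s2
    (.leaf (.box ⟨513, -3, -2048, 30, 161, 274, 124398, 0, 0, 0, 0, 0, 0⟩ ⟨0, 0, 0, 0, 0, 0, 166164, 0, 0, 0, 0, 0, 0⟩ ⟨0, 0, 0, 0, 0, 0, 166164, 0, 0, 0, 0, 0, 0⟩ ⟨0, 0, 0, 0, 0, 0, 250149, 0, 0, 0, 0, 0, 0⟩ ⟨0, 0, 0, 0, 0, 0, 250149, 0, 0, 0, 0, 0, 0⟩ ⟨457, -1, -2048, 10, 46, 324, 505794, 0, 0, 0, 0, 0, 0⟩))
    (.s3
    (.leaf (.box ⟨289, -4, -2048, 20, 143, 271, 124342, 0, 0, 0, 0, 0, 0⟩ ⟨0, 0, 0, 0, 0, 0, 170258, 0, 0, 0, 0, 0, 0⟩ ⟨0, 0, 0, 0, 0, 0, 170258, 0, 0, 0, 0, 0, 0⟩ ⟨0, 0, 0, 0, 0, 0, 269936, 0, 0, 0, 0, 0, 0⟩ ⟨0, 0, 0, 0, 0, 0, 269936, 0, 0, 0, 0, 0, 0⟩ ⟨395, -1, -2606, 6, 38, 381, 651165, 0, 0, 0, 0, 0, 0⟩))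
    (.leaf (.box ⟨312, -4, -2048, 20, 138, 284, 138786, 0, 0, 0, 0, 0, 0⟩ ⟨0, 0, 0, 0, 0, 0, 183262, 0, 0, 0, 0, 0, 0⟩ ⟨0, 0, 0, 0, 0, 0, 183262, 0, 0, 0, 0, 0, 0⟩ ⟨0, 0, 0, 0, 0, 0, 269685, 0, 0, 0, 0, 0, 0⟩ ⟨0, 0, 0, 0, 0, 0, 269685, 0, 0, 0, 0, 0, 0⟩ ⟨333, -1, -2048, 7, 40, 307, 510366, 0, 0, 0, 0, 0, 0⟩))))

/-- A piece of the tree. -/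
noncomputable def tree32 : Tree LeafX :=
  .s3
    (.s0
    (.s2
    (.leaf (.box ⟨203, 0, -2048, 22, 161, 277, 130171, 0, 0, 0, 0, 0, 0⟩ ⟨0, 0, 0, 0, 0, 0, 177995, 0, 0, 0, 0, 0, 0⟩ ⟨0, 0, 0, 0, 0, 0, 177995, 0, 0, 0, 0, 0, 0⟩ ⟨0, 0, 0, 0, 0, 0, 281367, 0, 0, 0, 0, 0, 0⟩ ⟨0, 0, 0, 0, 0, 0, 281367, 0, 0, 0, 0, 0, 0⟩ ⟨255, 0, -2391, 6, 40, 355, 671133, 0, 0, 0, 0, 0, 0⟩))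
    (.s3
    (.leaf (.box ⟨153, -2, -2048, 15, 138, 264, 130217, 0, 0, 0, 0, 0, 0⟩ ⟨0, 0, 0, 0, 0, 0, 180447, 0, 0, 0, 0, 0, 0⟩ ⟨0, 0, 0, 0, 0, 0, 180447, 0, 0, 0, 0, 0, 0⟩ ⟨0, 0, 0, 0, 0, 0, 293764, 0, 0, 0, 0, 0, 0⟩ ⟨0, 0, 0, 0, 0, 0, 293764, 0, 0, 0, 0, 0, 0⟩ ⟨296, -1, -3608, 6, 43, 507, 789636, 0, 0, 0, 0, 0, 0⟩))
    (.leaf (.box ⟨165, -2, -2048, 16, 135, 269, 137252, 0, 0, 0, 0, 0, 0⟩ ⟨0, 0, 0, 0, 0, 0, 187009, 0, 0, 0, 0, 0, 0⟩ ⟨0, 0, 0, 0, 0, 0, 187009, 0, 0, 0, 0, 0, 0⟩ ⟨0, 0, 0, 0, 0, 0, 293356, 0, 0, 0, 0, 0, 0⟩ ⟨0, 0, 0, 0, 0, 0, 293356, 0, 0, 0, 0, 0, 0⟩ ⟨256, -1, -3150, 6, 45, 447, 680130, 0, 0, 0, 0, 0, 0⟩))))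
    (.s2
    (.s3
    (.leaf (.box ⟨168, 0, -2048, 19, 162, 280, 136161, 0, 0, 0, 0, 0, 0⟩ ⟨0, 0, 0, 0, 0, 0, 188410, 0, 0, 0, 0, 0, 0⟩ ⟨0, 0, 0, 0, 0, 0, 188410, 0, 0, 0, 0, 0, 0⟩ ⟨0, 0, 0, 0, 0, 0, 305726, 0, 0, 0, 0, 0, 0⟩ ⟨0, 0, 0, 0, 0, 0, 305726, 0, 0, 0, 0, 0, 0⟩ ⟨293, 0, -3152, 6, 46, 471, 810221, 0, 0, 0, 0, 0, 0⟩))
    (.leaf (.box ⟨177, 0, -2048, 19, 160, 286, 143169, 0, 0, 0, 0, 0, 0⟩ ⟨0, 0, 0, 0, 0, 0, 194742, 0, 0, 0, 0, 0, 0⟩ ⟨0, 0, 0, 0, 0, 0, 194742, 0, 0, 0, 0, 0, 0⟩ ⟨0, 0, 0, 0, 0, 0, 304389, 0, 0, 0, 0, 0, 0⟩ ⟨0, 0, 0, 0, 0, 0, 304389, 0, 0, 0, 0, 0, 0⟩ ⟨249, 0, -2582, 6, 45, 391, 696602, 0, 0, 0, 0, 0, 0⟩)))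
    (.s3
    (.s0
    (.leaf (.box ⟨136, -1, -2048, 13, 138, 269, 136355, 0, 0, 0, 0, 0, 0⟩ ⟨0, 0, 0, 0, 0, 0, 188920, 0, 0, 0, 0, 0, 0⟩ ⟨0, 0, 0, 0, 0, 0, 188920, 0, 0, 0, 0, 0, 0⟩ ⟨0, 0, 0, 0, 0, 0, 307435, 0, 0, 0, 0, 0, 0⟩ ⟨0, 0, 0, 0, 0, 0, 307435, 0, 0, 0, 0, 0, 0⟩ ⟨307, -1, -4172, 6, 50, 593, 824958, 0, 0, 0, 0, 0, 0⟩))
    (.leaf (.box ⟨144, -1, -2048, 13, 139, 271, 139697, 0, 0, 0, 0, 0, 0⟩ ⟨0, 0, 0, 0, 0, 0, 193530, 0, 0, 0, 0, 0, 0⟩ ⟨0, 0, 0, 0, 0, 0, 193530, 0, 0, 0, 0, 0, 0⟩ ⟨0, 0, 0, 0, 0, 0, 314864, 0, 0, 0, 0, 0, 0⟩ ⟨0, 0, 0, 0, 0, 0, 314864, 0, 0, 0, 0, 0, 0⟩ ⟨300, -1, -4167, 6, 50, 598, 844025, 0, 0, 0, 0, 0, 0⟩)))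
    (.s3
    (.leaf (.box ⟨143, -1, -2048, 14, 137, 274, 143628, 0, 0, 0, 0, 0, 0⟩ ⟨0, 0, 0, 0, 0, 0, 196928, 0, 0, 0, 0, 0, 0⟩ ⟨0, 0, 0, 0, 0, 0, 196928, 0, 0, 0, 0, 0, 0⟩ ⟨0, 0, 0, 0, 0, 0, 313125, 0, 0, 0, 0, 0, 0⟩ ⟨0, 0, 0, 0, 0, 0, 313125, 0, 0, 0, 0, 0, 0⟩ ⟨263, -1, -3443, 6, 46, 495, 763823, 0, 0, 0, 0, 0, 0⟩))
    (.leaf (.box ⟨144, -1, -2048, 15, 135, 277, 147541, 0, 0, 0, 0, 0, 0⟩ ⟨0, 0, 0, 0, 0, 0, 200505, 0, 0, 0, 0, 0, 0⟩ ⟨0, 0, 0, 0, 0, 0, 200505, 0, 0, 0, 0, 0, 0⟩ ⟨0, 0, 0, 0, 0, 0, 312786, 0, 0, 0, 0, 0, 0⟩ ⟨0, 0, 0, 0, 0, 0, 312786, 0, 0, 0, 0, 0, 0⟩ ⟨261, -1, -3422, 6, 50, 495, 710870, 0, 0, 0, 0, 0, 0⟩))))))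
    (.s0
    (.s3
    (.leaf (.box ⟨297, -2, -2048, 30, 135, 271, 144441, 0, 0, 0, 0, 0, 0⟩ ⟨0, 0, 0, 0, 0, 0, 192982, 0, 0, 0, 0, 0, 0⟩ ⟨0, 0, 0, 0, 0, 0, 192982, 0, 0, 0, 0, 0, 0⟩ ⟨0, 0, 0, 0, 0, 0, 290659, 0, 0, 0, 0, 0, 0⟩ ⟨0, 0, 0, 0, 0, 0, 290659, 0, 0, 0, 0, 0, 0⟩ ⟨270, 0, -2048, 8, 38, 302, 588558, 0, 0, 0, 0, 0, 0⟩))
    (.leaf (.box ⟨328, -2, -2048, 26, 135, 275, 152641, 0, 0, 0, 0, 0, 0⟩ ⟨0, 0, 0, 0, 0, 0, 199853, 0, 0, 0, 0, 0, 0⟩ ⟨0, 0, 0, 0, 0, 0, 199853, 0, 0, 0, 0, 0, 0⟩ ⟨0, 0, 0, 0, 0, 0, 289349, 0, 0, 0, 0, 0, 0⟩ ⟨0, 0, 0, 0, 0, 0, 289349, 0, 0, 0, 0, 0, 0⟩ ⟨284, -1, -2048, 9, 44, 306, 523998, 0, 0, 0, 0, 0, 0⟩)))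
    (.s2
    (.s3
    (.leaf (.box ⟨244, 0, -2048, 19, 154, 285, 150769, 0, 0, 0, 0, 0, 0⟩ ⟨0, 0, 0, 0, 0, 0, 201309, 0, 0, 0, 0, 0, 0⟩ ⟨0, 0, 0, 0, 0, 0, 201309, 0, 0, 0, 0, 0, 0⟩ ⟨0, 0, 0, 0, 0, 0, 302816, 0, 0, 0, 0, 0, 0⟩ ⟨0, 0, 0, 0, 0, 0, 302816, 0, 0, 0, 0, 0, 0⟩ ⟨209, 0, -2113, 6, 43, 325, 610806, 0, 0, 0, 0, 0, 0⟩))
    (.leaf (.box ⟨271, 1, -2048, 19, 149, 288, 158878, 0, 0, 0, 0, 0, 0⟩ ⟨0, 0, 0, 0, 0, 0, 207936, 0, 0, 0, 0, 0, 0⟩ ⟨0, 0, 0, 0, 0, 0, 207936, 0, 0, 0, 0, 0, 0⟩ ⟨0, 0, 0, 0, 0, 0, 300821, 0, 0, 0, 0, 0, 0⟩ ⟨0, 0, 0, 0, 0, 0, 300821, 0, 0, 0, 0, 0, 0⟩ ⟨217, 0, -2048, 6, 49, 319, 543687, 0, 0, 0, 0, 0, 0⟩)))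
    (.s3
    (.s3
    (.leaf (.box ⟨149, -1, -2048, 14, 134, 279, 151658, 0, 0, 0, 0, 0, 0⟩ ⟨0, 0, 0, 0, 0, 0, 204194, 0, 0, 0, 0, 0, 0⟩ ⟨0, 0, 0, 0, 0, 0, 204194, 0, 0, 0, 0, 0, 0⟩ ⟨0, 0, 0, 0, 0, 0, 312416, 0, 0, 0, 0, 0, 0⟩ ⟨0, 0, 0, 0, 0, 0, 312416, 0, 0, 0, 0, 0, 0⟩ ⟨230, -1, -2979, 6, 47, 433, 664716, 0, 0, 0, 0, 0, 0⟩))
    (.leaf (.box ⟨151, -1, -2048, 14, 133, 282, 155994, 0, 0, 0, 0, 0, 0⟩ ⟨0, 0, 0, 0, 0, 0, 208001, 0, 0, 0, 0, 0, 0⟩ ⟨0, 0, 0, 0, 0, 0, 208001, 0, 0, 0, 0, 0, 0⟩ ⟨0, 0, 0, 0, 0, 0, 312028, 0, 0, 0, 0, 0, 0⟩ ⟨0, 0, 0, 0, 0, 0, 312028, 0, 0, 0, 0, 0, 0⟩ ⟨220, -1, -2786, 6, 48, 407, 624214, 0, 0, 0, 0, 0, 0⟩)))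
    (.s3
    (.leaf (.box ⟨162, -1, -2048, 14, 131, 284, 160488, 0, 0, 0, 0, 0, 0⟩ ⟨0, 0, 0, 0, 0, 0, 211795, 0, 0, 0, 0, 0, 0⟩ ⟨0, 0, 0, 0, 0, 0, 211795, 0, 0, 0, 0, 0, 0⟩ ⟨0, 0, 0, 0, 0, 0, 311321, 0, 0, 0, 0, 0, 0⟩ ⟨0, 0, 0, 0, 0, 0, 311321, 0, 0, 0, 0, 0, 0⟩ ⟨231, -1, -2860, 6, 53, 420, 587304, 0, 0, 0, 0, 0, 0⟩))
    (.leaf (.box ⟨205, -1, -2048, 13, 127, 280, 164355, 0, 0, 0, 0, 0, 0⟩ ⟨0, 0, 0, 0, 0, 0, 214247, 0, 0, 0, 0, 0, 0⟩ ⟨0, 0, 0, 0, 0, 0, 214247, 0, 0, 0, 0, 0, 0⟩ ⟨0, 0, 0, 0, 0, 0, 307632, 0, 0, 0, 0, 0, 0⟩ ⟨0, 0, 0, 0, 0, 0, 307632, 0, 0, 0, 0, 0, 0⟩ ⟨201, -1, -2431, 6, 49, 359, 545326, 0, 0, 0, 0, 0, 0⟩))))))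

/-- A piece of the tree. -/
noncomputable def tree33 : Tree LeafX :=
  .s3
    (.s0
    (.leaf (.box ⟨265, -5, -2048, 29, 162, 295, 129430, 0, 0, 0, 0, 0, 0⟩ ⟨0, 0, 0, 0, 0, 0, 177086, 0, 0, 0, 0, 0, 0⟩ ⟨0, 0, 0, 0, 0, 0, 177086, 0, 0, 0, 0, 0, 0⟩ ⟨0, 0, 0, 0, 0, 0, 280287, 0, 0, 0, 0, 0, 0⟩ ⟨0, 0, 0, 0, 0, 0, 280287, 0, 0, 0, 0, 0, 0⟩ ⟨313, -1, -2048, 7, 34, 328, 671784, 0, 0, 0, 0, 0, 0⟩))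
    (.s2
    (.leaf (.box ⟨217, -2, -2048, 22, 175, 306, 135342, 0, 0, 0, 0, 0, 0⟩ ⟨0, 0, 0, 0, 0, 0, 185046, 0, 0, 0, 0, 0, 0⟩ ⟨0, 0, 0, 0, 0, 0, 185046, 0, 0, 0, 0, 0, 0⟩ ⟨0, 0, 0, 0, 0, 0, 292443, 0, 0, 0, 0, 0, 0⟩ ⟨0, 0, 0, 0, 0, 0, 292443, 0, 0, 0, 0, 0, 0⟩ ⟨256, -1, -2220, 6, 41, 369, 696929, 0, 0, 0, 0, 0, 0⟩))
    (.leaf (.box ⟨207, -3, -2048, 15, 151, 291, 135734, 0, 0, 0, 0, 0, 0⟩ ⟨0, 0, 0, 0, 0, 0, 185867, 0, 0, 0, 0, 0, 0⟩ ⟨0, 0, 0, 0, 0, 0, 185867, 0, 0, 0, 0, 0, 0⟩ ⟨0, 0, 0, 0, 0, 0, 294718, 0, 0, 0, 0, 0, 0⟩ ⟨0, 0, 0, 0, 0, 0, 294718, 0, 0, 0, 0, 0, 0⟩ ⟨314, -1, -3458, 6, 53, 543, 711266, 0, 0, 0, 0, 0, 0⟩))))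
    (.s2
    (.leaf (.box ⟨264, -3, -2048, 26, 174, 321, 144431, 0, 0, 0, 0, 0, 0⟩ ⟨0, 0, 0, 0, 0, 0, 190453, 0, 0, 0, 0, 0, 0⟩ ⟨0, 0, 0, 0, 0, 0, 190453, 0, 0, 0, 0, 0, 0⟩ ⟨0, 0, 0, 0, 0, 0, 279520, 0, 0, 0, 0, 0, 0⟩ ⟨0, 0, 0, 0, 0, 0, 279520, 0, 0, 0, 0, 0, 0⟩ ⟨289, -1, -2048, 9, 52, 352, 525076, 0, 0, 0, 0, 0, 0⟩))
    (.leaf (.box ⟨250, -6, -2048, 25, 156, 301, 144973, 0, 0, 0, 0, 0, 0⟩ ⟨0, 0, 0, 0, 0, 0, 191505, 0, 0, 0, 0, 0, 0⟩ ⟨0, 0, 0, 0, 0, 0, 191505, 0, 0, 0, 0, 0, 0⟩ ⟨0, 0, 0, 0, 0, 0, 282024, 0, 0, 0, 0, 0, 0⟩ ⟨0, 0, 0, 0, 0, 0, 282024, 0, 0, 0, 0, 0, 0⟩ ⟨210, -1, -2048, 6, 43, 329, 534821, 0, 0, 0, 0, 0, 0⟩)))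

/-- A piece of the tree. -/
noncomputable def tree34 : Tree LeafX :=
  .s0
    (.s3
    (.leaf (.box ⟨296, -7, -2048, 25, 126, 264, 119877, 0, 0, 0, 0, 0, 0⟩ ⟨0, 0, 0, 0, 0, 0, 164287, 0, 0, 0, 0, 0, 0⟩ ⟨0, 0, 0, 0, 0, 0, 164287, 0, 0, 0, 0, 0, 0⟩ ⟨0, 0, 0, 0, 0, 0, 260962, 0, 0, 0, 0, 0, 0⟩ ⟨0, 0, 0, 0, 0, 0, 260962, 0, 0, 0, 0, 0, 0⟩ ⟨274, -2, -2048, 6, 25, 288, 634098, 0, 0, 0, 0, 0, 0⟩))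
    (.leaf (.box ⟨308, -7, -2048, 24, 120, 274, 134321, 0, 0, 0, 0, 0, 0⟩ ⟨0, 0, 0, 0, 0, 0, 177531, 0, 0, 0, 0, 0, 0⟩ ⟨0, 0, 0, 0, 0, 0, 177531, 0, 0, 0, 0, 0, 0⟩ ⟨0, 0, 0, 0, 0, 0, 261723, 0, 0, 0, 0, 0, 0⟩ ⟨0, 0, 0, 0, 0, 0, 261723, 0, 0, 0, 0, 0, 0⟩ ⟨286, -2, -2048, 7, 34, 293, 497801, 0, 0, 0, 0, 0, 0⟩)))
    (.s3
    (.s0
    (.leaf (.box ⟨282, -5, -2048, 20, 123, 266, 131607, 0, 0, 0, 0, 0, 0⟩ ⟨0, 0, 0, 0, 0, 0, 180356, 0, 0, 0, 0, 0, 0⟩ ⟨0, 0, 0, 0, 0, 0, 180356, 0, 0, 0, 0, 0, 0⟩ ⟨0, 0, 0, 0, 0, 0, 286463, 0, 0, 0, 0, 0, 0⟩ ⟨0, 0, 0, 0, 0, 0, 286463, 0, 0, 0, 0, 0, 0⟩ ⟨295, -2, -2377, 6, 29, 341, 695850, 0, 0, 0, 0, 0, 0⟩))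
    (.s3
    (.leaf (.box ⟨213, -4, -2048, 19, 126, 277, 138453, 0, 0, 0, 0, 0, 0⟩ ⟨0, 0, 0, 0, 0, 0, 192041, 0, 0, 0, 0, 0, 0⟩ ⟨0, 0, 0, 0, 0, 0, 192041, 0, 0, 0, 0, 0, 0⟩ ⟨0, 0, 0, 0, 0, 0, 313305, 0, 0, 0, 0, 0, 0⟩ ⟨0, 0, 0, 0, 0, 0, 313305, 0, 0, 0, 0, 0, 0⟩ ⟨306, -1, -2890, 6, 30, 420, 850096, 0, 0, 0, 0, 0, 0⟩))
    (.leaf (.box ⟨223, -4, -2048, 19, 123, 282, 146485, 0, 0, 0, 0, 0, 0⟩ ⟨0, 0, 0, 0, 0, 0, 199767, 0, 0, 0, 0, 0, 0⟩ ⟨0, 0, 0, 0, 0, 0, 199767, 0, 0, 0, 0, 0, 0⟩ ⟨0, 0, 0, 0, 0, 0, 313969, 0, 0, 0, 0, 0, 0⟩ ⟨0, 0, 0, 0, 0, 0, 313969, 0, 0, 0, 0, 0, 0⟩ ⟨314, -1, -2810, 6, 35, 412, 733010, 0, 0, 0, 0, 0, 0⟩))))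
    (.s0
    (.leaf (.box ⟨257, -5, -2048, 20, 120, 282, 147450, 0, 0, 0, 0, 0, 0⟩ ⟨0, 0, 0, 0, 0, 0, 194879, 0, 0, 0, 0, 0, 0⟩ ⟨0, 0, 0, 0, 0, 0, 194879, 0, 0, 0, 0, 0, 0⟩ ⟨0, 0, 0, 0, 0, 0, 287287, 0, 0, 0, 0, 0, 0⟩ ⟨0, 0, 0, 0, 0, 0, 287287, 0, 0, 0, 0, 0, 0⟩ ⟨264, -2, -2048, 7, 34, 299, 546363, 0, 0, 0, 0, 0, 0⟩))
    (.s3
    (.leaf (.box ⟨223, -4, -2048, 18, 120, 286, 155122, 0, 0, 0, 0, 0, 0⟩ ⟨0, 0, 0, 0, 0, 0, 207693, 0, 0, 0, 0, 0, 0⟩ ⟨0, 0, 0, 0, 0, 0, 207693, 0, 0, 0, 0, 0, 0⟩ ⟨0, 0, 0, 0, 0, 0, 314161, 0, 0, 0, 0, 0, 0⟩ ⟨0, 0, 0, 0, 0, 0, 314161, 0, 0, 0, 0, 0, 0⟩ ⟨286, -1, -2523, 6, 37, 373, 644596, 0, 0, 0, 0, 0, 0⟩))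
    (.leaf (.box ⟨230, -4, -2048, 18, 117, 291, 164669, 0, 0, 0, 0, 0, 0⟩ ⟨0, 0, 0, 0, 0, 0, 216074, 0, 0, 0, 0, 0, 0⟩ ⟨0, 0, 0, 0, 0, 0, 216074, 0, 0, 0, 0, 0, 0⟩ ⟨0, 0, 0, 0, 0, 0, 314139, 0, 0, 0, 0, 0, 0⟩ ⟨0, 0, 0, 0, 0, 0, 314139, 0, 0, 0, 0, 0, 0⟩ ⟨237, -1, -2048, 6, 34, 305, 575187, 0, 0, 0, 0, 0, 0⟩)))))

/-- A piece of the tree. -/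
noncomputable def tree35 : Tree LeafX :=
  .s2
    (.s0
    (.leaf (.box ⟨757, -36, -2048, 64, 198, 366, 105401, 0, 0, 0, 0, 0, 0⟩ ⟨0, 0, 0, 0, 0, 0, 141396, 0, 0, 0, 0, 0, 0⟩ ⟨0, 0, 0, 0, 0, 0, 141396, 0, 0, 0, 0, 0, 0⟩ ⟨0, 0, 0, 0, 0, 0, 214723, 0, 0, 0, 0, 0, 0⟩ ⟨0, 0, 0, 0, 0, 0, 214723, 0, 0, 0, 0, 0, 0⟩ ⟨867, -11, -2048, 20, 52, 430, 446038, 0, 0, 0, 0, 0, 0⟩))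
    (.s0
    (.leaf (.box ⟨581, -20, -2048, 45, 195, 350, 120216, 0, 0, 0, 0, 0, 0⟩ ⟨0, 0, 0, 0, 0, 0, 160936, 0, 0, 0, 0, 0, 0⟩ ⟨0, 0, 0, 0, 0, 0, 160936, 0, 0, 0, 0, 0, 0⟩ ⟨0, 0, 0, 0, 0, 0, 243369, 0, 0, 0, 0, 0, 0⟩ ⟨0, 0, 0, 0, 0, 0, 243369, 0, 0, 0, 0, 0, 0⟩ ⟨656, -6, -2048, 14, 51, 397, 498925, 0, 0, 0, 0, 0, 0⟩))
    (.s3
    (.s2
    (.leaf (.box ⟨368, -10, -2048, 35, 200, 351, 129993, 0, 0, 0, 0, 0, 0⟩ ⟨0, 0, 0, 0, 0, 0, 177969, 0, 0, 0, 0, 0, 0⟩ ⟨0, 0, 0, 0, 0, 0, 177969, 0, 0, 0, 0, 0, 0⟩ ⟨0, 0, 0, 0, 0, 0, 282068, 0, 0, 0, 0, 0, 0⟩ ⟨0, 0, 0, 0, 0, 0, 282068, 0, 0, 0, 0, 0, 0⟩ ⟨423, -2, -2048, 8, 43, 402, 679572, 0, 0, 0, 0, 0, 0⟩))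
    (.leaf (.box ⟨315, -9, -2048, 21, 180, 334, 130198, 0, 0, 0, 0, 0, 0⟩ ⟨0, 0, 0, 0, 0, 0, 178557, 0, 0, 0, 0, 0, 0⟩ ⟨0, 0, 0, 0, 0, 0, 178557, 0, 0, 0, 0, 0, 0⟩ ⟨0, 0, 0, 0, 0, 0, 284063, 0, 0, 0, 0, 0, 0⟩ ⟨0, 0, 0, 0, 0, 0, 284063, 0, 0, 0, 0, 0, 0⟩ ⟨361, -3, -2254, 6, 40, 407, 694333, 0, 0, 0, 0, 0, 0⟩)))
    (.leaf (.box ⟨471, -15, -2048, 42, 184, 363, 145001, 0, 0, 0, 0, 0, 0⟩ ⟨0, 0, 0, 0, 0, 0, 191443, 0, 0, 0, 0, 0, 0⟩ ⟨0, 0, 0, 0, 0, 0, 191443, 0, 0, 0, 0, 0, 0⟩ ⟨0, 0, 0, 0, 0, 0, 281651, 0, 0, 0, 0, 0, 0⟩ ⟨0, 0, 0, 0, 0, 0, 281651, 0, 0, 0, 0, 0, 0⟩ ⟨548, -5, -2048, 14, 54, 399, 532625, 0, 0, 0, 0, 0, 0⟩)))))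
    (.s0
    (.leaf (.box ⟨488, -33, -2048, 51, 171, 328, 104888, 0, 0, 0, 0, 0, 0⟩ ⟨0, 0, 0, 0, 0, 0, 140789, 0, 0, 0, 0, 0, 0⟩ ⟨0, 0, 0, 0, 0, 0, 140789, 0, 0, 0, 0, 0, 0⟩ ⟨0, 0, 0, 0, 0, 0, 214056, 0, 0, 0, 0, 0, 0⟩ ⟨0, 0, 0, 0, 0, 0, 214056, 0, 0, 0, 0, 0, 0⟩ ⟨491, -8, -2048, 13, 42, 361, 446322, 0, 0, 0, 0, 0, 0⟩))
    (.s0
    (.leaf (.box ⟨348, -20, -2048, 37, 169, 322, 121400, 0, 0, 0, 0, 0, 0⟩ ⟨0, 0, 0, 0, 0, 0, 162938, 0, 0, 0, 0, 0, 0⟩ ⟨0, 0, 0, 0, 0, 0, 162938, 0, 0, 0, 0, 0, 0⟩ ⟨0, 0, 0, 0, 0, 0, 247684, 0, 0, 0, 0, 0, 0⟩ ⟨0, 0, 0, 0, 0, 0, 247684, 0, 0, 0, 0, 0, 0⟩ ⟨338, -5, -2048, 10, 41, 349, 516130, 0, 0, 0, 0, 0, 0⟩))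
    (.s3
    (.leaf (.box ⟨261, -15, -2048, 31, 165, 322, 132723, 0, 0, 0, 0, 0, 0⟩ ⟨0, 0, 0, 0, 0, 0, 182302, 0, 0, 0, 0, 0, 0⟩ ⟨0, 0, 0, 0, 0, 0, 182302, 0, 0, 0, 0, 0, 0⟩ ⟨0, 0, 0, 0, 0, 0, 291007, 0, 0, 0, 0, 0, 0⟩ ⟨0, 0, 0, 0, 0, 0, 291007, 0, 0, 0, 0, 0, 0⟩ ⟨265, -3, -2048, 7, 31, 348, 720834, 0, 0, 0, 0, 0, 0⟩))
    (.leaf (.box ⟨268, -13, -2048, 29, 157, 335, 150062, 0, 0, 0, 0, 0, 0⟩ ⟨0, 0, 0, 0, 0, 0, 198883, 0, 0, 0, 0, 0, 0⟩ ⟨0, 0, 0, 0, 0, 0, 198883, 0, 0, 0, 0, 0, 0⟩ ⟨0, 0, 0, 0, 0, 0, 294789, 0, 0, 0, 0, 0, 0⟩ ⟨0, 0, 0, 0, 0, 0, 294789, 0, 0, 0, 0, 0, 0⟩ ⟨280, -4, -2048, 9, 42, 355, 569335, 0, 0, 0, 0, 0, 0⟩)))))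

/-- A piece of the tree. -/
noncomputable def tree36 : Tree LeafX :=
  .s0
    (.s1
    (.leaf (.box ⟨1250, -172, -2048, 169, 257, 525, 89792, 0, 0, 0, 0, 0, 0⟩ ⟨0, 0, 0, 0, 0, 0, 120837, 0, 0, 0, 0, 0, 0⟩ ⟨0, 0, 0, 0, 0, 0, 120837, 0, 0, 0, 0, 0, 0⟩ ⟨0, 0, 0, 0, 0, 0, 184691, 0, 0, 0, 0, 0, 0⟩ ⟨0, 0, 0, 0, 0, 0, 184691, 0, 0, 0, 0, 0, 0⟩ ⟨1536, -44, -2048, 44, 64, 604, 391654, 0, 0, 0, 0, 0, 0⟩))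
    (.leaf (.box ⟨742, -288, -2048, 274, 283, 456, 93439, 0, 0, 0, 0, 0, 0⟩ ⟨0, 0, 0, 0, 0, 0, 126220, 0, 0, 0, 0, 0, 0⟩ ⟨0, 0, 0, 0, 0, 0, 126220, 0, 0, 0, 0, 0, 0⟩ ⟨0, 0, 0, 0, 0, 0, 194432, 0, 0, 0, 0, 0, 0⟩ ⟨0, 0, 0, 0, 0, 0, 194432, 0, 0, 0, 0, 0, 0⟩ ⟨823, -70, -2048, 69, 68, 527, 423065, 0, 0, 0, 0, 0, 0⟩)))
    (.s0
    (.s3
    (.leaf (.box ⟨701, -80, -2048, 93, 261, 391, 111619, 0, 0, 0, 0, 0, 0⟩ ⟨0, 0, 0, 0, 0, 0, 153609, 0, 0, 0, 0, 0, 0⟩ ⟨0, 0, 0, 0, 0, 0, 153609, 0, 0, 0, 0, 0, 0⟩ ⟨0, 0, 0, 0, 0, 0, 246243, 0, 0, 0, 0, 0, 0⟩ ⟨0, 0, 0, 0, 0, 0, 246243, 0, 0, 0, 0, 0, 0⟩ ⟨753, -17, -2048, 21, 47, 458, 620336, 0, 0, 0, 0, 0, 0⟩))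
    (.leaf (.box ⟨737, -82, -2048, 98, 223, 412, 127791, 0, 0, 0, 0, 0, 0⟩ ⟨0, 0, 0, 0, 0, 0, 169535, 0, 0, 0, 0, 0, 0⟩ ⟨0, 0, 0, 0, 0, 0, 169535, 0, 0, 0, 0, 0, 0⟩ ⟨0, 0, 0, 0, 0, 0, 251779, 0, 0, 0, 0, 0, 0⟩ ⟨0, 0, 0, 0, 0, 0, 251779, 0, 0, 0, 0, 0, 0⟩ ⟨863, -23, -2048, 28, 64, 469, 489005, 0, 0, 0, 0, 0, 0⟩)))
    (.s2
    (.s0
    (.leaf (.box ⟨630, -73, -2048, 99, 265, 449, 126196, 0, 0, 0, 0, 0, 0⟩ ⟨0, 0, 0, 0, 0, 0, 169338, 0, 0, 0, 0, 0, 0⟩ ⟨0, 0, 0, 0, 0, 0, 169338, 0, 0, 0, 0, 0, 0⟩ ⟨0, 0, 0, 0, 0, 0, 257299, 0, 0, 0, 0, 0, 0⟩ ⟨0, 0, 0, 0, 0, 0, 257299, 0, 0, 0, 0, 0, 0⟩ ⟨621, -17, -2048, 23, 67, 499, 535417, 0, 0, 0, 0, 0, 0⟩))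
    (.leaf (.box ⟨654, -63, -2048, 96, 261, 443, 134991, 0, 0, 0, 0, 0, 0⟩ ⟨0, 0, 0, 0, 0, 0, 180996, 0, 0, 0, 0, 0, 0⟩ ⟨0, 0, 0, 0, 0, 0, 180996, 0, 0, 0, 0, 0, 0⟩ ⟨0, 0, 0, 0, 0, 0, 274568, 0, 0, 0, 0, 0, 0⟩ ⟨0, 0, 0, 0, 0, 0, 274568, 0, 0, 0, 0, 0, 0⟩ ⟨613, -15, -2048, 23, 66, 494, 568442, 0, 0, 0, 0, 0, 0⟩)))
    (.s1
    (.s0
    (.leaf (.box ⟨294, -41, -2048, 58, 213, 369, 128835, 0, 0, 0, 0, 0, 0⟩ ⟨0, 0, 0, 0, 0, 0, 173601, 0, 0, 0, 0, 0, 0⟩ ⟨0, 0, 0, 0, 0, 0, 173601, 0, 0, 0, 0, 0, 0⟩ ⟨0, 0, 0, 0, 0, 0, 266038, 0, 0, 0, 0, 0, 0⟩ ⟨0, 0, 0, 0, 0, 0, 266038, 0, 0, 0, 0, 0, 0⟩ ⟨281, -9, -2048, 13, 50, 399, 569033, 0, 0, 0, 0, 0, 0⟩))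
    (.s3
    (.s1
    (.leaf (.box ⟨285, -25, -2048, 41, 202, 374, 140225, 0, 0, 0, 0, 0, 0⟩ ⟨0, 0, 0, 0, 0, 0, 193245, 0, 0, 0, 0, 0, 0⟩ ⟨0, 0, 0, 0, 0, 0, 193245, 0, 0, 0, 0, 0, 0⟩ ⟨0, 0, 0, 0, 0, 0, 310733, 0, 0, 0, 0, 0, 0⟩ ⟨0, 0, 0, 0, 0, 0, 310733, 0, 0, 0, 0, 0, 0⟩ ⟨199, -4, -2048, 7, 35, 384, 792644, 0, 0, 0, 0, 0, 0⟩))
    (.leaf (.box ⟨235, -32, -2048, 47, 217, 385, 145967, 0, 0, 0, 0, 0, 0⟩ ⟨0, 0, 0, 0, 0, 0, 201450, 0, 0, 0, 0, 0, 0⟩ ⟨0, 0, 0, 0, 0, 0, 201450, 0, 0, 0, 0, 0, 0⟩ ⟨0, 0, 0, 0, 0, 0, 324975, 0, 0, 0, 0, 0, 0⟩ ⟨0, 0, 0, 0, 0, 0, 324975, 0, 0, 0, 0, 0, 0⟩ ⟨200, -5, -2048, 8, 38, 404, 840112, 0, 0, 0, 0, 0, 0⟩)))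
    (.s2
    (.leaf (.box ⟨232, -24, -2048, 37, 190, 389, 161207, 0, 0, 0, 0, 0, 0⟩ ⟨0, 0, 0, 0, 0, 0, 214388, 0, 0, 0, 0, 0, 0⟩ ⟨0, 0, 0, 0, 0, 0, 214388, 0, 0, 0, 0, 0, 0⟩ ⟨0, 0, 0, 0, 0, 0, 319928, 0, 0, 0, 0, 0, 0⟩ ⟨0, 0, 0, 0, 0, 0, 319928, 0, 0, 0, 0, 0, 0⟩ ⟨214, -6, -2048, 10, 50, 413, 630138, 0, 0, 0, 0, 0, 0⟩))
    (.leaf (.box ⟨201, -24, -2048, 41, 183, 375, 171177, 0, 0, 0, 0, 0, 0⟩ ⟨0, 0, 0, 0, 0, 0, 227816, 0, 0, 0, 0, 0, 0⟩ ⟨0, 0, 0, 0, 0, 0, 227816, 0, 0, 0, 0, 0, 0⟩ ⟨0, 0, 0, 0, 0, 0, 340469, 0, 0, 0, 0, 0, 0⟩ ⟨0, 0, 0, 0, 0, 0, 340469, 0, 0, 0, 0, 0, 0⟩ ⟨175, -6, -2048, 11, 47, 396, 673517, 0, 0, 0, 0, 0, 0⟩)))))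
    (.s2
    (.leaf (.box ⟨214, -54, -2048, 68, 260, 406, 139616, 0, 0, 0, 0, 0, 0⟩ ⟨0, 0, 0, 0, 0, 0, 188757, 0, 0, 0, 0, 0, 0⟩ ⟨0, 0, 0, 0, 0, 0, 188757, 0, 0, 0, 0, 0, 0⟩ ⟨0, 0, 0, 0, 0, 0, 291279, 0, 0, 0, 0, 0, 0⟩ ⟨0, 0, 0, 0, 0, 0, 291279, 0, 0, 0, 0, 0, 0⟩ ⟨194, -11, -2048, 15, 59, 441, 637571, 0, 0, 0, 0, 0, 0⟩))
    (.leaf (.box ⟨202, -43, -2048, 60, 247, 392, 146665, 0, 0, 0, 0, 0, 0⟩ ⟨0, 0, 0, 0, 0, 0, 198454, 0, 0, 0, 0, 0, 0⟩ ⟨0, 0, 0, 0, 0, 0, 198454, 0, 0, 0, 0, 0, 0⟩ ⟨0, 0, 0, 0, 0, 0, 306778, 0, 0, 0, 0, 0, 0⟩ ⟨0, 0, 0, 0, 0, 0, 306778, 0, 0, 0, 0, 0, 0⟩ ⟨181, -9, -2048, 13, 55, 426, 675491, 0, 0, 0, 0, 0, 0⟩))))))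

/-- A piece of the tree. -/
noncomputable def tree37 : Tree LeafX :=
  .s1
    (.s0
    (.s2
    (.leaf (.box ⟨2048, -142, 995, 163, 81, 351, 50289, 0, 0, 0, 0, 0, 0⟩ ⟨0, 0, 0, 0, 0, 0, 67089, 0, 0, 0, 0, 0, 0⟩ ⟨0, 0, 0, 0, 0, 0, 67089, 0, 0, 0, 0, 0, 0⟩ ⟨0, 0, 0, 0, 0, 0, 100741, 0, 0, 0, 0, 0, 0⟩ ⟨0, 0, 0, 0, 0, 0, 100741, 0, 0, 0, 0, 0, 0⟩ ⟨2048, -47, 1420, 51, 24, 441, 202137, 0, 0, 0, 0, 0, 0⟩))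
    (.leaf (.box ⟨2048, -81, 540, 92, 11, 74, 42752, 0, 0, 0, 0, 0, 0⟩ ⟨0, 0, 0, 0, 0, 0, 57122, 0, 0, 0, 0, 0, 0⟩ ⟨0, 0, 0, 0, 0, 0, 57122, 0, 0, 0, 0, 0, 0⟩ ⟨0, 0, 0, 0, 0, 0, 86044, 0, 0, 0, 0, 0, 0⟩ ⟨0, 0, 0, 0, 0, 0, 86044, 0, 0, 0, 0, 0, 0⟩ ⟨2048, -21, 568, 23, 2, 72, 174284, 0, 0, 0, 0, 0, 0⟩)))
    (.leaf (.box ⟨2048, -109, 255, 152, 25, 240, 61170, 0, 0, 0, 0, 36137348, 0⟩ ⟨0, 0, 0, 0, 0, 0, 81749, 0, 0, 0, 0, 0, 0⟩ ⟨0, 0, 0, 0, 0, 0, 81749, 0, 0, 0, 0, 0, 0⟩ ⟨0, 0, 0, 0, 0, 0, 123195, 0, 0, 0, 0, 0, 0⟩ ⟨0, 0, 0, 0, 0, 0, 123195, 0, 0, 0, 0, 0, 0⟩ ⟨2048, -25, 182, 33, 4, 206, 249878, 0, 0, 0, 0, 0, 0⟩)))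
    (.s0
    (.leaf (.box ⟨2048, -274, 263, 226, -49, 72, 62696, 0, 0, 0, 0, 0, 0⟩ ⟨0, 0, 0, 0, 0, 0, 83780, 0, 0, 0, 0, 0, 0⟩ ⟨0, 0, 0, 0, 0, 0, 83780, 0, 0, 0, 0, 0, 0⟩ ⟨0, 0, 0, 0, 0, 0, 126230, 0, 0, 0, 0, 0, 0⟩ ⟨0, 0, 0, 0, 0, 0, 126230, 0, 0, 0, 0, 0, 0⟩ ⟨2048, -72, 214, 56, -11, 69, 255874, 0, 0, 0, 0, 0, 0⟩))
    (.s2
    (.leaf (.box ⟨2048, -958, -744, 780, -28, 565, 77746, 0, 0, 0, 0, 0, 0⟩ ⟨0, 0, 0, 0, 0, 0, 104531, 0, 0, 0, 0, 0, 0⟩ ⟨0, 0, 0, 0, 0, 0, 104531, 0, 0, 0, 0, 0, 0⟩ ⟨0, 0, 0, 0, 0, 0, 159471, 0, 0, 0, 0, 0, 0⟩ ⟨0, 0, 0, 0, 0, 0, 159471, 0, 0, 0, 0, 0, 0⟩ ⟨2048, -224, -536, 180, -9, 569, 336145, 0, 0, 0, 0, 0, 0⟩))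
    (.leaf (.box ⟨2048, -192, -222, 172, -28, 86, 70098, 0, 0, 0, 0, 0, 0⟩ ⟨0, 0, 0, 0, 0, 0, 94364, 0, 0, 0, 0, 0, 0⟩ ⟨0, 0, 0, 0, 0, 0, 94364, 0, 0, 0, 0, 0, 0⟩ ⟨0, 0, 0, 0, 0, 0, 144323, 0, 0, 0, 0, 0, 0⟩ ⟨0, 0, 0, 0, 0, 0, 144323, 0, 0, 0, 0, 0, 0⟩ ⟨2048, -45, -224, 40, -6, 82, 306697, 0, 0, 0, 0, 0, 0⟩))))

/-- A piece of the tree. -/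
noncomputable def tree38 : Tree LeafX :=
  .s1
    (.s0
    (.s2
    (.leaf (.box ⟨1449, -83, -2048, 170, 133, 351, 74271, 0, 0, 0, 0, 0, 0⟩ ⟨0, 0, 0, 0, 0, 0, 99149, 0, 0, 0, 0, 0, 0⟩ ⟨0, 0, 0, 0, 0, 0, 99149, 0, 0, 0, 0, 0, 0⟩ ⟨0, 0, 0, 0, 0, 0, 149085, 0, 0, 0, 0, 0, 0⟩ ⟨0, 0, 0, 0, 0, 0, 149085, 0, 0, 0, 0, 0, 0⟩ ⟨1491, -20, -2048, 43, 35, 387, 300365, 0, 0, 0, 0, 0, 0⟩))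
    (.leaf (.box ⟨1295, -41, -2048, 206, 98, 326, 71488, 0, 0, 0, 0, 47798044388, 0⟩ ⟨0, 0, 0, 0, 0, 0, 95265, 0, 0, 0, 0, 0, 0⟩ ⟨0, 0, 0, 0, 0, 0, 95265, 0, 0, 0, 0, 0, 0⟩ ⟨0, 0, 0, 0, 0, 0, 142737, 0, 0, 0, 0, 0, 0⟩ ⟨0, 0, 0, 0, 0, 0, 142737, 0, 0, 0, 0, 0, 0⟩ ⟨1313, -10, -2048, 53, 26, 352, 284522, 0, 0, 0, 0, 68648636210, 0⟩)))
    (.s1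
    (.s2
    (.leaf (.box ⟨502, -15, -2048, 68, 127, 277, 102834, 0, 0, 0, 0, 0, 0⟩ ⟨0, 0, 0, 0, 0, 0, 137604, 0, 0, 0, 0, 0, 0⟩ ⟨0, 0, 0, 0, 0, 0, 137604, 0, 0, 0, 0, 0, 0⟩ ⟨0, 0, 0, 0, 0, 0, 207898, 0, 0, 0, 0, 0, 0⟩ ⟨0, 0, 0, 0, 0, 0, 207898, 0, 0, 0, 0, 0, 0⟩ ⟨370, -4, -2048, 17, 32, 295, 425007, 0, 0, 0, 0, 0, 0⟩))
    (.leaf (.box ⟨511, -10, -2048, 109, 119, 294, 108344, 0, 0, 0, 0, 10026076982, 0⟩ ⟨0, 0, 0, 0, 0, 0, 144783, 0, 0, 0, 0, 0, 0⟩ ⟨0, 0, 0, 0, 0, 0, 144783, 0, 0, 0, 0, 0, 0⟩ ⟨0, 0, 0, 0, 0, 0, 218152, 0, 0, 0, 0, 0, 0⟩ ⟨0, 0, 0, 0, 0, 0, 218152, 0, 0, 0, 0, 0, 0⟩ ⟨359, -2, -2048, 28, 29, 302, 442277, 0, 0, 0, 0, 17981456655, 0⟩)))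
    (.s2
    (.s3
    (.leaf (.box ⟨304, -48, -2048, 126, 228, 307, 106486, 0, 0, 0, 0, 0, 0⟩ ⟨0, 0, 0, 0, 0, 0, 146345, 0, 0, 0, 0, 0, 0⟩ ⟨0, 0, 0, 0, 0, 0, 146345, 0, 0, 0, 0, 0, 0⟩ ⟨0, 0, 0, 0, 0, 0, 233893, 0, 0, 0, 0, 0, 0⟩ ⟨0, 0, 0, 0, 0, 0, 233893, 0, 0, 0, 0, 0, 0⟩ ⟨306, -7, -2048, 20, 34, 339, 582157, 0, 0, 0, 0, 0, 0⟩))
    (.leaf (.box ⟨296, -35, -2048, 96, 169, 328, 120725, 0, 0, 0, 0, 0, 0⟩ ⟨0, 0, 0, 0, 0, 0, 160094, 0, 0, 0, 0, 0, 0⟩ ⟨0, 0, 0, 0, 0, 0, 160094, 0, 0, 0, 0, 0, 0⟩ ⟨0, 0, 0, 0, 0, 0, 237564, 0, 0, 0, 0, 0, 0⟩ ⟨0, 0, 0, 0, 0, 0, 237564, 0, 0, 0, 0, 0, 0⟩ ⟨288, -10, -2048, 27, 45, 347, 460306, 0, 0, 0, 0, 0, 0⟩)))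
    (.leaf (.box ⟨343, -26, -2048, 154, 186, 324, 113888, 0, 0, 0, 0, 23768121976, 0⟩ ⟨0, 0, 0, 0, 0, 0, 152675, 0, 0, 0, 0, 0, 0⟩ ⟨0, 0, 0, 0, 0, 0, 152675, 0, 0, 0, 0, 0, 0⟩ ⟨0, 0, 0, 0, 0, 0, 231522, 0, 0, 0, 0, 0, 0⟩ ⟨0, 0, 0, 0, 0, 0, 231522, 0, 0, 0, 0, 0, 0⟩ ⟨302, -6, -2048, 38, 46, 342, 478790, 0, 0, 0, 0, 38162311851, 0⟩)))))
    (.s0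
    (.s2
    (.leaf (.box ⟨1169, -339, -2048, 429, 165, 427, 85930, 0, 0, 0, 0, 0, 0⟩ ⟨0, 0, 0, 0, 0, 0, 115632, 0, 0, 0, 0, 0, 0⟩ ⟨0, 0, 0, 0, 0, 0, 115632, 0, 0, 0, 0, 0, 0⟩ ⟨0, 0, 0, 0, 0, 0, 176713, 0, 0, 0, 0, 0, 0⟩ ⟨0, 0, 0, 0, 0, 0, 176713, 0, 0, 0, 0, 0, 0⟩ ⟨1120, -84, -2048, 111, 40, 498, 374580, 0, 0, 0, 0, 0, 0⟩))
    (.s1
    (.leaf (.box ⟨985, -93, -2048, 210, 151, 388, 83272, 0, 0, 0, 0, 62849418080, 0⟩ ⟨0, 0, 0, 0, 0, 0, 111809, 0, 0, 0, 0, 0, 0⟩ ⟨0, 0, 0, 0, 0, 0, 111809, 0, 0, 0, 0, 0, 0⟩ ⟨0, 0, 0, 0, 0, 0, 170099, 0, 0, 0, 0, 0, 0⟩ ⟨0, 0, 0, 0, 0, 0, 170099, 0, 0, 0, 0, 0, 0⟩ ⟨1009, -22, -2048, 52, 36, 419, 355366, 0, 0, 0, 0, 69873178340, 0⟩))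
    (.leaf (.box ⟨1736, -245, -2048, 516, -18, 406, 79783, 0, 0, 0, 0, 0, 0⟩ ⟨0, 0, 0, 0, 0, 0, 107435, 0, 0, 0, 0, 0, 0⟩ ⟨0, 0, 0, 0, 0, 0, 107435, 0, 0, 0, 0, 0, 0⟩ ⟨0, 0, 0, 0, 0, 0, 164420, 0, 0, 0, 0, 0, 0⟩ ⟨0, 0, 0, 0, 0, 0, 164420, 0, 0, 0, 0, 0, 0⟩ ⟨1903, -55, -2048, 121, -6, 428, 350142, 0, 0, 0, 0, 0, 0⟩))))
    (.s2
    (.s1
    (.s0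
    (.leaf (.box ⟨271, -35, -2048, 64, 206, 359, 115627, 0, 0, 0, 0, 0, 0⟩ ⟨0, 0, 0, 0, 0, 0, 155886, 0, 0, 0, 0, 0, 0⟩ ⟨0, 0, 0, 0, 0, 0, 155886, 0, 0, 0, 0, 0, 0⟩ ⟨0, 0, 0, 0, 0, 0, 239152, 0, 0, 0, 0, 0, 0⟩ ⟨0, 0, 0, 0, 0, 0, 239152, 0, 0, 0, 0, 0, 0⟩ ⟨269, -8, -2048, 16, 48, 389, 513365, 0, 0, 0, 0, 0, 0⟩))
    (.s3
    (.leaf (.box ⟨199, -34, -2048, 73, 209, 351, 142272, 0, 0, 0, 0, 0, 0⟩ ⟨0, 0, 0, 0, 0, 0, 196193, 0, 0, 0, 0, 0, 0⟩ ⟨0, 0, 0, 0, 0, 0, 196193, 0, 0, 0, 0, 0, 0⟩ ⟨0, 0, 0, 0, 0, 0, 315927, 0, 0, 0, 0, 0, 0⟩ ⟨0, 0, 0, 0, 0, 0, 315927, 0, 0, 0, 0, 0, 0⟩ ⟨176, -6, -2048, 13, 38, 379, 810672, 0, 0, 0, 0, 0, 0⟩))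
    (.leaf (.box ⟨191, -30, -2048, 68, 195, 367, 164114, 0, 0, 0, 0, 0, 0⟩ ⟨0, 0, 0, 0, 0, 0, 218399, 0, 0, 0, 0, 0, 0⟩ ⟨0, 0, 0, 0, 0, 0, 218399, 0, 0, 0, 0, 0, 0⟩ ⟨0, 0, 0, 0, 0, 0, 326345, 0, 0, 0, 0, 0, 0⟩ ⟨0, 0, 0, 0, 0, 0, 326345, 0, 0, 0, 0, 0, 0⟩ ⟨172, -7, -2048, 18, 51, 389, 645286, 0, 0, 0, 0, 0, 0⟩))))
    (.leaf (.box ⟨272, -105, -2048, 197, 247, 390, 126243, 0, 0, 0, 0, 0, 0⟩ ⟨0, 0, 0, 0, 0, 0, 170745, 0, 0, 0, 0, 0, 0⟩ ⟨0, 0, 0, 0, 0, 0, 170745, 0, 0, 0, 0, 0, 0⟩ ⟨0, 0, 0, 0, 0, 0, 263699, 0, 0, 0, 0, 0, 0⟩ ⟨0, 0, 0, 0, 0, 0, 263699, 0, 0, 0, 0, 0, 0⟩ ⟨298, -23, -2048, 46, 55, 428, 578804, 0, 0, 0, 0, 0, 0⟩)))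
    (.leaf (.box ⟨457, -83, -2048, 318, 232, 378, 125573, 0, 0, 0, 0, 43051635148, 0⟩ ⟨0, 0, 0, 0, 0, 0, 168974, 0, 0, 0, 0, 0, 0⟩ ⟨0, 0, 0, 0, 0, 0, 168974, 0, 0, 0, 0, 0, 0⟩ ⟨0, 0, 0, 0, 0, 0, 258219, 0, 0, 0, 0, 0, 0⟩ ⟨0, 0, 0, 0, 0, 0, 258219, 0, 0, 0, 0, 0, 0⟩ ⟨430, -20, -2048, 79, 55, 407, 547257, 0, 0, 0, 0, 56811900022, 0⟩))))

/-- A piece of the tree. -/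
noncomputable def tree39 : Tree LeafX :=
  .s1
    (.leaf (.skip 0 8))
    (.s0
    (.leaf (.box ⟨631, 55, -2048, 128, 181, 257, 179802, 0, 0, 0, 0, 0, 0⟩ ⟨0, 0, 0, 0, 0, 0, 238514, 0, 0, 0, 0, 0, 0⟩ ⟨0, 0, 0, 0, 0, 0, 238514, 0, 0, 0, 0, 0, 0⟩ ⟨0, 0, 0, 0, 0, 0, 354160, 0, 0, 0, 0, 0, 0⟩ ⟨0, 0, 0, 0, 0, 0, 354160, 0, 0, 0, 0, 0, 0⟩ ⟨647, 14, -2048, 27, 45, 253, 687499, 0, 0, 0, 0, 0, 0⟩))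
    (.leaf (.box ⟨733, 67, -2048, 134, 156, 352, 301281, 0, 0, 0, 0, 0, 0⟩ ⟨0, 0, 0, 0, 0, 0, 398098, 0, 0, 0, 0, 0, 0⟩ ⟨0, 0, 0, 0, 0, 0, 398098, 0, 0, 0, 0, 0, 0⟩ ⟨0, 0, 0, 0, 0, 0, 586603, 0, 0, 0, 0, 0, 0⟩ ⟨0, 0, 0, 0, 0, 0, 586603, 0, 0, 0, 0, 0, 0⟩ ⟨687, 17, -2048, 29, 37, 336, 1114182, 0, 0, 0, 0, 0, 0⟩)))

/-- A piece of the tree. -/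
noncomputable def tree40 : Tree LeafX :=
  .s2
    (.s0
    (.s3
    (.leaf (.box ⟨319, 16, -2048, 51, 163, 257, 160660, 0, 0, 0, 0, 0, 0⟩ ⟨0, 0, 0, 0, 0, 0, 218784, 0, 0, 0, 0, 0, 0⟩ ⟨0, 0, 0, 0, 0, 0, 218784, 0, 0, 0, 0, 0, 0⟩ ⟨0, 0, 0, 0, 0, 0, 342803, 0, 0, 0, 0, 0, 0⟩ ⟨0, 0, 0, 0, 0, 0, 342803, 0, 0, 0, 0, 0, 0⟩ ⟨329, 4, -2048, 10, 33, 258, 791427, 0, 0, 0, 0, 0, 0⟩))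
    (.s0
    (.s2
    (.leaf (.box ⟨211, 11, -2048, 32, 153, 252, 174420, 0, 0, 0, 0, 0, 0⟩ ⟨0, 0, 0, 0, 0, 0, 229020, 0, 0, 0, 0, 0, 0⟩ ⟨0, 0, 0, 0, 0, 0, 229020, 0, 0, 0, 0, 0, 0⟩ ⟨0, 0, 0, 0, 0, 0, 333379, 0, 0, 0, 0, 0, 0⟩ ⟨0, 0, 0, 0, 0, 0, 333379, 0, 0, 0, 0, 0, 0⟩ ⟨221, 4, -2048, 9, 44, 254, 612467, 0, 0, 0, 0, 0, 0⟩))
    (.leaf (.box ⟨202, 9, -2048, 33, 137, 244, 174538, 0, 0, 0, 0, 0, 0⟩ ⟨0, 0, 0, 0, 0, 0, 229337, 0, 0, 0, 0, 0, 0⟩ ⟨0, 0, 0, 0, 0, 0, 229337, 0, 0, 0, 0, 0, 0⟩ ⟨0, 0, 0, 0, 0, 0, 334294, 0, 0, 0, 0, 0, 0⟩ ⟨0, 0, 0, 0, 0, 0, 334294, 0, 0, 0, 0, 0, 0⟩ ⟨218, 3, -2048, 9, 39, 245, 616384, 0, 0, 0, 0, 0, 0⟩)))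
    (.leaf (.box ⟨220, 13, -2048, 37, 147, 266, 195279, 0, 0, 0, 0, 0, 0⟩ ⟨0, 0, 0, 0, 0, 0, 256017, 0, 0, 0, 0, 0, 0⟩ ⟨0, 0, 0, 0, 0, 0, 256017, 0, 0, 0, 0, 0, 0⟩ ⟨0, 0, 0, 0, 0, 0, 371595, 0, 0, 0, 0, 0, 0⟩ ⟨0, 0, 0, 0, 0, 0, 371595, 0, 0, 0, 0, 0, 0⟩ ⟨244, 4, -2048, 11, 42, 265, 677404, 0, 0, 0, 0, 0, 0⟩))))
    (.leaf (.box ⟨291, 19, -2048, 52, 170, 297, 199641, 0, 0, 0, 0, 0, 0⟩ ⟨0, 0, 0, 0, 0, 0, 264505, 0, 0, 0, 0, 0, 0⟩ ⟨0, 0, 0, 0, 0, 0, 264505, 0, 0, 0, 0, 0, 0⟩ ⟨0, 0, 0, 0, 0, 0, 391799, 0, 0, 0, 0, 0, 0⟩ ⟨0, 0, 0, 0, 0, 0, 391799, 0, 0, 0, 0, 0, 0⟩ ⟨310, 6, -2048, 13, 43, 292, 755287, 0, 0, 0, 0, 0, 0⟩)))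
    (.s3
    (.leaf (.box ⟨570, 17, -2048, 78, 147, 274, 161537, 0, 0, 0, 0, 0, 0⟩ ⟨559, 12, -2048, 53, 103, 273, 230291, 0, 0, 0, 0, 0, 0⟩ ⟨559, 12, -2048, 53, 103, 273, 230291, 0, 0, 0, 0, 0, 0⟩ ⟨567, 8, -2048, 34, 64, 272, 366589, 0, 0, 0, 0, 0, 0⟩ ⟨567, 8, -2048, 34, 64, 272, 366589, 0, 0, 0, 0, 0, 0⟩ ⟨549, 4, -2048, 14, 29, 272, 805085, 0, 0, 0, 0, 0, 0⟩))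
    (.leaf (.box ⟨559, 14, -2048, 60, 126, 250, 176421, 0, 0, 0, 0, 0, 0⟩ ⟨0, 0, 0, 0, 0, 0, 232076, 0, 0, 0, 0, 0, 0⟩ ⟨0, 0, 0, 0, 0, 0, 232076, 0, 0, 0, 0, 0, 0⟩ ⟨0, 0, 0, 0, 0, 0, 339028, 0, 0, 0, 0, 0, 0⟩ ⟨0, 0, 0, 0, 0, 0, 339028, 0, 0, 0, 0, 0, 0⟩ ⟨547, 5, -2048, 18, 38, 270, 628816, 0, 0, 0, 0, 0, 0⟩)))

/-- A piece of the tree. -/
noncomputable def tree41 : Tree LeafX :=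
  .s2
    (.s0
    (.s1
    (.leaf (.box ⟨207, 7, -2048, 36, 154, 261, 151819, 0, 0, 0, 0, 0, 0⟩ ⟨0, 0, 0, 0, 0, 0, 206928, 0, 0, 0, 0, 0, 0⟩ ⟨0, 0, 0, 0, 0, 0, 206928, 0, 0, 0, 0, 0, 0⟩ ⟨0, 0, 0, 0, 0, 0, 324843, 0, 0, 0, 0, 0, 0⟩ ⟨0, 0, 0, 0, 0, 0, 324843, 0, 0, 0, 0, 0, 0⟩ ⟨201, 1, -2048, 7, 31, 269, 755158, 0, 0, 0, 0, 0, 0⟩))
    (.s3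
    (.s0
    (.s2
    (.leaf (.box ⟨144, 3, -2048, 18, 157, 272, 146453, 0, 0, 0, 0, 0, 0⟩ ⟨0, 0, 0, 0, 0, 0, 202321, 0, 0, 0, 0, 0, 0⟩ ⟨0, 0, 0, 0, 0, 0, 202321, 0, 0, 0, 0, 0, 0⟩ ⟨0, 0, 0, 0, 0, 0, 327097, 0, 0, 0, 0, 0, 0⟩ ⟨0, 0, 0, 0, 0, 0, 327097, 0, 0, 0, 0, 0, 0⟩ ⟨257, 1, -3257, 6, 46, 458, 853434, 0, 0, 0, 0, 0, 0⟩))
    (.leaf (.box ⟨128, 1, -2048, 15, 136, 263, 146779, 0, 0, 0, 0, 0, 0⟩ ⟨0, 0, 0, 0, 0, 0, 203021, 0, 0, 0, 0, 0, 0⟩ ⟨0, 0, 0, 0, 0, 0, 203021, 0, 0, 0, 0, 0, 0⟩ ⟨0, 0, 0, 0, 0, 0, 329137, 0, 0, 0, 0, 0, 0⟩ ⟨0, 0, 0, 0, 0, 0, 329137, 0, 0, 0, 0, 0, 0⟩ ⟨256, 0, -3886, 6, 46, 526, 868884, 0, 0, 0, 0, 0, 0⟩)))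
    (.leaf (.box ⟨170, 3, -2048, 27, 148, 276, 154255, 0, 0, 0, 0, 0, 0⟩ ⟨0, 0, 0, 0, 0, 0, 212988, 0, 0, 0, 0, 0, 0⟩ ⟨0, 0, 0, 0, 0, 0, 212988, 0, 0, 0, 0, 0, 0⟩ ⟨0, 0, 0, 0, 0, 0, 343945, 0, 0, 0, 0, 0, 0⟩ ⟨0, 0, 0, 0, 0, 0, 343945, 0, 0, 0, 0, 0, 0⟩ ⟨216, 1, -2408, 6, 32, 340, 893033, 0, 0, 0, 0, 0, 0⟩)))
    (.s0
    (.s2
    (.leaf (.box ⟨150, 3, -2048, 18, 155, 276, 153193, 0, 0, 0, 0, 0, 0⟩ ⟨0, 0, 0, 0, 0, 0, 208036, 0, 0, 0, 0, 0, 0⟩ ⟨0, 0, 0, 0, 0, 0, 208036, 0, 0, 0, 0, 0, 0⟩ ⟨0, 0, 0, 0, 0, 0, 324039, 0, 0, 0, 0, 0, 0⟩ ⟨0, 0, 0, 0, 0, 0, 324039, 0, 0, 0, 0, 0, 0⟩ ⟨220, 1, -2729, 6, 46, 387, 732482, 0, 0, 0, 0, 0, 0⟩))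
    (.s2
    (.leaf (.box ⟨121, 1, -2048, 12, 138, 268, 153857, 0, 0, 0, 0, 0, 0⟩ ⟨0, 0, 0, 0, 0, 0, 209245, 0, 0, 0, 0, 0, 0⟩ ⟨0, 0, 0, 0, 0, 0, 209245, 0, 0, 0, 0, 0, 0⟩ ⟨0, 0, 0, 0, 0, 0, 326942, 0, 0, 0, 0, 0, 0⟩ ⟨0, 0, 0, 0, 0, 0, 326942, 0, 0, 0, 0, 0, 0⟩ ⟨243, 0, -3932, 6, 57, 539, 747272, 0, 0, 0, 0, 0, 0⟩))
    (.leaf (.box ⟨119, 0, -2048, 11, 128, 264, 155055, 0, 0, 0, 0, 0, 0⟩ ⟨0, 0, 0, 0, 0, 0, 211026, 0, 0, 0, 0, 0, 0⟩ ⟨0, 0, 0, 0, 0, 0, 211026, 0, 0, 0, 0, 0, 0⟩ ⟨0, 0, 0, 0, 0, 0, 330228, 0, 0, 0, 0, 0, 0⟩ ⟨0, 0, 0, 0, 0, 0, 330228, 0, 0, 0, 0, 0, 0⟩ ⟨252, 0, -4230, 6, 57, 572, 758922, 0, 0, 0, 0, 0, 0⟩))))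
    (.leaf (.box ⟨204, 3, -2048, 29, 149, 285, 161097, 0, 0, 0, 0, 0, 0⟩ ⟨0, 0, 0, 0, 0, 0, 218654, 0, 0, 0, 0, 0, 0⟩ ⟨0, 0, 0, 0, 0, 0, 218654, 0, 0, 0, 0, 0, 0⟩ ⟨0, 0, 0, 0, 0, 0, 340198, 0, 0, 0, 0, 0, 0⟩ ⟨0, 0, 0, 0, 0, 0, 340198, 0, 0, 0, 0, 0, 0⟩ ⟨193, 1, -2048, 7, 32, 291, 765998, 0, 0, 0, 0, 0, 0⟩)))))
    (.s2
    (.leaf (.box ⟨217, 7, -2048, 31, 170, 290, 162081, 0, 0, 0, 0, 0, 0⟩ ⟨0, 0, 0, 0, 0, 0, 220836, 0, 0, 0, 0, 0, 0⟩ ⟨0, 0, 0, 0, 0, 0, 220836, 0, 0, 0, 0, 0, 0⟩ ⟨0, 0, 0, 0, 0, 0, 346411, 0, 0, 0, 0, 0, 0⟩ ⟨0, 0, 0, 0, 0, 0, 346411, 0, 0, 0, 0, 0, 0⟩ ⟨230, 2, -2048, 7, 35, 297, 803051, 0, 0, 0, 0, 0, 0⟩))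
    (.leaf (.box ⟨204, 4, -2048, 30, 146, 282, 163586, 0, 0, 0, 0, 0, 0⟩ ⟨0, 0, 0, 0, 0, 0, 223283, 0, 0, 0, 0, 0, 0⟩ ⟨0, 0, 0, 0, 0, 0, 223283, 0, 0, 0, 0, 0, 0⟩ ⟨0, 0, 0, 0, 0, 0, 351583, 0, 0, 0, 0, 0, 0⟩ ⟨0, 0, 0, 0, 0, 0, 351583, 0, 0, 0, 0, 0, 0⟩ ⟨215, 1, -2048, 6, 30, 289, 826498, 0, 0, 0, 0, 0, 0⟩))))
    (.s0
    (.s3
    (.leaf (.box ⟨216, 0, -2048, 33, 117, 257, 149140, 0, 0, 0, 0, 0, 0⟩ ⟨0, 0, 0, 0, 0, 0, 206553, 0, 0, 0, 0, 0, 0⟩ ⟨0, 0, 0, 0, 0, 0, 206553, 0, 0, 0, 0, 0, 0⟩ ⟨0, 0, 0, 0, 0, 0, 335836, 0, 0, 0, 0, 0, 0⟩ ⟨0, 0, 0, 0, 0, 0, 335836, 0, 0, 0, 0, 0, 0⟩ ⟨228, 0, -2048, 7, 20, 267, 897727, 0, 0, 0, 0, 0, 0⟩))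
    (.leaf (.box ⟨221, 0, -2048, 31, 115, 259, 156872, 0, 0, 0, 0, 0, 0⟩ ⟨0, 0, 0, 0, 0, 0, 213638, 0, 0, 0, 0, 0, 0⟩ ⟨0, 0, 0, 0, 0, 0, 213638, 0, 0, 0, 0, 0, 0⟩ ⟨0, 0, 0, 0, 0, 0, 334783, 0, 0, 0, 0, 0, 0⟩ ⟨0, 0, 0, 0, 0, 0, 334783, 0, 0, 0, 0, 0, 0⟩ ⟨226, 0, -2048, 7, 24, 268, 773268, 0, 0, 0, 0, 0, 0⟩)))
    (.leaf (.box ⟨225, 1, -2048, 36, 120, 279, 168221, 0, 0, 0, 0, 0, 0⟩ ⟨0, 0, 0, 0, 0, 0, 229940, 0, 0, 0, 0, 0, 0⟩ ⟨0, 0, 0, 0, 0, 0, 229940, 0, 0, 0, 0, 0, 0⟩ ⟨0, 0, 0, 0, 0, 0, 363190, 0, 0, 0, 0, 0, 0⟩ ⟨0, 0, 0, 0, 0, 0, 363190, 0, 0, 0, 0, 0, 0⟩ ⟨217, 0, -2048, 8, 24, 286, 863709, 0, 0, 0, 0, 0, 0⟩)))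

/-- A piece of the tree. -/
noncomputable def tree42 : Tree LeafX :=
  .s3
    (.leaf (.box ⟨206, 5, -2048, 28, 141, 264, 166634, 0, 0, 0, 0, 0, 0⟩ ⟨0, 0, 0, 0, 0, 0, 221932, 0, 0, 0, 0, 0, 0⟩ ⟨0, 0, 0, 0, 0, 0, 221932, 0, 0, 0, 0, 0, 0⟩ ⟨0, 0, 0, 0, 0, 0, 332160, 0, 0, 0, 0, 0, 0⟩ ⟨0, 0, 0, 0, 0, 0, 332160, 0, 0, 0, 0, 0, 0⟩ ⟨206, 2, -2048, 8, 37, 271, 659931, 0, 0, 0, 0, 0, 0⟩))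
    (.s0
    (.s2
    (.leaf (.box ⟨155, 4, -2048, 17, 143, 267, 174462, 0, 0, 0, 0, 0, 0⟩ ⟨0, 0, 0, 0, 0, 0, 227651, 0, 0, 0, 0, 0, 0⟩ ⟨0, 0, 0, 0, 0, 0, 227651, 0, 0, 0, 0, 0, 0⟩ ⟨0, 0, 0, 0, 0, 0, 327496, 0, 0, 0, 0, 0, 0⟩ ⟨0, 0, 0, 0, 0, 0, 327496, 0, 0, 0, 0, 0, 0⟩ ⟨177, 2, -2278, 6, 49, 305, 583343, 0, 0, 0, 0, 0, 0⟩))
    (.leaf (.box ⟨135, 2, -2048, 16, 124, 257, 175393, 0, 0, 0, 0, 0, 0⟩ ⟨0, 0, 0, 0, 0, 0, 229231, 0, 0, 0, 0, 0, 0⟩ ⟨0, 0, 0, 0, 0, 0, 229231, 0, 0, 0, 0, 0, 0⟩ ⟨0, 0, 0, 0, 0, 0, 330756, 0, 0, 0, 0, 0, 0⟩ ⟨0, 0, 0, 0, 0, 0, 330756, 0, 0, 0, 0, 0, 0⟩ ⟨163, 1, -2377, 6, 44, 306, 593709, 0, 0, 0, 0, 0, 0⟩)))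
    (.leaf (.box ⟨178, 5, -2048, 24, 136, 271, 183566, 0, 0, 0, 0, 0, 0⟩ ⟨0, 0, 0, 0, 0, 0, 239347, 0, 0, 0, 0, 0, 0⟩ ⟨0, 0, 0, 0, 0, 0, 239347, 0, 0, 0, 0, 0, 0⟩ ⟨0, 0, 0, 0, 0, 0, 343827, 0, 0, 0, 0, 0, 0⟩ ⟨0, 0, 0, 0, 0, 0, 343827, 0, 0, 0, 0, 0, 0⟩ ⟨186, 2, -2048, 8, 42, 276, 610185, 0, 0, 0, 0, 0, 0⟩)))

/-- A piece of the tree. -/
noncomputable def tree43 : Tree LeafX :=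
  .s3
    (.s0
    (.s2
    (.s3
    (.leaf (.box ⟨149, 3, -2048, 18, 151, 279, 160861, 0, 0, 0, 0, 0, 0⟩ ⟨0, 0, 0, 0, 0, 0, 215899, 0, 0, 0, 0, 0, 0⟩ ⟨0, 0, 0, 0, 0, 0, 215899, 0, 0, 0, 0, 0, 0⟩ ⟨0, 0, 0, 0, 0, 0, 328184, 0, 0, 0, 0, 0, 0⟩ ⟨0, 0, 0, 0, 0, 0, 328184, 0, 0, 0, 0, 0, 0⟩ ⟨203, 1, -2515, 6, 46, 359, 683837, 0, 0, 0, 0, 0, 0⟩))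
    (.leaf (.box ⟨152, 3, -2048, 17, 150, 281, 164480, 0, 0, 0, 0, 0, 0⟩ ⟨0, 0, 0, 0, 0, 0, 218494, 0, 0, 0, 0, 0, 0⟩ ⟨0, 0, 0, 0, 0, 0, 218494, 0, 0, 0, 0, 0, 0⟩ ⟨0, 0, 0, 0, 0, 0, 325328, 0, 0, 0, 0, 0, 0⟩ ⟨0, 0, 0, 0, 0, 0, 325328, 0, 0, 0, 0, 0, 0⟩ ⟨209, 1, -2545, 6, 51, 365, 636597, 0, 0, 0, 0, 0, 0⟩)))
    (.s3
    (.leaf (.box ⟨134, 1, -2048, 14, 130, 269, 161763, 0, 0, 0, 0, 0, 0⟩ ⟨0, 0, 0, 0, 0, 0, 217460, 0, 0, 0, 0, 0, 0⟩ ⟨0, 0, 0, 0, 0, 0, 217460, 0, 0, 0, 0, 0, 0⟩ ⟨0, 0, 0, 0, 0, 0, 331649, 0, 0, 0, 0, 0, 0⟩ ⟨0, 0, 0, 0, 0, 0, 331649, 0, 0, 0, 0, 0, 0⟩ ⟨204, 0, -2993, 6, 46, 410, 698361, 0, 0, 0, 0, 0, 0⟩))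
    (.leaf (.box ⟨136, 1, -2048, 15, 128, 270, 165985, 0, 0, 0, 0, 0, 0⟩ ⟨0, 0, 0, 0, 0, 0, 220995, 0, 0, 0, 0, 0, 0⟩ ⟨0, 0, 0, 0, 0, 0, 220995, 0, 0, 0, 0, 0, 0⟩ ⟨0, 0, 0, 0, 0, 0, 330542, 0, 0, 0, 0, 0, 0⟩ ⟨0, 0, 0, 0, 0, 0, 330542, 0, 0, 0, 0, 0, 0⟩ ⟨223, 0, -3176, 6, 53, 436, 655440, 0, 0, 0, 0, 0, 0⟩))))
    (.s2
    (.leaf (.box ⟨155, 3, -2048, 18, 155, 288, 168597, 0, 0, 0, 0, 0, 0⟩ ⟨0, 0, 0, 0, 0, 0, 224636, 0, 0, 0, 0, 0, 0⟩ ⟨0, 0, 0, 0, 0, 0, 224636, 0, 0, 0, 0, 0, 0⟩ ⟨0, 0, 0, 0, 0, 0, 336472, 0, 0, 0, 0, 0, 0⟩ ⟨0, 0, 0, 0, 0, 0, 336472, 0, 0, 0, 0, 0, 0⟩ ⟨178, 1, -2187, 6, 44, 320, 670072, 0, 0, 0, 0, 0, 0⟩))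
    (.leaf (.box ⟨134, 1, -2048, 16, 132, 278, 170374, 0, 0, 0, 0, 0, 0⟩ ⟨0, 0, 0, 0, 0, 0, 227413, 0, 0, 0, 0, 0, 0⟩ ⟨0, 0, 0, 0, 0, 0, 227413, 0, 0, 0, 0, 0, 0⟩ ⟨0, 0, 0, 0, 0, 0, 341861, 0, 0, 0, 0, 0, 0⟩ ⟨0, 0, 0, 0, 0, 0, 341861, 0, 0, 0, 0, 0, 0⟩ ⟨180, 0, -2550, 6, 42, 359, 688217, 0, 0, 0, 0, 0, 0⟩))))
    (.s0
    (.s2
    (.s3
    (.leaf (.box ⟨159, 3, -2048, 17, 149, 283, 168042, 0, 0, 0, 0, 0, 0⟩ ⟨0, 0, 0, 0, 0, 0, 220758, 0, 0, 0, 0, 0, 0⟩ ⟨0, 0, 0, 0, 0, 0, 220758, 0, 0, 0, 0, 0, 0⟩ ⟨0, 0, 0, 0, 0, 0, 321664, 0, 0, 0, 0, 0, 0⟩ ⟨0, 0, 0, 0, 0, 0, 321664, 0, 0, 0, 0, 0, 0⟩ ⟨184, 1, -2182, 6, 47, 315, 592482, 0, 0, 0, 0, 0, 0⟩))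
    (.s2
    (.leaf (.box ⟨140, 2, -2048, 13, 155, 289, 171443, 0, 0, 0, 0, 0, 0⟩ ⟨0, 0, 0, 0, 0, 0, 222559, 0, 0, 0, 0, 0, 0⟩ ⟨0, 0, 0, 0, 0, 0, 222559, 0, 0, 0, 0, 0, 0⟩ ⟨0, 0, 0, 0, 0, 0, 317101, 0, 0, 0, 0, 0, 0⟩ ⟨0, 0, 0, 0, 0, 0, 317101, 0, 0, 0, 0, 0, 0⟩ ⟨213, 1, -2819, 6, 70, 415, 551288, 0, 0, 0, 0, 0, 0⟩))
    (.leaf (.box ⟨155, 2, -2048, 13, 142, 285, 173715, 0, 0, 0, 0, 0, 0⟩ ⟨139, 1, -2048, 10, 111, 285, 223717, 0, 0, 0, 0, 0, 0⟩ ⟨139, 1, -2048, 10, 111, 285, 223717, 0, 0, 0, 0, 0, 0⟩ ⟨137, 1, -2048, 7, 78, 289, 320609, 0, 0, 0, 0, 0, 0⟩ ⟨137, 1, -2048, 7, 78, 289, 320609, 0, 0, 0, 0, 0, 0⟩ ⟨200, 1, -2919, 6, 63, 417, 575020, 0, 0, 0, 0, 0, 0⟩))))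
    (.s1
    (.s2
    (.leaf (.box ⟨102, 1, -2048, 10, 130, 271, 172441, 0, 0, 0, 0, 0, 0⟩ ⟨0, 0, 0, 0, 0, 0, 225557, 0, 0, 0, 0, 0, 0⟩ ⟨0, 0, 0, 0, 0, 0, 225557, 0, 0, 0, 0, 0, 0⟩ ⟨0, 0, 0, 0, 0, 0, 325958, 0, 0, 0, 0, 0, 0⟩ ⟨0, 0, 0, 0, 0, 0, 325958, 0, 0, 0, 0, 0, 0⟩ ⟨183, 1, -4023, 6, 78, 550, 587445, 0, 0, 0, 0, 0, 0⟩))
    (.leaf (.box ⟨99, 1, -2048, 10, 120, 267, 174167, 0, 0, 0, 0, 0, 0⟩ ⟨0, 0, 0, 0, 0, 0, 227963, 0, 0, 0, 0, 0, 0⟩ ⟨0, 0, 0, 0, 0, 0, 227963, 0, 0, 0, 0, 0, 0⟩ ⟨0, 0, 0, 0, 0, 0, 329841, 0, 0, 0, 0, 0, 0⟩ ⟨0, 0, 0, 0, 0, 0, 329841, 0, 0, 0, 0, 0, 0⟩ ⟨184, 0, -4294, 6, 76, 577, 596358, 0, 0, 0, 0, 0, 0⟩)))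
    (.s3
    (.leaf (.box ⟨107, 0, -2048, 12, 128, 277, 169941, 0, 0, 0, 0, 0, 0⟩ ⟨0, 0, 0, 0, 0, 0, 223790, 0, 0, 0, 0, 0, 0⟩ ⟨0, 0, 0, 0, 0, 0, 223790, 0, 0, 0, 0, 0, 0⟩ ⟨0, 0, 0, 0, 0, 0, 327592, 0, 0, 0, 0, 0, 0⟩ ⟨0, 0, 0, 0, 0, 0, 327592, 0, 0, 0, 0, 0, 0⟩ ⟨163, 0, -3164, 6, 57, 445, 610995, 0, 0, 0, 0, 0, 0⟩))
    (.leaf (.box ⟨109, 0, -2048, 12, 126, 279, 175122, 0, 0, 0, 0, 0, 0⟩ ⟨110, 0, -2048, 10, 99, 282, 225998, 0, 0, 0, 0, 0, 0⟩ ⟨110, 0, -2048, 10, 99, 282, 225998, 0, 0, 0, 0, 0, 0⟩ ⟨110, 0, -2048, 7, 70, 285, 324560, 0, 0, 0, 0, 0, 0⟩ ⟨110, 0, -2048, 7, 70, 285, 324560, 0, 0, 0, 0, 0, 0⟩ ⟨161, 0, -3014, 6, 58, 426, 583444, 0, 0, 0, 0, 0, 0⟩)))))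
    (.s2
    (.s3
    (.leaf (.box ⟨153, 3, -2048, 17, 152, 291, 176195, 0, 0, 0, 0, 0, 0⟩ ⟨0, 0, 0, 0, 0, 0, 231298, 0, 0, 0, 0, 0, 0⟩ ⟨0, 0, 0, 0, 0, 0, 231298, 0, 0, 0, 0, 0, 0⟩ ⟨0, 0, 0, 0, 0, 0, 336547, 0, 0, 0, 0, 0, 0⟩ ⟨0, 0, 0, 0, 0, 0, 336547, 0, 0, 0, 0, 0, 0⟩ ⟨185, 1, -2345, 6, 52, 346, 617563, 0, 0, 0, 0, 0, 0⟩))
    (.leaf (.box ⟨155, 3, -2048, 18, 151, 294, 179651, 0, 0, 0, 0, 0, 0⟩ ⟨0, 0, 0, 0, 0, 0, 233056, 0, 0, 0, 0, 0, 0⟩ ⟨0, 0, 0, 0, 0, 0, 233056, 0, 0, 0, 0, 0, 0⟩ ⟨0, 0, 0, 0, 0, 0, 331642, 0, 0, 0, 0, 0, 0⟩ ⟨0, 0, 0, 0, 0, 0, 331642, 0, 0, 0, 0, 0, 0⟩ ⟨172, 1, -2118, 6, 51, 314, 574783, 0, 0, 0, 0, 0, 0⟩)))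
    (.s2
    (.leaf (.box ⟨129, 1, -2048, 12, 134, 284, 179319, 0, 0, 0, 0, 0, 0⟩ ⟨0, 0, 0, 0, 0, 0, 234634, 0, 0, 0, 0, 0, 0⟩ ⟨0, 0, 0, 0, 0, 0, 234634, 0, 0, 0, 0, 0, 0⟩ ⟨0, 0, 0, 0, 0, 0, 339298, 0, 0, 0, 0, 0, 0⟩ ⟨0, 0, 0, 0, 0, 0, 339298, 0, 0, 0, 0, 0, 0⟩ ⟨210, 1, -3295, 6, 65, 470, 612531, 0, 0, 0, 0, 0, 0⟩))
    (.leaf (.box ⟨125, 1, -2048, 11, 123, 280, 181912, 0, 0, 0, 0, 0, 0⟩ ⟨0, 0, 0, 0, 0, 0, 238198, 0, 0, 0, 0, 0, 0⟩ ⟨0, 0, 0, 0, 0, 0, 238198, 0, 0, 0, 0, 0, 0⟩ ⟨0, 0, 0, 0, 0, 0, 344921, 0, 0, 0, 0, 0, 0⟩ ⟨0, 0, 0, 0, 0, 0, 344921, 0, 0, 0, 0, 0, 0⟩ ⟨205, 0, -3299, 6, 60, 464, 624904, 0, 0, 0, 0, 0, 0⟩)))))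

/-- A piece of the tree. -/
noncomputable def tree44 : Tree LeafX :=
  .s3
    (.leaf (.box ⟨226, 0, -2048, 27, 117, 260, 165408, 0, 0, 0, 0, 0, 0⟩ ⟨0, 0, 0, 0, 0, 0, 221183, 0, 0, 0, 0, 0, 0⟩ ⟨0, 0, 0, 0, 0, 0, 221183, 0, 0, 0, 0, 0, 0⟩ ⟨0, 0, 0, 0, 0, 0, 333708, 0, 0, 0, 0, 0, 0⟩ ⟨0, 0, 0, 0, 0, 0, 333708, 0, 0, 0, 0, 0, 0⟩ ⟨232, 0, -2048, 8, 28, 269, 679287, 0, 0, 0, 0, 0, 0⟩))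
    (.s0
    (.leaf (.box ⟨195, 0, -2048, 26, 105, 259, 174881, 0, 0, 0, 0, 0, 0⟩ ⟨0, 0, 0, 0, 0, 0, 229235, 0, 0, 0, 0, 0, 0⟩ ⟨0, 0, 0, 0, 0, 0, 229235, 0, 0, 0, 0, 0, 0⟩ ⟨0, 0, 0, 0, 0, 0, 332612, 0, 0, 0, 0, 0, 0⟩ ⟨0, 0, 0, 0, 0, 0, 332612, 0, 0, 0, 0, 0, 0⟩ ⟨210, 0, -2048, 9, 31, 266, 605809, 0, 0, 0, 0, 0, 0⟩))
    (.leaf (.box ⟨196, 0, -2048, 28, 106, 268, 185059, 0, 0, 0, 0, 0, 0⟩ ⟨0, 0, 0, 0, 0, 0, 242491, 0, 0, 0, 0, 0, 0⟩ ⟨0, 0, 0, 0, 0, 0, 242491, 0, 0, 0, 0, 0, 0⟩ ⟨0, 0, 0, 0, 0, 0, 351611, 0, 0, 0, 0, 0, 0⟩ ⟨0, 0, 0, 0, 0, 0, 351611, 0, 0, 0, 0, 0, 0⟩ ⟨192, 0, -2048, 9, 31, 274, 639286, 0, 0, 0, 0, 0, 0⟩)))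

/-- A piece of the tree. -/
noncomputable def tree45 : Tree LeafX :=
  .s2
    (.s1
    (.leaf (.box ⟨203, 10, -2048, 43, 160, 284, 183979, 0, 0, 0, 0, 0, 0⟩ ⟨0, 0, 0, 0, 0, 0, 241469, 0, 0, 0, 0, 0, 0⟩ ⟨0, 0, 0, 0, 0, 0, 241469, 0, 0, 0, 0, 0, 0⟩ ⟨0, 0, 0, 0, 0, 0, 351216, 0, 0, 0, 0, 0, 0⟩ ⟨0, 0, 0, 0, 0, 0, 351216, 0, 0, 0, 0, 0, 0⟩ ⟨197, 2, -2048, 9, 43, 287, 643839, 0, 0, 0, 0, 0, 0⟩))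
    (.s3
    (.leaf (.box ⟨197, 4, -2048, 31, 150, 297, 177499, 0, 0, 0, 0, 0, 0⟩ ⟨0, 0, 0, 0, 0, 0, 236367, 0, 0, 0, 0, 0, 0⟩ ⟨0, 0, 0, 0, 0, 0, 236367, 0, 0, 0, 0, 0, 0⟩ ⟨0, 0, 0, 0, 0, 0, 353659, 0, 0, 0, 0, 0, 0⟩ ⟨0, 0, 0, 0, 0, 0, 353659, 0, 0, 0, 0, 0, 0⟩ ⟨203, 1, -2048, 9, 39, 305, 702019, 0, 0, 0, 0, 0, 0⟩))
    (.s2
    (.leaf (.box ⟨191, 5, -2048, 23, 159, 306, 185424, 0, 0, 0, 0, 0, 0⟩ ⟨0, 0, 0, 0, 0, 0, 241970, 0, 0, 0, 0, 0, 0⟩ ⟨0, 0, 0, 0, 0, 0, 241970, 0, 0, 0, 0, 0, 0⟩ ⟨0, 0, 0, 0, 0, 0, 348133, 0, 0, 0, 0, 0, 0⟩ ⟨0, 0, 0, 0, 0, 0, 348133, 0, 0, 0, 0, 0, 0⟩ ⟨180, 1, -2048, 7, 49, 313, 620277, 0, 0, 0, 0, 0, 0⟩))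
    (.leaf (.box ⟨164, 2, -2048, 18, 134, 295, 189218, 0, 0, 0, 0, 0, 0⟩ ⟨0, 0, 0, 0, 0, 0, 247482, 0, 0, 0, 0, 0, 0⟩ ⟨0, 0, 0, 0, 0, 0, 247482, 0, 0, 0, 0, 0, 0⟩ ⟨0, 0, 0, 0, 0, 0, 357591, 0, 0, 0, 0, 0, 0⟩ ⟨0, 0, 0, 0, 0, 0, 357591, 0, 0, 0, 0, 0, 0⟩ ⟨166, 1, -2070, 6, 41, 305, 644212, 0, 0, 0, 0, 0, 0⟩)))))
    (.leaf (.box ⟨225, 1, -2048, 33, 114, 283, 185920, 0, 0, 0, 0, 0, 0⟩ ⟨0, 0, 0, 0, 0, 0, 245150, 0, 0, 0, 0, 0, 0⟩ ⟨0, 0, 0, 0, 0, 0, 245150, 0, 0, 0, 0, 0, 0⟩ ⟨0, 0, 0, 0, 0, 0, 359760, 0, 0, 0, 0, 0, 0⟩ ⟨0, 0, 0, 0, 0, 0, 359760, 0, 0, 0, 0, 0, 0⟩ ⟨221, 0, -2048, 10, 32, 287, 675618, 0, 0, 0, 0, 0, 0⟩))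

/-- A piece of the tree. -/
noncomputable def tree46 : Tree LeafX :=
  .s3
    (.leaf (.box ⟨320, 11, -2048, 72, 148, 317, 181602, 0, 0, 0, 0, 0, 0⟩ ⟨0, 0, 0, 0, 0, 0, 247154, 0, 0, 0, 0, 0, 0⟩ ⟨0, 0, 0, 0, 0, 0, 247154, 0, 0, 0, 0, 0, 0⟩ ⟨0, 0, 0, 0, 0, 0, 386757, 0, 0, 0, 0, 0, 0⟩ ⟨0, 0, 0, 0, 0, 0, 386757, 0, 0, 0, 0, 0, 0⟩ ⟨314, 3, -2048, 14, 31, 319, 888783, 0, 0, 0, 0, 0, 0⟩))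
    (.s2
    (.leaf (.box ⟨307, 12, -2048, 47, 162, 321, 195984, 0, 0, 0, 0, 0, 0⟩ ⟨0, 0, 0, 0, 0, 0, 257305, 0, 0, 0, 0, 0, 0⟩ ⟨0, 0, 0, 0, 0, 0, 257305, 0, 0, 0, 0, 0, 0⟩ ⟨0, 0, 0, 0, 0, 0, 374471, 0, 0, 0, 0, 0, 0⟩ ⟨0, 0, 0, 0, 0, 0, 374471, 0, 0, 0, 0, 0, 0⟩ ⟨303, 4, -2048, 13, 46, 322, 687558, 0, 0, 0, 0, 0, 0⟩))
    (.leaf (.box ⟨308, 4, -2048, 39, 117, 318, 209929, 0, 0, 0, 0, 0, 0⟩ ⟨0, 0, 0, 0, 0, 0, 276595, 0, 0, 0, 0, 0, 0⟩ ⟨0, 0, 0, 0, 0, 0, 276595, 0, 0, 0, 0, 0, 0⟩ ⟨0, 0, 0, 0, 0, 0, 405305, 0, 0, 0, 0, 0, 0⟩ ⟨0, 0, 0, 0, 0, 0, 405305, 0, 0, 0, 0, 0, 0⟩ ⟨302, 1, -2048, 11, 33, 319, 758057, 0, 0, 0, 0, 0, 0⟩)))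

/-- A piece of the tree. -/
noncomputable def tree47 : Tree LeafX :=
  .leaf (.box ⟨752, 55, -2048, 175, 152, 369, 224890, 0, 0, 0, 234737834, 0, 0⟩ ⟨674, 40, -2048, 122, 110, 382, 317599, 0, 0, 0, 0, 0, 0⟩ ⟨674, 40, -2048, 122, 110, 382, 317599, 0, 0, 0, 0, 0, 0⟩ ⟨646, 26, -2048, 75, 71, 379, 482265, 0, 0, 0, 0, 0, 0⟩ ⟨646, 26, -2048, 75, 71, 379, 482265, 0, 0, 0, 0, 0, 0⟩ ⟨631, 14, -2048, 40, 40, 375, 851758, 0, 0, 0, 0, 0, 0⟩)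

/-- A piece of the tree. -/
noncomputable def tree48 : Tree LeafX :=
  .s1
    (.leaf (.skip 0 8))
    (.s0
    (.leaf (.box ⟨1118, 88, -2048, 231, 74, 511, 382940, 0, 0, 0, 0, 0, 0⟩ ⟨0, 0, 0, 0, 0, 0, 505474, 0, 0, 0, 0, 0, 0⟩ ⟨0, 0, 0, 0, 0, 0, 505474, 0, 0, 0, 0, 0, 0⟩ ⟨0, 0, 0, 0, 0, 0, 743322, 0, 0, 0, 0, 0, 0⟩ ⟨0, 0, 0, 0, 0, 0, 743322, 0, 0, 0, 0, 0, 0⟩ ⟨1100, 26, -2048, 58, 17, 490, 1403941, 0, 0, 0, 0, 0, 0⟩))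
    (.leaf (.skip 0 8)))

/-- A piece of the tree. -/
noncomputable def tree49 : Tree LeafX :=
  .s1
    (.leaf (.skip 0 8))
    (.s2
    (.s0
    (.leaf (.box ⟨758, 20, -2048, 107, 101, 264, 186024, 0, 0, 0, 0, 0, 0⟩ ⟨0, 0, 0, 0, 0, 0, 247492, 0, 0, 0, 0, 0, 0⟩ ⟨0, 0, 0, 0, 0, 0, 247492, 0, 0, 0, 0, 0, 0⟩ ⟨0, 0, 0, 0, 0, 0, 369629, 0, 0, 0, 0, 0, 0⟩ ⟨0, 0, 0, 0, 0, 0, 369629, 0, 0, 0, 0, 0, 0⟩ ⟨708, 6, -2048, 27, 24, 255, 729764, 0, 0, 0, 0, 0, 0⟩))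
    (.leaf (.box ⟨2048, 78, -1831, 260, 36, 427, 304593, 0, 0, 0, 0, 0, 0⟩ ⟨0, 0, 0, 0, 0, 0, 404105, 0, 0, 0, 0, 0, 0⟩ ⟨0, 0, 0, 0, 0, 0, 404105, 0, 0, 0, 0, 0, 0⟩ ⟨0, 0, 0, 0, 0, 0, 600187, 0, 0, 0, 0, 0, 0⟩ ⟨0, 0, 0, 0, 0, 0, 600187, 0, 0, 0, 0, 0, 0⟩ ⟨2048, 23, -1843, 64, 8, 405, 1165927, 0, 0, 0, 0, 0, 0⟩)))
    (.s0
    (.s2
    (.leaf (.box ⟨1126, 1, -2048, 160, 32, 294, 200427, 0, 0, 0, 0, 0, 0⟩ ⟨0, 0, 0, 0, 0, 0, 267261, 0, 0, 0, 0, 0, 0⟩ ⟨0, 0, 0, 0, 0, 0, 267261, 0, 0, 0, 0, 0, 0⟩ ⟨0, 0, 0, 0, 0, 0, 400966, 0, 0, 0, 0, 0, 0⟩ ⟨0, 0, 0, 0, 0, 0, 400966, 0, 0, 0, 0, 0, 0⟩ ⟨932, 0, -2048, 38, 8, 278, 802376, 0, 0, 0, 0, 0, 0⟩))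
    (.s2
    (.leaf (.box ⟨1538, -19, -2048, 208, -18, 328, 208404, 0, 0, 0, 0, 42119625208, 0⟩ ⟨0, 0, 0, 0, 0, 0, 278393, 0, 0, 0, 0, 0, 0⟩ ⟨0, 0, 0, 0, 0, 0, 278393, 0, 0, 0, 0, 0, 0⟩ ⟨0, 0, 0, 0, 0, 0, 419160, 0, 0, 0, 0, 0, 0⟩ ⟨0, 0, 0, 0, 0, 0, 419160, 0, 0, 0, 0, 0, 0⟩ ⟨1111, -4, -2048, 45, -4, 299, 847886, 0, 0, 0, 0, 0, 0⟩))
    (.leaf (.skip 8 0))))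
    (.s2
    (.s0
    (.leaf (.box ⟨2048, 16, -1371, 195, -66, 431, 316611, 0, 0, 0, 0, 0, 0⟩ ⟨0, 0, 0, 0, 0, 0, 421638, 0, 0, 0, 0, 0, 0⟩ ⟨0, 0, 0, 0, 0, 0, 421638, 0, 0, 0, 0, 0, 0⟩ ⟨0, 0, 0, 0, 0, 0, 630929, 0, 0, 0, 0, 0, 0⟩ ⟨0, 0, 0, 0, 0, 0, 630929, 0, 0, 0, 0, 0, 0⟩ ⟨2048, 5, -1768, 54, -19, 471, 1252780, 0, 0, 0, 0, 0, 0⟩))
    (.leaf (.skip 0 8)))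
    (.leaf (.skip 8 0)))))

/-- A piece of the tree. -/
noncomputable def tree50 : Tree LeafX :=
  .s0
    (.s2
    (.s0
    (.s1
    (.leaf (.box ⟨407, 3, -2048, 49, 95, 255, 170235, 0, 0, 0, 0, 0, 0⟩ ⟨0, 0, 0, 0, 0, 0, 226928, 0, 0, 0, 0, 0, 0⟩ ⟨0, 0, 0, 0, 0, 0, 226928, 0, 0, 0, 0, 0, 0⟩ ⟨0, 0, 0, 0, 0, 0, 340233, 0, 0, 0, 0, 0, 0⟩ ⟨0, 0, 0, 0, 0, 0, 340233, 0, 0, 0, 0, 0, 0⟩ ⟨405, 1, -2048, 12, 24, 255, 679516, 0, 0, 0, 0, 0, 0⟩))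
    (.s0
    (.leaf (.box ⟨316, -2, -2048, 31, 93, 271, 163015, 0, 0, 0, 0, 0, 0⟩ ⟨0, 0, 0, 0, 0, 0, 217902, 0, 0, 0, 0, 0, 0⟩ ⟨0, 0, 0, 0, 0, 0, 217902, 0, 0, 0, 0, 0, 0⟩ ⟨0, 0, 0, 0, 0, 0, 328511, 0, 0, 0, 0, 0, 0⟩ ⟨0, 0, 0, 0, 0, 0, 328511, 0, 0, 0, 0, 0, 0⟩ ⟨302, 0, -2048, 8, 23, 279, 667172, 0, 0, 0, 0, 0, 0⟩))
    (.s2
    (.leaf (.box ⟨261, -1, -2048, 22, 96, 289, 186290, 0, 0, 0, 0, 0, 0⟩ ⟨0, 0, 0, 0, 0, 0, 248874, 0, 0, 0, 0, 0, 0⟩ ⟨0, 0, 0, 0, 0, 0, 248874, 0, 0, 0, 0, 0, 0⟩ ⟨0, 0, 0, 0, 0, 0, 374781, 0, 0, 0, 0, 0, 0⟩ ⟨0, 0, 0, 0, 0, 0, 374781, 0, 0, 0, 0, 0, 0⟩ ⟨285, 0, -2321, 6, 27, 333, 758519, 0, 0, 0, 0, 0, 0⟩))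
    (.leaf (.box ⟨279, -1, -2048, 18, 82, 301, 199900, 0, 0, 0, 0, 0, 0⟩ ⟨0, 0, 0, 0, 0, 0, 266941, 0, 0, 0, 0, 0, 0⟩ ⟨0, 0, 0, 0, 0, 0, 266941, 0, 0, 0, 0, 0, 0⟩ ⟨0, 0, 0, 0, 0, 0, 401640, 0, 0, 0, 0, 0, 0⟩ ⟨0, 0, 0, 0, 0, 0, 401640, 0, 0, 0, 0, 0, 0⟩ ⟨355, 0, -2578, 6, 26, 383, 810740, 0, 0, 0, 0, 0, 0⟩)))))
    (.s1
    (.leaf (.box ⟨502, 6, -2048, 61, 84, 316, 219943, 0, 0, 0, 0, 0, 0⟩ ⟨0, 0, 0, 0, 0, 0, 292923, 0, 0, 0, 0, 0, 0⟩ ⟨0, 0, 0, 0, 0, 0, 292923, 0, 0, 0, 0, 0, 0⟩ ⟨0, 0, 0, 0, 0, 0, 438383, 0, 0, 0, 0, 0, 0⟩ ⟨0, 0, 0, 0, 0, 0, 438383, 0, 0, 0, 0, 0, 0⟩ ⟨471, 2, -2048, 15, 21, 309, 870810, 0, 0, 0, 0, 0, 0⟩))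
    (.s2
    (.leaf (.box ⟨372, 0, -2048, 27, 94, 332, 213530, 0, 0, 0, 0, 0, 0⟩ ⟨0, 0, 0, 0, 0, 0, 285059, 0, 0, 0, 0, 0, 0⟩ ⟨0, 0, 0, 0, 0, 0, 285059, 0, 0, 0, 0, 0, 0⟩ ⟨0, 0, 0, 0, 0, 0, 428645, 0, 0, 0, 0, 0, 0⟩ ⟨0, 0, 0, 0, 0, 0, 428645, 0, 0, 0, 0, 0, 0⟩ ⟨353, 0, -2048, 7, 23, 331, 863701, 0, 0, 0, 0, 0, 0⟩))
    (.leaf (.box ⟨418, -1, -2048, 39, 77, 351, 229378, 0, 0, 0, 0, 0, 0⟩ ⟨0, 0, 0, 0, 0, 0, 306122, 0, 0, 0, 0, 0, 0⟩ ⟨0, 0, 0, 0, 0, 0, 306122, 0, 0, 0, 0, 0, 0⟩ ⟨0, 0, 0, 0, 0, 0, 460039, 0, 0, 0, 0, 0, 0⟩ ⟨0, 0, 0, 0, 0, 0, 460039, 0, 0, 0, 0, 0, 0⟩ ⟨398, 0, -2048, 10, 19, 348, 925249, 0, 0, 0, 0, 0, 0⟩)))))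
    (.s2
    (.s0
    (.s1
    (.leaf (.box ⟨493, -1, -2048, 38, 60, 276, 188595, 0, 0, 0, 0, 0, 0⟩ ⟨0, 0, 0, 0, 0, 0, 251744, 0, 0, 0, 0, 0, 0⟩ ⟨0, 0, 0, 0, 0, 0, 251744, 0, 0, 0, 0, 0, 0⟩ ⟨0, 0, 0, 0, 0, 0, 378469, 0, 0, 0, 0, 0, 0⟩ ⟨0, 0, 0, 0, 0, 0, 378469, 0, 0, 0, 0, 0, 0⟩ ⟨470, 0, -2048, 10, 15, 272, 762103, 0, 0, 0, 0, 0, 0⟩))
    (.leaf (.box ⟨420, -2, -2048, 30, 75, 303, 186943, 0, 0, 0, 0, 0, 0⟩ ⟨0, 0, 0, 0, 0, 0, 249680, 0, 0, 0, 0, 0, 0⟩ ⟨0, 0, 0, 0, 0, 0, 249680, 0, 0, 0, 0, 0, 0⟩ ⟨0, 0, 0, 0, 0, 0, 375792, 0, 0, 0, 0, 0, 0⟩ ⟨0, 0, 0, 0, 0, 0, 375792, 0, 0, 0, 0, 0, 0⟩ ⟨377, 0, -2048, 8, 19, 306, 759323, 0, 0, 0, 0, 0, 0⟩)))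
    (.leaf (.box ⟨720, -3, -2048, 94, 48, 371, 244036, 0, 0, 0, 0, 0, 0⟩ ⟨0, 0, 0, 0, 0, 0, 325614, 0, 0, 0, 0, 0, 0⟩ ⟨0, 0, 0, 0, 0, 0, 325614, 0, 0, 0, 0, 0, 0⟩ ⟨0, 0, 0, 0, 0, 0, 489117, 0, 0, 0, 0, 0, 0⟩ ⟨0, 0, 0, 0, 0, 0, 489117, 0, 0, 0, 0, 0, 0⟩ ⟨680, -1, -2048, 24, 12, 359, 982437, 0, 0, 0, 0, 0, 0⟩)))
    (.leaf (.box ⟨1476, -15, -2048, 221, 38, 361, 199725, 0, 0, 0, 0, 133754655111, 0⟩ ⟨0, 0, 0, 0, 0, 0, 266665, 0, 0, 0, 0, 0, 0⟩ ⟨0, 0, 0, 0, 0, 0, 266665, 0, 0, 0, 0, 0, 0⟩ ⟨0, 0, 0, 0, 0, 0, 401096, 0, 0, 0, 0, 0, 0⟩ ⟨0, 0, 0, 0, 0, 0, 401096, 0, 0, 0, 0, 0, 0⟩ ⟨1027, -3, -2048, 50, 9, 348, 808853, 0, 0, 0, 0, 105619380720, 0⟩))))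
    (.s2
    (.s0
    (.leaf (.box ⟨943, 10, -2048, 117, 59, 405, 279507, 0, 0, 0, 0, 0, 0⟩ ⟨0, 0, 0, 0, 0, 0, 372152, 0, 0, 0, 0, 0, 0⟩ ⟨0, 0, 0, 0, 0, 0, 372152, 0, 0, 0, 0, 0, 0⟩ ⟨0, 0, 0, 0, 0, 0, 556663, 0, 0, 0, 0, 0, 0⟩ ⟨0, 0, 0, 0, 0, 0, 556663, 0, 0, 0, 0, 0, 0⟩ ⟨761, 3, -2048, 30, 15, 405, 1104035, 0, 0, 0, 0, 0, 0⟩))
    (.s1
    (.leaf (.box ⟨1852, 33, -2048, 171, 12, 584, 365591, 0, 0, 0, 0, 0, 0⟩ ⟨0, 0, 0, 0, 0, 0, 485779, 0, 0, 0, 0, 0, 0⟩ ⟨0, 0, 0, 0, 0, 0, 485779, 0, 0, 0, 0, 0, 0⟩ ⟨0, 0, 0, 0, 0, 0, 723692, 0, 0, 0, 0, 0, 0⟩ ⟨0, 0, 0, 0, 0, 0, 723692, 0, 0, 0, 0, 0, 0⟩ ⟨1690, 9, -2048, 41, 2, 549, 1418325, 0, 0, 0, 0, 0, 0⟩))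
    (.leaf (.box ⟨1303, 9, -2048, 133, 18, 575, 362485, 0, 0, 0, 0, 0, 0⟩ ⟨0, 0, 0, 0, 0, 0, 482096, 0, 0, 0, 0, 0, 0⟩ ⟨0, 0, 0, 0, 0, 0, 482096, 0, 0, 0, 0, 0, 0⟩ ⟨0, 0, 0, 0, 0, 0, 719518, 0, 0, 0, 0, 0, 0⟩ ⟨0, 0, 0, 0, 0, 0, 719518, 0, 0, 0, 0, 0, 0⟩ ⟨1121, 2, -2048, 33, 4, 544, 1417708, 0, 0, 0, 0, 0, 0⟩))))
    (.s2
    (.s2
    (.leaf (.box ⟨2048, 6, -1331, 255, -30, 453, 312604, 0, 0, 0, 0, 24143653350, 0⟩ ⟨0, 0, 0, 0, 0, 0, 416560, 0, 0, 0, 0, 0, 0⟩ ⟨0, 0, 0, 0, 0, 0, 416560, 0, 0, 0, 0, 0, 0⟩ ⟨0, 0, 0, 0, 0, 0, 624103, 0, 0, 0, 0, 0, 0⟩ ⟨0, 0, 0, 0, 0, 0, 624103, 0, 0, 0, 0, 0, 0⟩ ⟨2048, 2, -1549, 67, -8, 469, 1243809, 0, 0, 0, 0, 0, 0⟩))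
    (.leaf (.box ⟨2048, -3, -723, 208, -43, 310, 319644, 0, 0, 0, 0, 315055239898, 0⟩ ⟨0, 0, 0, 0, 0, 0, 426175, 0, 0, 0, 0, 0, 0⟩ ⟨0, 0, 0, 0, 0, 0, 426175, 0, 0, 0, 0, 0, 0⟩ ⟨0, 0, 0, 0, 0, 0, 639208, 0, 0, 0, 0, 0, 0⟩ ⟨0, 0, 0, 0, 0, 0, 639208, 0, 0, 0, 0, 0, 0⟩ ⟨2048, -1, -921, 56, -11, 329, 1278091, 0, 0, 0, 0, 335701674648, 0⟩)))
    (.leaf (.skip 8 0))))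

/-- A piece of the tree. -/
noncomputable def tree51 : Tree LeafX :=
  .s1
    (.leaf (.skip 0 8))
    (.s0
    (.s2
    (.s2
    (.leaf (.box ⟨2048, 77, -1749, 328, -70, 773, 460670, 0, 0, 0, 0, 0, 0⟩ ⟨0, 0, 0, 0, 0, 0, 611469, 0, 0, 0, 0, 0, 0⟩ ⟨0, 0, 0, 0, 0, 0, 611469, 0, 0, 0, 0, 0, 0⟩ ⟨0, 0, 0, 0, 0, 0, 909037, 0, 0, 0, 0, 0, 0⟩ ⟨0, 0, 0, 0, 0, 0, 909037, 0, 0, 0, 0, 0, 0⟩ ⟨2048, 21, -1661, 77, -17, 690, 1770782, 0, 0, 0, 0, 0, 0⟩))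
    (.s2
    (.leaf (.box ⟨2048, 50, -605, 268, -104, 565, 467861, 0, 0, 0, 6667781, 0, 0⟩ ⟨0, 0, 0, 0, 0, 0, 620960, 0, 0, 0, 0, 0, 0⟩ ⟨0, 0, 0, 0, 0, 0, 620960, 0, 0, 0, 0, 0, 0⟩ ⟨0, 0, 0, 0, 0, 0, 922993, 0, 0, 0, 0, 0, 0⟩ ⟨0, 0, 0, 0, 0, 0, 922993, 0, 0, 0, 0, 0, 0⟩ ⟨2048, 14, -629, 64, -25, 504, 1797090, 0, 0, 0, 0, 0, 0⟩))
    (.leaf (.box ⟨2048, 32, 6, 215, -90, 336, 462082, 0, 0, 0, 0, 0, 0⟩ ⟨0, 0, 0, 0, 0, 0, 614043, 0, 0, 0, 0, 0, 0⟩ ⟨0, 0, 0, 0, 0, 0, 614043, 0, 0, 0, 0, 0, 0⟩ ⟨0, 0, 0, 0, 0, 0, 914924, 0, 0, 0, 0, 0, 0⟩ ⟨0, 0, 0, 0, 0, 0, 914924, 0, 0, 0, 0, 0, 0⟩ ⟨2048, 9, -62, 51, -21, 294, 1793971, 0, 0, 0, 0, 0, 0⟩))))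
    (.s2
    (.s2
    (.leaf (.box ⟨2048, 18, 258, 163, -67, 182, 456445, 0, 0, 0, 0, 284098743224, 8512812144⟩ ⟨0, 0, 0, 0, 0, 0, 607309, 0, 0, 0, 0, 0, 0⟩ ⟨0, 0, 0, 0, 0, 0, 607309, 0, 0, 0, 0, 0, 0⟩ ⟨0, 0, 0, 0, 0, 0, 907131, 0, 0, 0, 0, 0, 0⟩ ⟨0, 0, 0, 0, 0, 0, 907131, 0, 0, 0, 0, 0, 0⟩ ⟨2048, 5, 170, 38, -15, 155, 1791656, 0, 0, 0, 0, 247679848123, 4547085550⟩))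
    (.leaf (.skip 8 0)))
    (.leaf (.skip 8 0))))
    (.leaf (.skip 0 8)))

/-- A piece of the tree. -/
noncomputable def tree52 : Tree LeafX :=
  .s0
    (.s2
    (.s3
    (.leaf (.box ⟨158, 1, -2048, 19, 165, 288, 142779, 0, 0, 0, 0, 0, 0⟩ ⟨0, 0, 0, 0, 0, 0, 197453, 0, 0, 0, 0, 0, 0⟩ ⟨0, 0, 0, 0, 0, 0, 197453, 0, 0, 0, 0, 0, 0⟩ ⟨0, 0, 0, 0, 0, 0, 319980, 0, 0, 0, 0, 0, 0⟩ ⟨0, 0, 0, 0, 0, 0, 319980, 0, 0, 0, 0, 0, 0⟩ ⟨274, 0, -3058, 6, 45, 464, 843250, 0, 0, 0, 0, 0, 0⟩))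
    (.leaf (.box ⟨210, 1, -2048, 19, 159, 287, 149793, 0, 0, 0, 0, 0, 0⟩ ⟨0, 0, 0, 0, 0, 0, 203649, 0, 0, 0, 0, 0, 0⟩ ⟨0, 0, 0, 0, 0, 0, 203649, 0, 0, 0, 0, 0, 0⟩ ⟨0, 0, 0, 0, 0, 0, 317968, 0, 0, 0, 0, 0, 0⟩ ⟨0, 0, 0, 0, 0, 0, 317968, 0, 0, 0, 0, 0, 0⟩ ⟨216, 0, -2326, 6, 41, 358, 724886, 0, 0, 0, 0, 0, 0⟩)))
    (.s3
    (.s0
    (.s2
    (.leaf (.box ⟨115, 0, -2048, 10, 145, 279, 143231, 0, 0, 0, 0, 0, 0⟩ ⟨0, 0, 0, 0, 0, 0, 198403, 0, 0, 0, 0, 0, 0⟩ ⟨0, 0, 0, 0, 0, 0, 198403, 0, 0, 0, 0, 0, 0⟩ ⟨0, 0, 0, 0, 0, 0, 322708, 0, 0, 0, 0, 0, 0⟩ ⟨0, 0, 0, 0, 0, 0, 322708, 0, 0, 0, 0, 0, 0⟩ ⟨384, 0, -6243, 6, 78, 912, 864075, 0, 0, 0, 0, 0, 0⟩))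
    (.leaf (.box ⟨116, -1, -2048, 9, 135, 275, 144456, 0, 0, 0, 0, 0, 0⟩ ⟨0, 0, 0, 0, 0, 0, 200228, 0, 0, 0, 0, 0, 0⟩ ⟨0, 0, 0, 0, 0, 0, 200228, 0, 0, 0, 0, 0, 0⟩ ⟨0, 0, 0, 0, 0, 0, 326147, 0, 0, 0, 0, 0, 0⟩ ⟨0, 0, 0, 0, 0, 0, 326147, 0, 0, 0, 0, 0, 0⟩ ⟨381, -1, -6537, 6, 75, 940, 878812, 0, 0, 0, 0, 0, 0⟩)))
    (.s2
    (.leaf (.box ⟨111, 0, -2048, 9, 146, 283, 146964, 0, 0, 0, 0, 0, 0⟩ ⟨0, 0, 0, 0, 0, 0, 203545, 0, 0, 0, 0, 0, 0⟩ ⟨0, 0, 0, 0, 0, 0, 203545, 0, 0, 0, 0, 0, 0⟩ ⟨0, 0, 0, 0, 0, 0, 330966, 0, 0, 0, 0, 0, 0⟩ ⟨0, 0, 0, 0, 0, 0, 330966, 0, 0, 0, 0, 0, 0⟩ ⟨384, 0, -6400, 6, 81, 944, 884956, 0, 0, 0, 0, 0, 0⟩))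
    (.leaf (.box ⟨109, -1, -2048, 10, 135, 280, 148385, 0, 0, 0, 0, 0, 0⟩ ⟨0, 0, 0, 0, 0, 0, 205651, 0, 0, 0, 0, 0, 0⟩ ⟨0, 0, 0, 0, 0, 0, 205651, 0, 0, 0, 0, 0, 0⟩ ⟨0, 0, 0, 0, 0, 0, 334898, 0, 0, 0, 0, 0, 0⟩ ⟨0, 0, 0, 0, 0, 0, 334898, 0, 0, 0, 0, 0, 0⟩ ⟨438, 0, -7912, 6, 91, 1150, 901408, 0, 0, 0, 0, 0, 0⟩))))
    (.s0
    (.leaf (.box ⟨143, -1, -2048, 16, 142, 280, 150756, 0, 0, 0, 0, 0, 0⟩ ⟨0, 0, 0, 0, 0, 0, 205330, 0, 0, 0, 0, 0, 0⟩ ⟨0, 0, 0, 0, 0, 0, 205330, 0, 0, 0, 0, 0, 0⟩ ⟨0, 0, 0, 0, 0, 0, 321834, 0, 0, 0, 0, 0, 0⟩ ⟨0, 0, 0, 0, 0, 0, 321834, 0, 0, 0, 0, 0, 0⟩ ⟨291, 0, -3994, 6, 58, 584, 743952, 0, 0, 0, 0, 0, 0⟩))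
    (.leaf (.box ⟨139, -1, -2048, 15, 139, 287, 154620, 0, 0, 0, 0, 0, 0⟩ ⟨0, 0, 0, 0, 0, 0, 210565, 0, 0, 0, 0, 0, 0⟩ ⟨0, 0, 0, 0, 0, 0, 210565, 0, 0, 0, 0, 0, 0⟩ ⟨0, 0, 0, 0, 0, 0, 329948, 0, 0, 0, 0, 0, 0⟩ ⟨0, 0, 0, 0, 0, 0, 329948, 0, 0, 0, 0, 0, 0⟩ ⟨298, 0, -4255, 6, 62, 629, 761936, 0, 0, 0, 0, 0, 0⟩)))))
    (.s3
    (.s2
    (.leaf (.box ⟨154, 1, -2048, 20, 167, 296, 149918, 0, 0, 0, 0, 0, 0⟩ ⟨0, 0, 0, 0, 0, 0, 207221, 0, 0, 0, 0, 0, 0⟩ ⟨0, 0, 0, 0, 0, 0, 207221, 0, 0, 0, 0, 0, 0⟩ ⟨0, 0, 0, 0, 0, 0, 335433, 0, 0, 0, 0, 0, 0⟩ ⟨0, 0, 0, 0, 0, 0, 335433, 0, 0, 0, 0, 0, 0⟩ ⟨236, 0, -2864, 6, 43, 443, 879751, 0, 0, 0, 0, 0, 0⟩))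
    (.s3
    (.leaf (.box ⟨125, 0, -2048, 14, 143, 287, 150905, 0, 0, 0, 0, 0, 0⟩ ⟨0, 0, 0, 0, 0, 0, 210281, 0, 0, 0, 0, 0, 0⟩ ⟨0, 0, 0, 0, 0, 0, 210281, 0, 0, 0, 0, 0, 0⟩ ⟨0, 0, 0, 0, 0, 0, 346689, 0, 0, 0, 0, 0, 0⟩ ⟨0, 0, 0, 0, 0, 0, 346689, 0, 0, 0, 0, 0, 0⟩ ⟨306, 0, -4688, 6, 53, 696, 986865, 0, 0, 0, 0, 0, 0⟩))
    (.leaf (.box ⟨128, -1, -2048, 16, 141, 289, 154705, 0, 0, 0, 0, 0, 0⟩ ⟨0, 0, 0, 0, 0, 0, 213824, 0, 0, 0, 0, 0, 0⟩ ⟨0, 0, 0, 0, 0, 0, 213824, 0, 0, 0, 0, 0, 0⟩ ⟨0, 0, 0, 0, 0, 0, 346072, 0, 0, 0, 0, 0, 0⟩ ⟨0, 0, 0, 0, 0, 0, 346072, 0, 0, 0, 0, 0, 0⟩ ⟨242, 0, -3653, 6, 45, 545, 907106, 0, 0, 0, 0, 0, 0⟩))))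
    (.s2
    (.leaf (.box ⟨158, 1, -2048, 20, 165, 302, 156949, 0, 0, 0, 0, 0, 0⟩ ⟨0, 0, 0, 0, 0, 0, 213282, 0, 0, 0, 0, 0, 0⟩ ⟨0, 0, 0, 0, 0, 0, 213282, 0, 0, 0, 0, 0, 0⟩ ⟨0, 0, 0, 0, 0, 0, 332690, 0, 0, 0, 0, 0, 0⟩ ⟨0, 0, 0, 0, 0, 0, 332690, 0, 0, 0, 0, 0, 0⟩ ⟨214, 0, -2502, 6, 45, 392, 755883, 0, 0, 0, 0, 0, 0⟩))
    (.s3
    (.leaf (.box ⟨130, -1, -2048, 15, 140, 291, 158694, 0, 0, 0, 0, 0, 0⟩ ⟨0, 0, 0, 0, 0, 0, 217481, 0, 0, 0, 0, 0, 0⟩ ⟨0, 0, 0, 0, 0, 0, 217481, 0, 0, 0, 0, 0, 0⟩ ⟨0, 0, 0, 0, 0, 0, 345450, 0, 0, 0, 0, 0, 0⟩ ⟨0, 0, 0, 0, 0, 0, 345450, 0, 0, 0, 0, 0, 0⟩ ⟨274, 0, -4097, 6, 56, 614, 839310, 0, 0, 0, 0, 0, 0⟩))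
    (.leaf (.box ⟨132, 0, -2048, 14, 139, 293, 162884, 0, 0, 0, 0, 0, 0⟩ ⟨0, 0, 0, 0, 0, 0, 221251, 0, 0, 0, 0, 0, 0⟩ ⟨0, 0, 0, 0, 0, 0, 221251, 0, 0, 0, 0, 0, 0⟩ ⟨0, 0, 0, 0, 0, 0, 344805, 0, 0, 0, 0, 0, 0⟩ ⟨0, 0, 0, 0, 0, 0, 344805, 0, 0, 0, 0, 0, 0⟩ ⟨231, 0, -3321, 6, 49, 500, 780873, 0, 0, 0, 0, 0, 0⟩)))))

/-- A piece of the tree. -/
noncomputable def tree53 : Tree LeafX :=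
  .s2
    (.s3
    (.leaf (.box ⟨198, -1, -2048, 25, 179, 313, 141447, 0, 0, 0, 0, 0, 0⟩ ⟨0, 0, 0, 0, 0, 0, 195748, 0, 0, 0, 0, 0, 0⟩ ⟨0, 0, 0, 0, 0, 0, 195748, 0, 0, 0, 0, 0, 0⟩ ⟨0, 0, 0, 0, 0, 0, 317715, 0, 0, 0, 0, 0, 0⟩ ⟨0, 0, 0, 0, 0, 0, 317715, 0, 0, 0, 0, 0, 0⟩ ⟨243, 0, -2482, 6, 40, 415, 842942, 0, 0, 0, 0, 0, 0⟩))
    (.leaf (.box ⟨203, -1, -2048, 25, 177, 320, 148852, 0, 0, 0, 0, 0, 0⟩ ⟨0, 0, 0, 0, 0, 0, 202488, 0, 0, 0, 0, 0, 0⟩ ⟨0, 0, 0, 0, 0, 0, 202488, 0, 0, 0, 0, 0, 0⟩ ⟨0, 0, 0, 0, 0, 0, 316547, 0, 0, 0, 0, 0, 0⟩ ⟨0, 0, 0, 0, 0, 0, 316547, 0, 0, 0, 0, 0, 0⟩ ⟨208, 0, -2048, 7, 39, 348, 724850, 0, 0, 0, 0, 0, 0⟩)))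
    (.s0
    (.s3
    (.s2
    (.leaf (.box ⟨193, -2, -2048, 11, 152, 293, 142265, 0, 0, 0, 0, 0, 0⟩ ⟨0, 0, 0, 0, 0, 0, 197183, 0, 0, 0, 0, 0, 0⟩ ⟨0, 0, 0, 0, 0, 0, 197183, 0, 0, 0, 0, 0, 0⟩ ⟨0, 0, 0, 0, 0, 0, 321154, 0, 0, 0, 0, 0, 0⟩ ⟨0, 0, 0, 0, 0, 0, 321154, 0, 0, 0, 0, 0, 0⟩ ⟨378, -1, -5435, 6, 73, 868, 864982, 0, 0, 0, 0, 0, 0⟩))
    (.leaf (.box ⟨131, -2, -2048, 10, 146, 297, 143836, 0, 0, 0, 0, 0, 0⟩ ⟨0, 0, 0, 0, 0, 0, 199477, 0, 0, 0, 0, 0, 0⟩ ⟨0, 0, 0, 0, 0, 0, 199477, 0, 0, 0, 0, 0, 0⟩ ⟨0, 0, 0, 0, 0, 0, 325324, 0, 0, 0, 0, 0, 0⟩ ⟨0, 0, 0, 0, 0, 0, 325324, 0, 0, 0, 0, 0, 0⟩ ⟨393, -1, -6135, 6, 76, 962, 881358, 0, 0, 0, 0, 0, 0⟩)))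
    (.leaf (.box ⟨180, -2, -2048, 14, 147, 301, 150159, 0, 0, 0, 0, 0, 0⟩ ⟨0, 0, 0, 0, 0, 0, 204625, 0, 0, 0, 0, 0, 0⟩ ⟨0, 0, 0, 0, 0, 0, 204625, 0, 0, 0, 0, 0, 0⟩ ⟨0, 0, 0, 0, 0, 0, 321091, 0, 0, 0, 0, 0, 0⟩ ⟨0, 0, 0, 0, 0, 0, 321091, 0, 0, 0, 0, 0, 0⟩ ⟨314, -1, -3899, 6, 61, 625, 745278, 0, 0, 0, 0, 0, 0⟩)))
    (.s3
    (.s0
    (.leaf (.box ⟨157, -2, -2048, 13, 149, 301, 149505, 0, 0, 0, 0, 0, 0⟩ ⟨0, 0, 0, 0, 0, 0, 207189, 0, 0, 0, 0, 0, 0⟩ ⟨0, 0, 0, 0, 0, 0, 207189, 0, 0, 0, 0, 0, 0⟩ ⟨0, 0, 0, 0, 0, 0, 337347, 0, 0, 0, 0, 0, 0⟩ ⟨0, 0, 0, 0, 0, 0, 337347, 0, 0, 0, 0, 0, 0⟩ ⟨308, -1, -4277, 6, 55, 685, 907361, 0, 0, 0, 0, 0, 0⟩))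
    (.leaf (.box ⟨127, -2, -2048, 13, 151, 309, 153383, 0, 0, 0, 0, 0, 0⟩ ⟨0, 0, 0, 0, 0, 0, 212550, 0, 0, 0, 0, 0, 0⟩ ⟨0, 0, 0, 0, 0, 0, 212550, 0, 0, 0, 0, 0, 0⟩ ⟨0, 0, 0, 0, 0, 0, 346027, 0, 0, 0, 0, 0, 0⟩ ⟨0, 0, 0, 0, 0, 0, 346027, 0, 0, 0, 0, 0, 0⟩ ⟨295, -1, -4231, 6, 54, 684, 930135, 0, 0, 0, 0, 0, 0⟩)))
    (.s2
    (.leaf (.box ⟨138, -1, -2048, 10, 154, 314, 157776, 0, 0, 0, 0, 0, 0⟩ ⟨0, 0, 0, 0, 0, 0, 214965, 0, 0, 0, 0, 0, 0⟩ ⟨0, 0, 0, 0, 0, 0, 214965, 0, 0, 0, 0, 0, 0⟩ ⟨0, 0, 0, 0, 0, 0, 337181, 0, 0, 0, 0, 0, 0⟩ ⟨0, 0, 0, 0, 0, 0, 337181, 0, 0, 0, 0, 0, 0⟩ ⟨305, -1, -4253, 6, 69, 699, 781492, 0, 0, 0, 0, 0, 0⟩))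
    (.leaf (.box ⟨134, -2, -2048, 10, 143, 311, 160224, 0, 0, 0, 0, 0, 0⟩ ⟨0, 0, 0, 0, 0, 0, 218440, 0, 0, 0, 0, 0, 0⟩ ⟨0, 0, 0, 0, 0, 0, 218440, 0, 0, 0, 0, 0, 0⟩ ⟨0, 0, 0, 0, 0, 0, 343101, 0, 0, 0, 0, 0, 0⟩ ⟨0, 0, 0, 0, 0, 0, 343101, 0, 0, 0, 0, 0, 0⟩ ⟨349, -1, -5521, 6, 81, 890, 799189, 0, 0, 0, 0, 0, 0⟩)))))

/-- A piece of the tree. -/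
noncomputable def tree54 : Tree LeafX :=
  .s3
    (.s2
    (.leaf (.box ⟨239, 2, -2048, 37, 172, 319, 155485, 0, 0, 0, 0, 0, 0⟩ ⟨0, 0, 0, 0, 0, 0, 214998, 0, 0, 0, 0, 0, 0⟩ ⟨0, 0, 0, 0, 0, 0, 214998, 0, 0, 0, 0, 0, 0⟩ ⟨0, 0, 0, 0, 0, 0, 348319, 0, 0, 0, 0, 0, 0⟩ ⟨0, 0, 0, 0, 0, 0, 348319, 0, 0, 0, 0, 0, 0⟩ ⟨263, 0, -2048, 7, 32, 339, 916876, 0, 0, 0, 0, 0, 0⟩))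
    (.s1
    (.leaf (.box ⟨161, 0, -2048, 18, 149, 302, 159437, 0, 0, 0, 0, 0, 0⟩ ⟨0, 0, 0, 0, 0, 0, 220712, 0, 0, 0, 0, 0, 0⟩ ⟨0, 0, 0, 0, 0, 0, 220712, 0, 0, 0, 0, 0, 0⟩ ⟨0, 0, 0, 0, 0, 0, 358481, 0, 0, 0, 0, 0, 0⟩ ⟨0, 0, 0, 0, 0, 0, 358481, 0, 0, 0, 0, 0, 0⟩ ⟨256, 0, -3343, 6, 42, 516, 953936, 0, 0, 0, 0, 0, 0⟩))
    (.s0
    (.s2
    (.leaf (.box ⟨128, -1, -2048, 11, 157, 317, 157466, 0, 0, 0, 0, 0, 0⟩ ⟨0, 0, 0, 0, 0, 0, 218193, 0, 0, 0, 0, 0, 0⟩ ⟨0, 0, 0, 0, 0, 0, 218193, 0, 0, 0, 0, 0, 0⟩ ⟨0, 0, 0, 0, 0, 0, 355157, 0, 0, 0, 0, 0, 0⟩ ⟨0, 0, 0, 0, 0, 0, 355157, 0, 0, 0, 0, 0, 0⟩ ⟨332, -1, -5212, 6, 70, 861, 954015, 0, 0, 0, 0, 0, 0⟩))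
    (.leaf (.box ⟨123, -1, -2048, 8, 146, 313, 160126, 0, 0, 0, 0, 0, 0⟩ ⟨0, 0, 0, 0, 0, 0, 222000, 0, 0, 0, 0, 0, 0⟩ ⟨0, 0, 0, 0, 0, 0, 222000, 0, 0, 0, 0, 0, 0⟩ ⟨0, 0, 0, 0, 0, 0, 361801, 0, 0, 0, 0, 0, 0⟩ ⟨0, 0, 0, 0, 0, 0, 361801, 0, 0, 0, 0, 0, 0⟩ ⟨427, -1, -7005, 6, 86, 1140, 977144, 0, 0, 0, 0, 0, 0⟩)))
    (.leaf (.box ⟨129, -1, -2048, 15, 152, 324, 166286, 0, 0, 0, 0, 0, 0⟩ ⟨0, 0, 0, 0, 0, 0, 230368, 0, 0, 0, 0, 0, 0⟩ ⟨0, 0, 0, 0, 0, 0, 230368, 0, 0, 0, 0, 0, 0⟩ ⟨0, 0, 0, 0, 0, 0, 374809, 0, 0, 0, 0, 0, 0⟩ ⟨0, 0, 0, 0, 0, 0, 374809, 0, 0, 0, 0, 0, 0⟩ ⟨258, -1, -3742, 6, 48, 626, 1004848, 0, 0, 0, 0, 0, 0⟩)))))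
    (.s2
    (.s1
    (.leaf (.box ⟨188, 3, -2048, 25, 172, 315, 164852, 0, 0, 0, 0, 0, 0⟩ ⟨0, 0, 0, 0, 0, 0, 223920, 0, 0, 0, 0, 0, 0⟩ ⟨0, 0, 0, 0, 0, 0, 223920, 0, 0, 0, 0, 0, 0⟩ ⟨0, 0, 0, 0, 0, 0, 348952, 0, 0, 0, 0, 0, 0⟩ ⟨0, 0, 0, 0, 0, 0, 348952, 0, 0, 0, 0, 0, 0⟩ ⟨211, 1, -2329, 6, 43, 376, 790157, 0, 0, 0, 0, 0, 0⟩))
    (.leaf (.box ⟨188, 0, -2048, 24, 181, 335, 163070, 0, 0, 0, 0, 0, 0⟩ ⟨0, 0, 0, 0, 0, 0, 221700, 0, 0, 0, 0, 0, 0⟩ ⟨0, 0, 0, 0, 0, 0, 221700, 0, 0, 0, 0, 0, 0⟩ ⟨0, 0, 0, 0, 0, 0, 346155, 0, 0, 0, 0, 0, 0⟩ ⟨0, 0, 0, 0, 0, 0, 346155, 0, 0, 0, 0, 0, 0⟩ ⟨206, 0, -2151, 6, 42, 376, 789171, 0, 0, 0, 0, 0, 0⟩)))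
    (.s1
    (.s2
    (.leaf (.box ⟨154, 0, -2048, 14, 151, 307, 167503, 0, 0, 0, 0, 0, 0⟩ ⟨0, 0, 0, 0, 0, 0, 227995, 0, 0, 0, 0, 0, 0⟩ ⟨0, 0, 0, 0, 0, 0, 227995, 0, 0, 0, 0, 0, 0⟩ ⟨0, 0, 0, 0, 0, 0, 356875, 0, 0, 0, 0, 0, 0⟩ ⟨0, 0, 0, 0, 0, 0, 356875, 0, 0, 0, 0, 0, 0⟩ ⟨270, 0, -3687, 6, 58, 577, 820922, 0, 0, 0, 0, 0, 0⟩))
    (.leaf (.box ⟨151, 0, -2048, 12, 139, 304, 170017, 0, 0, 0, 0, 0, 0⟩ ⟨0, 0, 0, 0, 0, 0, 231596, 0, 0, 0, 0, 0, 0⟩ ⟨0, 0, 0, 0, 0, 0, 231596, 0, 0, 0, 0, 0, 0⟩ ⟨0, 0, 0, 0, 0, 0, 363113, 0, 0, 0, 0, 0, 0⟩ ⟨0, 0, 0, 0, 0, 0, 363113, 0, 0, 0, 0, 0, 0⟩ ⟨296, 0, -4069, 6, 58, 629, 840287, 0, 0, 0, 0, 0, 0⟩)))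
    (.s0
    (.s2
    (.leaf (.box ⟨132, -1, -2048, 11, 154, 322, 166134, 0, 0, 0, 0, 0, 0⟩ ⟨0, 0, 0, 0, 0, 0, 226313, 0, 0, 0, 0, 0, 0⟩ ⟨0, 0, 0, 0, 0, 0, 226313, 0, 0, 0, 0, 0, 0⟩ ⟨0, 0, 0, 0, 0, 0, 354848, 0, 0, 0, 0, 0, 0⟩ ⟨0, 0, 0, 0, 0, 0, 354848, 0, 0, 0, 0, 0, 0⟩ ⟨291, -1, -4401, 6, 71, 735, 821321, 0, 0, 0, 0, 0, 0⟩))
    (.leaf (.box ⟨125, -1, -2048, 9, 143, 319, 169199, 0, 0, 0, 0, 0, 0⟩ ⟨0, 0, 0, 0, 0, 0, 230629, 0, 0, 0, 0, 0, 0⟩ ⟨0, 0, 0, 0, 0, 0, 230629, 0, 0, 0, 0, 0, 0⟩ ⟨0, 0, 0, 0, 0, 0, 362088, 0, 0, 0, 0, 0, 0⟩ ⟨0, 0, 0, 0, 0, 0, 362088, 0, 0, 0, 0, 0, 0⟩ ⟨376, -1, -6127, 6, 90, 1007, 842074, 0, 0, 0, 0, 0, 0⟩)))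
    (.leaf (.box ⟨140, -1, -2048, 15, 149, 329, 175339, 0, 0, 0, 0, 0, 0⟩ ⟨0, 0, 0, 0, 0, 0, 238806, 0, 0, 0, 0, 0, 0⟩ ⟨0, 0, 0, 0, 0, 0, 238806, 0, 0, 0, 0, 0, 0⟩ ⟨0, 0, 0, 0, 0, 0, 374282, 0, 0, 0, 0, 0, 0⟩ ⟨0, 0, 0, 0, 0, 0, 374282, 0, 0, 0, 0, 0, 0⟩ ⟨219, -1, -3078, 6, 48, 520, 865010, 0, 0, 0, 0, 0, 0⟩)))))

/-- A piece of the tree. -/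
noncomputable def tree55 : Tree LeafX :=
  .s0
    (.s1
    (.s2
    (.leaf (.box ⟨158, 1, -2048, 17, 156, 291, 158532, 0, 0, 0, 0, 0, 0⟩ ⟨0, 0, 0, 0, 0, 0, 211471, 0, 0, 0, 0, 0, 0⟩ ⟨0, 0, 0, 0, 0, 0, 211471, 0, 0, 0, 0, 0, 0⟩ ⟨0, 0, 0, 0, 0, 0, 317491, 0, 0, 0, 0, 0, 0⟩ ⟨0, 0, 0, 0, 0, 0, 317491, 0, 0, 0, 0, 0, 0⟩ ⟨168, 0, -2394, 6, 49, 365, 636696, 0, 0, 0, 0, 0, 0⟩))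
    (.s3
    (.leaf (.box ⟨102, 0, -2048, 12, 134, 282, 160047, 0, 0, 0, 0, 0, 0⟩ ⟨0, 0, 0, 0, 0, 0, 215324, 0, 0, 0, 0, 0, 0⟩ ⟨0, 0, 0, 0, 0, 0, 215324, 0, 0, 0, 0, 0, 0⟩ ⟨0, 0, 0, 0, 0, 0, 328929, 0, 0, 0, 0, 0, 0⟩ ⟨0, 0, 0, 0, 0, 0, 328929, 0, 0, 0, 0, 0, 0⟩ ⟨192, 0, -3684, 6, 58, 535, 696290, 0, 0, 0, 0, 0, 0⟩))
    (.leaf (.box ⟨105, 0, -2048, 12, 132, 284, 164392, 0, 0, 0, 0, 0, 0⟩ ⟨0, 0, 0, 0, 0, 0, 219049, 0, 0, 0, 0, 0, 0⟩ ⟨0, 0, 0, 0, 0, 0, 219049, 0, 0, 0, 0, 0, 0⟩ ⟨0, 0, 0, 0, 0, 0, 328153, 0, 0, 0, 0, 0, 0⟩ ⟨0, 0, 0, 0, 0, 0, 328153, 0, 0, 0, 0, 0, 0⟩ ⟨187, 0, -3403, 6, 58, 496, 653795, 0, 0, 0, 0, 0, 0⟩))))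
    (.s2
    (.leaf (.box ⟨151, 0, -2048, 18, 163, 305, 157305, 0, 0, 0, 0, 0, 0⟩ ⟨0, 0, 0, 0, 0, 0, 209968, 0, 0, 0, 0, 0, 0⟩ ⟨0, 0, 0, 0, 0, 0, 209968, 0, 0, 0, 0, 0, 0⟩ ⟨0, 0, 0, 0, 0, 0, 315637, 0, 0, 0, 0, 0, 0⟩ ⟨0, 0, 0, 0, 0, 0, 315637, 0, 0, 0, 0, 0, 0⟩ ⟨172, 0, -2361, 6, 50, 377, 635422, 0, 0, 0, 0, 0, 0⟩))
    (.s2
    (.leaf (.box ⟨107, -1, -2048, 10, 143, 296, 159063, 0, 0, 0, 0, 0, 0⟩ ⟨0, 0, 0, 0, 0, 0, 212711, 0, 0, 0, 0, 0, 0⟩ ⟨0, 0, 0, 0, 0, 0, 212711, 0, 0, 0, 0, 0, 0⟩ ⟨0, 0, 0, 0, 0, 0, 320963, 0, 0, 0, 0, 0, 0⟩ ⟨0, 0, 0, 0, 0, 0, 320963, 0, 0, 0, 0, 0, 0⟩ ⟨235, 0, -4838, 6, 87, 741, 653577, 0, 0, 0, 0, 0, 0⟩))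
    (.leaf (.box ⟨100, -1, -2048, 8, 133, 291, 161086, 0, 0, 0, 0, 0, 0⟩ ⟨0, 0, 0, 0, 0, 0, 215548, 0, 0, 0, 0, 0, 0⟩ ⟨0, 0, 0, 0, 0, 0, 215548, 0, 0, 0, 0, 0, 0⟩ ⟨0, 0, 0, 0, 0, 0, 325647, 0, 0, 0, 0, 0, 0⟩ ⟨0, 0, 0, 0, 0, 0, 325647, 0, 0, 0, 0, 0, 0⟩ ⟨242, -1, -5447, 6, 90, 819, 665651, 0, 0, 0, 0, 0, 0⟩)))))
    (.s2
    (.s2
    (.leaf (.box ⟨147, 2, -2048, 14, 170, 311, 164568, 0, 0, 0, 0, 0, 0⟩ ⟨0, 0, 0, 0, 0, 0, 219575, 0, 0, 0, 0, 0, 0⟩ ⟨0, 0, 0, 0, 0, 0, 219575, 0, 0, 0, 0, 0, 0⟩ ⟨0, 0, 0, 0, 0, 0, 329813, 0, 0, 0, 0, 0, 0⟩ ⟨0, 0, 0, 0, 0, 0, 329813, 0, 0, 0, 0, 0, 0⟩ ⟨241, 1, -3120, 6, 69, 502, 662347, 0, 0, 0, 0, 0, 0⟩))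
    (.leaf (.box ⟨140, 1, -2048, 12, 156, 304, 165651, 0, 0, 0, 0, 0, 0⟩ ⟨0, 0, 0, 0, 0, 0, 221239, 0, 0, 0, 0, 0, 0⟩ ⟨0, 0, 0, 0, 0, 0, 221239, 0, 0, 0, 0, 0, 0⟩ ⟨0, 0, 0, 0, 0, 0, 332974, 0, 0, 0, 0, 0, 0⟩ ⟨0, 0, 0, 0, 0, 0, 332974, 0, 0, 0, 0, 0, 0⟩ ⟨223, 0, -3139, 6, 62, 491, 672734, 0, 0, 0, 0, 0, 0⟩)))
    (.s0
    (.leaf (.box ⟨144, -1, -2048, 15, 137, 296, 167293, 0, 0, 0, 0, 0, 0⟩ ⟨0, 0, 0, 0, 0, 0, 223643, 0, 0, 0, 0, 0, 0⟩ ⟨0, 0, 0, 0, 0, 0, 223643, 0, 0, 0, 0, 0, 0⟩ ⟨0, 0, 0, 0, 0, 0, 337235, 0, 0, 0, 0, 0, 0⟩ ⟨0, 0, 0, 0, 0, 0, 337235, 0, 0, 0, 0, 0, 0⟩ ⟨238, 0, -3400, 6, 58, 513, 685320, 0, 0, 0, 0, 0, 0⟩))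
    (.leaf (.box ⟨132, 0, -2048, 13, 137, 298, 171736, 0, 0, 0, 0, 0, 0⟩ ⟨0, 0, 0, 0, 0, 0, 229546, 0, 0, 0, 0, 0, 0⟩ ⟨0, 0, 0, 0, 0, 0, 229546, 0, 0, 0, 0, 0, 0⟩ ⟨0, 0, 0, 0, 0, 0, 346025, 0, 0, 0, 0, 0, 0⟩ ⟨0, 0, 0, 0, 0, 0, 346025, 0, 0, 0, 0, 0, 0⟩ ⟨224, 0, -3148, 6, 54, 480, 702487, 0, 0, 0, 0, 0, 0⟩))))

theorem parts1 :
    (runPathS conQ supQ (fun n Qs i d x => leafR conQ seg n Qs i d x) [.d0 false, .d1 false, .d2 true, .d0 true, .d1 false, .d2 false] tree25 0 0 0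
      (joinS (lay.B * lay.size) rootQ) = true) ∧
    (runPathS conQ supQ (fun n Qs i d x => leafR conQ seg n Qs i d x) [.d0 false, .d1 false, .d2 true, .d0 true, .d1 false, .d2 true] tree26 0 0 0
      (joinS (lay.B * lay.size) rootQ) = true) ∧
    (runPathS conQ supQ (fun n Qs i d x => leafR conQ seg n Qs i d x) [.d0 false, .d1 false, .d2 true, .d0 true, .d1 true] tree27 0 0 0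
      (joinS (lay.B * lay.size) rootQ) = true) ∧
    (runPathS conQ supQ (fun n Qs i d x => leafR conQ seg n Qs i d x) [.d0 false, .d1 true, .d2 false, .d0 false] tree28 0 0 0
      (joinS (lay.B * lay.size) rootQ) = true) ∧
    (runPathS conQ supQ (fun n Qs i d x => leafR conQ seg n Qs i d x) [.d0 false, .d1 true, .d2 false, .d0 true, .d1 false, .d0 false] tree29 0 0 0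
      (joinS (lay.B * lay.size) rootQ) = true) ∧
    (runPathS conQ supQ (fun n Qs i d x => leafR conQ seg n Qs i d x) [.d0 false, .d1 true, .d2 false, .d0 true, .d1 false, .d0 true, .d1 false, .d0 false] tree30 0 0 0
      (joinS (lay.B * lay.size) rootQ) = true) ∧
    (runPathS conQ supQ (fun n Qs i d x => leafR conQ seg n Qs i d x) [.d0 false, .d1 true, .d2 false, .d0 true, .d1 false, .d0 true, .d1 false, .d0 true, .d2 false, .d0 false] tree31 0 0 0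
      (joinS (lay.B * lay.size) rootQ) = true) ∧
    (runPathS conQ supQ (fun n Qs i d x => leafR conQ seg n Qs i d x) [.d0 false, .d1 true, .d2 false, .d0 true, .d1 false, .d0 true, .d1 false, .d0 true, .d2 false, .d0 true, .d1 false] tree32 0 0 0
      (joinS (lay.B * lay.size) rootQ) = true) ∧
    (runPathS conQ supQ (fun n Qs i d x => leafR conQ seg n Qs i d x) [.d0 false, .d1 true, .d2 false, .d0 true, .d1 false, .d0 true, .d1 false, .d0 true, .d2 false, .d0 true, .d1 true] tree33 0 0 0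
      (joinS (lay.B * lay.size) rootQ) = true) ∧
    (runPathS conQ supQ (fun n Qs i d x => leafR conQ seg n Qs i d x) [.d0 false, .d1 true, .d2 false, .d0 true, .d1 false, .d0 true, .d1 false, .d0 true, .d2 true] tree34 0 0 0
      (joinS (lay.B * lay.size) rootQ) = true) ∧
    (runPathS conQ supQ (fun n Qs i d x => leafR conQ seg n Qs i d x) [.d0 false, .d1 true, .d2 false, .d0 true, .d1 false, .d0 true, .d1 true] tree35 0 0 0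
      (joinS (lay.B * lay.size) rootQ) = true) ∧
    (runPathS conQ supQ (fun n Qs i d x => leafR conQ seg n Qs i d x) [.d0 false, .d1 true, .d2 false, .d0 true, .d1 true] tree36 0 0 0
      (joinS (lay.B * lay.size) rootQ) = true) ∧
    (runPathS conQ supQ (fun n Qs i d x => leafR conQ seg n Qs i d x) [.d0 false, .d1 true, .d2 true, .d0 false] tree37 0 0 0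
      (joinS (lay.B * lay.size) rootQ) = true) ∧
    (runPathS conQ supQ (fun n Qs i d x => leafR conQ seg n Qs i d x) [.d0 false, .d1 true, .d2 true, .d0 true] tree38 0 0 0
      (joinS (lay.B * lay.size) rootQ) = true) ∧
    (runPathS conQ supQ (fun n Qs i d x => leafR conQ seg n Qs i d x) [.d0 true, .d1 false, .d2 false, .d0 false, .d1 false] tree39 0 0 0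
      (joinS (lay.B * lay.size) rootQ) = true) ∧
    (runPathS conQ supQ (fun n Qs i d x => leafR conQ seg n Qs i d x) [.d0 true, .d1 false, .d2 false, .d0 false, .d1 true, .d0 false, .d1 false] tree40 0 0 0
      (joinS (lay.B * lay.size) rootQ) = true) ∧
    (runPathS conQ supQ (fun n Qs i d x => leafR conQ seg n Qs i d x) [.d0 true, .d1 false, .d2 false, .d0 false, .d1 true, .d0 false, .d1 true, .d0 false, .d3 false] tree41 0 0 0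
      (joinS (lay.B * lay.size) rootQ) = true) ∧
    (runPathS conQ supQ (fun n Qs i d x => leafR conQ seg n Qs i d x) [.d0 true, .d1 false, .d2 false, .d0 false, .d1 true, .d0 false, .d1 true, .d0 false, .d3 true, .d0 false, .d2 false, .d1 false] tree42 0 0 0
      (joinS (lay.B * lay.size) rootQ) = true) ∧
    (runPathS conQ supQ (fun n Qs i d x => leafR conQ seg n Qs i d x) [.d0 true, .d1 false, .d2 false, .d0 false, .d1 true, .d0 false, .d1 true, .d0 false, .d3 true, .d0 false, .d2 false, .d1 true] tree43 0 0 0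
      (joinS (lay.B * lay.size) rootQ) = true) ∧
    (runPathS conQ supQ (fun n Qs i d x => leafR conQ seg n Qs i d x) [.d0 true, .d1 false, .d2 false, .d0 false, .d1 true, .d0 false, .d1 true, .d0 false, .d3 true, .d0 false, .d2 true] tree44 0 0 0
      (joinS (lay.B * lay.size) rootQ) = true) ∧
    (runPathS conQ supQ (fun n Qs i d x => leafR conQ seg n Qs i d x) [.d0 true, .d1 false, .d2 false, .d0 false, .d1 true, .d0 false, .d1 true, .d0 false, .d3 true, .d0 true] tree45 0 0 0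
      (joinS (lay.B * lay.size) rootQ) = true) ∧
    (runPathS conQ supQ (fun n Qs i d x => leafR conQ seg n Qs i d x) [.d0 true, .d1 false, .d2 false, .d0 false, .d1 true, .d0 false, .d1 true, .d0 true] tree46 0 0 0
      (joinS (lay.B * lay.size) rootQ) = true) ∧
    (runPathS conQ supQ (fun n Qs i d x => leafR conQ seg n Qs i d x) [.d0 true, .d1 false, .d2 false, .d0 false, .d1 true, .d0 true] tree47 0 0 0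
      (joinS (lay.B * lay.size) rootQ) = true) ∧
    (runPathS conQ supQ (fun n Qs i d x => leafR conQ seg n Qs i d x) [.d0 true, .d1 false, .d2 false, .d0 true] tree48 0 0 0
      (joinS (lay.B * lay.size) rootQ) = true) ∧
    (runPathS conQ supQ (fun n Qs i d x => leafR conQ seg n Qs i d x) [.d0 true, .d1 false, .d2 true, .d0 false, .d1 false] tree49 0 0 0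
      (joinS (lay.B * lay.size) rootQ) = true) ∧
    (runPathS conQ supQ (fun n Qs i d x => leafR conQ seg n Qs i d x) [.d0 true, .d1 false, .d2 true, .d0 false, .d1 true] tree50 0 0 0
      (joinS (lay.B * lay.size) rootQ) = true) ∧
    (runPathS conQ supQ (fun n Qs i d x => leafR conQ seg n Qs i d x) [.d0 true, .d1 false, .d2 true, .d0 true] tree51 0 0 0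
      (joinS (lay.B * lay.size) rootQ) = true) ∧
    (runPathS conQ supQ (fun n Qs i d x => leafR conQ seg n Qs i d x) [.d0 true, .d1 true, .d2 false, .d0 false, .d1 false, .d2 false, .d0 false, .d1 false, .d0 false, .d3 false, .d0 false, .d1 false] tree52 0 0 0
      (joinS (lay.B * lay.size) rootQ) = true) ∧
    (runPathS conQ supQ (fun n Qs i d x => leafR conQ seg n Qs i d x) [.d0 true, .d1 true, .d2 false, .d0 false, .d1 false, .d2 false, .d0 false, .d1 false, .d0 false, .d3 false, .d0 false, .d1 true] tree53 0 0 0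
      (joinS (lay.B * lay.size) rootQ) = true) ∧
    (runPathS conQ supQ (fun n Qs i d x => leafR conQ seg n Qs i d x) [.d0 true, .d1 true, .d2 false, .d0 false, .d1 false, .d2 false, .d0 false, .d1 false, .d0 false, .d3 false, .d0 true] tree54 0 0 0
      (joinS (lay.B * lay.size) rootQ) = true) ∧
    (runPathS conQ supQ (fun n Qs i d x => leafR conQ seg n Qs i d x) [.d0 true, .d1 true, .d2 false, .d0 false, .d1 false, .d2 false, .d0 false, .d1 false, .d0 false, .d3 true, .d0 false, .d1 false, .d3 false] tree55 0 0 0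
      (joinS (lay.B * lay.size) rootQ) = true) :=
  ⟨by decide +kernel,
  by decide +kernel,
  by decide +kernel,
  by decide +kernel,
  by decide +kernel,
  by decide +kernel,
  by decide +kernel,
  by decide +kernel,
  by decide +kernel,
  by decide +kernel,
  by decide +kernel,
  by decide +kernel,
  by decide +kernel,
  by decide +kernel,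
  by decide +kernel,
  by decide +kernel,
  by decide +kernel,
  by decide +kernel,
  by decide +kernel,
  by decide +kernel,
  by decide +kernel,
  by decide +kernel,
  by decide +kernel,
  by decide +kernel,
  by decide +kernel,
  by decide +kernel,
  by decide +kernel,
  by decide +kernel,
  by decide +kernel,
  by decide +kernel,
  by decide +kernel⟩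

end Vale.Agent.P098.Six.S19
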