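import Vale.Agent.P098.Six.S19.Root

/-!
# P098, six dimensions: checked pieces of the tree
-/

namespace Vale.Agent.P098.Six.S19

/-- A piece of the tree. -/
noncomputable def tree56 : Tree LeafX :=
  .s0
    (.s2
    (.s3
    (.leaf (.box ⟨244, 1, -2048, 17, 152, 293, 165188, 0, 0, 0, 0, 0, 0⟩ ⟨0, 0, 0, 0, 0, 0, 217402, 0, 0, 0, 0, 0, 0⟩ ⟨0, 0, 0, 0, 0, 0, 217402, 0, 0, 0, 0, 0, 0⟩ ⟨0, 0, 0, 0, 0, 0, 317877, 0, 0, 0, 0, 0, 0⟩ ⟨0, 0, 0, 0, 0, 0, 317877, 0, 0, 0, 0, 0, 0⟩ ⟨191, 0, -2048, 6, 47, 323, 591032, 0, 0, 0, 0, 0, 0⟩))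
    (.s2
    (.leaf (.box ⟨154, 1, -2048, 14, 164, 312, 168792, 0, 0, 0, 0, 0, 0⟩ ⟨0, 0, 0, 0, 0, 0, 219488, 0, 0, 0, 0, 0, 0⟩ ⟨0, 0, 0, 0, 0, 0, 219488, 0, 0, 0, 0, 0, 0⟩ ⟨0, 0, 0, 0, 0, 0, 313709, 0, 0, 0, 0, 0, 0⟩ ⟨0, 0, 0, 0, 0, 0, 313709, 0, 0, 0, 0, 0, 0⟩ ⟨224, 1, -2765, 6, 72, 446, 549665, 0, 0, 0, 0, 0, 0⟩))
    (.leaf (.box ⟨190, 0, -2048, 12, 145, 296, 170192, 0, 0, 0, 0, 0, 0⟩ ⟨0, 0, 0, 0, 0, 0, 221588, 0, 0, 0, 0, 0, 0⟩ ⟨0, 0, 0, 0, 0, 0, 221588, 0, 0, 0, 0, 0, 0⟩ ⟨0, 0, 0, 0, 0, 0, 317454, 0, 0, 0, 0, 0, 0⟩ ⟨0, 0, 0, 0, 0, 0, 317454, 0, 0, 0, 0, 0, 0⟩ ⟨225, 0, -2984, 6, 70, 466, 559522, 0, 0, 0, 0, 0, 0⟩))))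
    (.s3
    (.s2
    (.leaf (.box ⟨135, 0, -2048, 11, 137, 294, 168172, 0, 0, 0, 0, 0, 0⟩ ⟨0, 0, 0, 0, 0, 0, 221891, 0, 0, 0, 0, 0, 0⟩ ⟨0, 0, 0, 0, 0, 0, 221891, 0, 0, 0, 0, 0, 0⟩ ⟨0, 0, 0, 0, 0, 0, 326033, 0, 0, 0, 0, 0, 0⟩ ⟨0, 0, 0, 0, 0, 0, 326033, 0, 0, 0, 0, 0, 0⟩ ⟨237, 0, -3461, 6, 67, 523, 614394, 0, 0, 0, 0, 0, 0⟩))
    (.leaf (.box ⟨136, -1, -2048, 10, 127, 290, 170732, 0, 0, 0, 0, 0, 0⟩ ⟨0, 0, 0, 0, 0, 0, 225425, 0, 0, 0, 0, 0, 0⟩ ⟨0, 0, 0, 0, 0, 0, 225425, 0, 0, 0, 0, 0, 0⟩ ⟨0, 0, 0, 0, 0, 0, 331673, 0, 0, 0, 0, 0, 0⟩ ⟨0, 0, 0, 0, 0, 0, 331673, 0, 0, 0, 0, 0, 0⟩ ⟨273, -1, -4299, 6, 76, 637, 627363, 0, 0, 0, 0, 0, 0⟩)))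
    (.s2
    (.leaf (.box ⟨159, 0, -2048, 10, 134, 293, 173280, 0, 0, 0, 0, 0, 0⟩ ⟨138, 0, -2048, 8, 106, 301, 224414, 0, 0, 0, 0, 0, 0⟩ ⟨138, 0, -2048, 8, 106, 301, 224414, 0, 0, 0, 0, 0, 0⟩ ⟨158, 0, -2262, 6, 83, 338, 323204, 0, 0, 0, 0, 0, 0⟩ ⟨158, 0, -2262, 6, 83, 338, 323204, 0, 0, 0, 0, 0, 0⟩ ⟨235, 0, -3404, 6, 70, 517, 582330, 0, 0, 0, 0, 0, 0⟩))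
    (.leaf (.box ⟨131, -1, -2048, 10, 125, 292, 175906, 0, 0, 0, 0, 0, 0⟩ ⟨135, -1, -2048, 8, 98, 296, 228107, 0, 0, 0, 0, 0, 0⟩ ⟨135, -1, -2048, 8, 98, 296, 228107, 0, 0, 0, 0, 0, 0⟩ ⟨138, -1, -2048, 6, 69, 300, 328930, 0, 0, 0, 0, 0, 0⟩ ⟨138, -1, -2048, 6, 69, 300, 328930, 0, 0, 0, 0, 0, 0⟩ ⟨241, -1, -3520, 6, 66, 524, 593354, 0, 0, 0, 0, 0, 0⟩)))))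
    (.s2
    (.s1
    (.s2
    (.leaf (.box ⟨115, 2, -2048, 12, 165, 312, 174312, 0, 0, 0, 0, 0, 0⟩ ⟨0, 0, 0, 0, 0, 0, 227822, 0, 0, 0, 0, 0, 0⟩ ⟨0, 0, 0, 0, 0, 0, 227822, 0, 0, 0, 0, 0, 0⟩ ⟨0, 0, 0, 0, 0, 0, 328735, 0, 0, 0, 0, 0, 0⟩ ⟨0, 0, 0, 0, 0, 0, 328735, 0, 0, 0, 0, 0, 0⟩ ⟨158, 1, -2869, 6, 72, 458, 590131, 0, 0, 0, 0, 0, 0⟩))
    (.leaf (.box ⟨107, 1, -2048, 11, 150, 304, 175646, 0, 0, 0, 0, 0, 0⟩ ⟨0, 0, 0, 0, 0, 0, 229809, 0, 0, 0, 0, 0, 0⟩ ⟨0, 0, 0, 0, 0, 0, 229809, 0, 0, 0, 0, 0, 0⟩ ⟨0, 0, 0, 0, 0, 0, 332265, 0, 0, 0, 0, 0, 0⟩ ⟨0, 0, 0, 0, 0, 0, 332265, 0, 0, 0, 0, 0, 0⟩ ⟨178, 0, -3512, 6, 79, 544, 599579, 0, 0, 0, 0, 0, 0⟩)))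
    (.leaf (.box ⟨148, 1, -2048, 17, 163, 319, 173023, 0, 0, 0, 0, 0, 0⟩ ⟨0, 0, 0, 0, 0, 0, 226306, 0, 0, 0, 0, 0, 0⟩ ⟨0, 0, 0, 0, 0, 0, 226306, 0, 0, 0, 0, 0, 0⟩ ⟨0, 0, 0, 0, 0, 0, 327010, 0, 0, 0, 0, 0, 0⟩ ⟨0, 0, 0, 0, 0, 0, 327010, 0, 0, 0, 0, 0, 0⟩ ⟨150, 0, -2048, 6, 51, 337, 589193, 0, 0, 0, 0, 0, 0⟩)))
    (.s3
    (.leaf (.box ⟨171, -1, -2048, 16, 136, 304, 176659, 0, 0, 0, 0, 0, 0⟩ ⟨0, 0, 0, 0, 0, 0, 233008, 0, 0, 0, 0, 0, 0⟩ ⟨0, 0, 0, 0, 0, 0, 233008, 0, 0, 0, 0, 0, 0⟩ ⟨0, 0, 0, 0, 0, 0, 342140, 0, 0, 0, 0, 0, 0⟩ ⟨0, 0, 0, 0, 0, 0, 342140, 0, 0, 0, 0, 0, 0⟩ ⟨208, 0, -2826, 6, 53, 432, 643558, 0, 0, 0, 0, 0, 0⟩))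
    (.s2
    (.leaf (.box ⟨131, 0, -2048, 10, 138, 304, 180843, 0, 0, 0, 0, 0, 0⟩ ⟨0, 0, 0, 0, 0, 0, 235624, 0, 0, 0, 0, 0, 0⟩ ⟨0, 0, 0, 0, 0, 0, 235624, 0, 0, 0, 0, 0, 0⟩ ⟨0, 0, 0, 0, 0, 0, 338015, 0, 0, 0, 0, 0, 0⟩ ⟨0, 0, 0, 0, 0, 0, 338015, 0, 0, 0, 0, 0, 0⟩ ⟨233, 0, -3479, 6, 74, 539, 597780, 0, 0, 0, 0, 0, 0⟩))
    (.leaf (.box ⟨130, -1, -2048, 10, 127, 300, 184245, 0, 0, 0, 0, 0, 0⟩ ⟨0, 0, 0, 0, 0, 0, 240218, 0, 0, 0, 0, 0, 0⟩ ⟨0, 0, 0, 0, 0, 0, 240218, 0, 0, 0, 0, 0, 0⟩ ⟨0, 0, 0, 0, 0, 0, 345038, 0, 0, 0, 0, 0, 0⟩ ⟨0, 0, 0, 0, 0, 0, 345038, 0, 0, 0, 0, 0, 0⟩ ⟨273, 0, -4269, 6, 82, 649, 612153, 0, 0, 0, 0, 0, 0⟩)))))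

/-- A piece of the tree. -/
noncomputable def tree57 : Tree LeafX :=
  .s2
    (.s3
    (.leaf (.box ⟨220, -1, -2048, 26, 175, 328, 156788, 0, 0, 0, 0, 0, 0⟩ ⟨0, 0, 0, 0, 0, 0, 209357, 0, 0, 0, 0, 0, 0⟩ ⟨0, 0, 0, 0, 0, 0, 209357, 0, 0, 0, 0, 0, 0⟩ ⟨0, 0, 0, 0, 0, 0, 314957, 0, 0, 0, 0, 0, 0⟩ ⟨0, 0, 0, 0, 0, 0, 314957, 0, 0, 0, 0, 0, 0⟩ ⟨226, 0, -2048, 7, 47, 354, 635507, 0, 0, 0, 0, 0, 0⟩))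
    (.leaf (.box ⟨275, -1, -2048, 26, 168, 328, 165273, 0, 0, 0, 0, 0, 0⟩ ⟨0, 0, 0, 0, 0, 0, 216308, 0, 0, 0, 0, 0, 0⟩ ⟨0, 0, 0, 0, 0, 0, 216308, 0, 0, 0, 0, 0, 0⟩ ⟨0, 0, 0, 0, 0, 0, 312941, 0, 0, 0, 0, 0, 0⟩ ⟨0, 0, 0, 0, 0, 0, 312941, 0, 0, 0, 0, 0, 0⟩ ⟨227, 0, -2048, 8, 54, 360, 565628, 0, 0, 0, 0, 0, 0⟩)))
    (.s0
    (.s2
    (.leaf (.box ⟨217, -2, -2048, 12, 152, 311, 158754, 0, 0, 0, 0, 0, 0⟩ ⟨0, 0, 0, 0, 0, 0, 209614, 0, 0, 0, 0, 0, 0⟩ ⟨0, 0, 0, 0, 0, 0, 209614, 0, 0, 0, 0, 0, 0⟩ ⟨0, 0, 0, 0, 0, 0, 308422, 0, 0, 0, 0, 0, 0⟩ ⟨0, 0, 0, 0, 0, 0, 308422, 0, 0, 0, 0, 0, 0⟩ ⟨262, -1, -3166, 6, 68, 523, 583449, 0, 0, 0, 0, 0, 0⟩))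
    (.leaf (.box ⟨176, -3, -2048, 13, 145, 309, 160981, 0, 0, 0, 0, 0, 0⟩ ⟨0, 0, 0, 0, 0, 0, 212722, 0, 0, 0, 0, 0, 0⟩ ⟨0, 0, 0, 0, 0, 0, 212722, 0, 0, 0, 0, 0, 0⟩ ⟨0, 0, 0, 0, 0, 0, 313476, 0, 0, 0, 0, 0, 0⟩ ⟨0, 0, 0, 0, 0, 0, 313476, 0, 0, 0, 0, 0, 0⟩ ⟨280, -1, -3697, 6, 73, 597, 595557, 0, 0, 0, 0, 0, 0⟩)))
    (.s3
    (.s3
    (.leaf (.box ⟨142, -2, -2048, 13, 146, 317, 166761, 0, 0, 0, 0, 0, 0⟩ ⟨0, 0, 0, 0, 0, 0, 224538, 0, 0, 0, 0, 0, 0⟩ ⟨0, 0, 0, 0, 0, 0, 224538, 0, 0, 0, 0, 0, 0⟩ ⟨0, 0, 0, 0, 0, 0, 343572, 0, 0, 0, 0, 0, 0⟩ ⟨0, 0, 0, 0, 0, 0, 343572, 0, 0, 0, 0, 0, 0⟩ ⟨271, -1, -3622, 6, 62, 595, 731209, 0, 0, 0, 0, 0, 0⟩))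
    (.leaf (.box ⟨146, -2, -2048, 13, 144, 320, 171551, 0, 0, 0, 0, 0, 0⟩ ⟨0, 0, 0, 0, 0, 0, 228756, 0, 0, 0, 0, 0, 0⟩ ⟨0, 0, 0, 0, 0, 0, 228756, 0, 0, 0, 0, 0, 0⟩ ⟨0, 0, 0, 0, 0, 0, 343196, 0, 0, 0, 0, 0, 0⟩ ⟨0, 0, 0, 0, 0, 0, 343196, 0, 0, 0, 0, 0, 0⟩ ⟨261, -1, -3357, 6, 62, 554, 686764, 0, 0, 0, 0, 0, 0⟩)))
    (.s2
    (.leaf (.box ⟨149, -1, -2048, 10, 148, 327, 176591, 0, 0, 0, 0, 0, 0⟩ ⟨0, 0, 0, 0, 0, 0, 231496, 0, 0, 0, 0, 0, 0⟩ ⟨0, 0, 0, 0, 0, 0, 231496, 0, 0, 0, 0, 0, 0⟩ ⟨0, 0, 0, 0, 0, 0, 335944, 0, 0, 0, 0, 0, 0⟩ ⟨0, 0, 0, 0, 0, 0, 335944, 0, 0, 0, 0, 0, 0⟩ ⟨268, -1, -3644, 6, 80, 614, 612134, 0, 0, 0, 0, 0, 0⟩))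
    (.leaf (.box ⟨139, -1, -2048, 8, 137, 322, 179845, 0, 0, 0, 0, 0, 0⟩ ⟨0, 0, 0, 0, 0, 0, 235940, 0, 0, 0, 0, 0, 0⟩ ⟨0, 0, 0, 0, 0, 0, 235940, 0, 0, 0, 0, 0, 0⟩ ⟨0, 0, 0, 0, 0, 0, 342887, 0, 0, 0, 0, 0, 0⟩ ⟨0, 0, 0, 0, 0, 0, 342887, 0, 0, 0, 0, 0, 0⟩ ⟨305, -1, -4569, 6, 91, 753, 627176, 0, 0, 0, 0, 0, 0⟩)))))

/-- A piece of the tree. -/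
noncomputable def tree58 : Tree LeafX :=
  .s3
    (.s1
    (.s2
    (.leaf (.box ⟨188, 3, -2048, 23, 170, 320, 172647, 0, 0, 0, 0, 0, 0⟩ ⟨0, 0, 0, 0, 0, 0, 230249, 0, 0, 0, 0, 0, 0⟩ ⟨0, 0, 0, 0, 0, 0, 230249, 0, 0, 0, 0, 0, 0⟩ ⟨0, 0, 0, 0, 0, 0, 345529, 0, 0, 0, 0, 0, 0⟩ ⟨0, 0, 0, 0, 0, 0, 345529, 0, 0, 0, 0, 0, 0⟩ ⟨188, 1, -2048, 7, 44, 334, 691995, 0, 0, 0, 0, 0, 0⟩))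
    (.s2
    (.leaf (.box ⟨155, 0, -2048, 14, 147, 310, 176408, 0, 0, 0, 0, 0, 0⟩ ⟨0, 0, 0, 0, 0, 0, 235746, 0, 0, 0, 0, 0, 0⟩ ⟨0, 0, 0, 0, 0, 0, 235746, 0, 0, 0, 0, 0, 0⟩ ⟨0, 0, 0, 0, 0, 0, 355236, 0, 0, 0, 0, 0, 0⟩ ⟨0, 0, 0, 0, 0, 0, 355236, 0, 0, 0, 0, 0, 0⟩ ⟨238, 0, -3038, 6, 56, 480, 720348, 0, 0, 0, 0, 0, 0⟩))
    (.leaf (.box ⟨155, 0, -2048, 12, 136, 308, 179462, 0, 0, 0, 0, 0, 0⟩ ⟨0, 0, 0, 0, 0, 0, 240008, 0, 0, 0, 0, 0, 0⟩ ⟨0, 0, 0, 0, 0, 0, 240008, 0, 0, 0, 0, 0, 0⟩ ⟨0, 0, 0, 0, 0, 0, 362206, 0, 0, 0, 0, 0, 0⟩ ⟨0, 0, 0, 0, 0, 0, 362206, 0, 0, 0, 0, 0, 0⟩ ⟨284, 0, -3903, 6, 65, 608, 737902, 0, 0, 0, 0, 0, 0⟩))))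
    (.s2
    (.leaf (.box ⟨201, 0, -2048, 26, 178, 343, 171341, 0, 0, 0, 0, 0, 0⟩ ⟨0, 0, 0, 0, 0, 0, 228679, 0, 0, 0, 0, 0, 0⟩ ⟨0, 0, 0, 0, 0, 0, 228679, 0, 0, 0, 0, 0, 0⟩ ⟨0, 0, 0, 0, 0, 0, 343691, 0, 0, 0, 0, 0, 0⟩ ⟨0, 0, 0, 0, 0, 0, 343691, 0, 0, 0, 0, 0, 0⟩ ⟨200, 0, -2048, 7, 47, 363, 691451, 0, 0, 0, 0, 0, 0⟩))
    (.s0
    (.s2
    (.leaf (.box ⟨136, -1, -2048, 11, 151, 328, 175545, 0, 0, 0, 0, 0, 0⟩ ⟨0, 0, 0, 0, 0, 0, 234746, 0, 0, 0, 0, 0, 0⟩ ⟨0, 0, 0, 0, 0, 0, 234746, 0, 0, 0, 0, 0, 0⟩ ⟨0, 0, 0, 0, 0, 0, 354192, 0, 0, 0, 0, 0, 0⟩ ⟨0, 0, 0, 0, 0, 0, 354192, 0, 0, 0, 0, 0, 0⟩ ⟨275, -1, -3916, 6, 74, 662, 721121, 0, 0, 0, 0, 0, 0⟩))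
    (.leaf (.box ⟨127, -1, -2048, 8, 140, 324, 179046, 0, 0, 0, 0, 0, 0⟩ ⟨0, 0, 0, 0, 0, 0, 239588, 0, 0, 0, 0, 0, 0⟩ ⟨0, 0, 0, 0, 0, 0, 239588, 0, 0, 0, 0, 0, 0⟩ ⟨0, 0, 0, 0, 0, 0, 361988, 0, 0, 0, 0, 0, 0⟩ ⟨0, 0, 0, 0, 0, 0, 361988, 0, 0, 0, 0, 0, 0⟩ ⟨304, -1, -4736, 6, 81, 786, 740079, 0, 0, 0, 0, 0, 0⟩)))
    (.leaf (.box ⟨140, -2, -2048, 18, 143, 335, 185202, 0, 0, 0, 0, 0, 0⟩ ⟨0, 0, 0, 0, 0, 0, 247600, 0, 0, 0, 0, 0, 0⟩ ⟨0, 0, 0, 0, 0, 0, 247600, 0, 0, 0, 0, 0, 0⟩ ⟨0, 0, 0, 0, 0, 0, 373407, 0, 0, 0, 0, 0, 0⟩ ⟨0, 0, 0, 0, 0, 0, 373407, 0, 0, 0, 0, 0, 0⟩ ⟨206, -1, -2729, 6, 49, 466, 759122, 0, 0, 0, 0, 0, 0⟩)))))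
    (.s1
    (.s2
    (.s3
    (.leaf (.box ⟨190, 3, -2048, 23, 166, 324, 180872, 0, 0, 0, 0, 0, 0⟩ ⟨0, 0, 0, 0, 0, 0, 237755, 0, 0, 0, 0, 0, 0⟩ ⟨0, 0, 0, 0, 0, 0, 237755, 0, 0, 0, 0, 0, 0⟩ ⟨0, 0, 0, 0, 0, 0, 346830, 0, 0, 0, 0, 0, 0⟩ ⟨0, 0, 0, 0, 0, 0, 346830, 0, 0, 0, 0, 0, 0⟩ ⟨187, 1, -2048, 7, 49, 337, 640818, 0, 0, 0, 0, 0, 0⟩))
    (.leaf (.box ⟨190, 3, -2048, 29, 158, 325, 184624, 0, 0, 0, 0, 0, 0⟩ ⟨0, 0, 0, 0, 0, 0, 239808, 0, 0, 0, 0, 0, 0⟩ ⟨0, 0, 0, 0, 0, 0, 239808, 0, 0, 0, 0, 0, 0⟩ ⟨0, 0, 0, 0, 0, 0, 342044, 0, 0, 0, 0, 0, 0⟩ ⟨0, 0, 0, 0, 0, 0, 342044, 0, 0, 0, 0, 0, 0⟩ ⟨192, 1, -2048, 8, 54, 339, 596232, 0, 0, 0, 0, 0, 0⟩)))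
    (.s3
    (.leaf (.box ⟨165, 0, -2048, 17, 139, 313, 185996, 0, 0, 0, 0, 0, 0⟩ ⟨0, 0, 0, 0, 0, 0, 245202, 0, 0, 0, 0, 0, 0⟩ ⟨0, 0, 0, 0, 0, 0, 245202, 0, 0, 0, 0, 0, 0⟩ ⟨0, 0, 0, 0, 0, 0, 359700, 0, 0, 0, 0, 0, 0⟩ ⟨0, 0, 0, 0, 0, 0, 359700, 0, 0, 0, 0, 0, 0⟩ ⟨188, 0, -2257, 6, 44, 356, 674801, 0, 0, 0, 0, 0, 0⟩))
    (.s2
    (.leaf (.box ⟨162, 0, -2048, 14, 142, 317, 190338, 0, 0, 0, 0, 0, 0⟩ ⟨0, 0, 0, 0, 0, 0, 247889, 0, 0, 0, 0, 0, 0⟩ ⟨0, 0, 0, 0, 0, 0, 247889, 0, 0, 0, 0, 0, 0⟩ ⟨0, 0, 0, 0, 0, 0, 355324, 0, 0, 0, 0, 0, 0⟩ ⟨0, 0, 0, 0, 0, 0, 355324, 0, 0, 0, 0, 0, 0⟩ ⟨214, 0, -2790, 6, 61, 446, 627117, 0, 0, 0, 0, 0, 0⟩))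
    (.leaf (.box ⟨152, 0, -2048, 11, 130, 313, 194447, 0, 0, 0, 0, 0, 0⟩ ⟨0, 0, 0, 0, 0, 0, 253443, 0, 0, 0, 0, 0, 0⟩ ⟨0, 0, 0, 0, 0, 0, 253443, 0, 0, 0, 0, 0, 0⟩ ⟨0, 0, 0, 0, 0, 0, 363828, 0, 0, 0, 0, 0, 0⟩ ⟨0, 0, 0, 0, 0, 0, 363828, 0, 0, 0, 0, 0, 0⟩ ⟨247, 0, -3309, 6, 65, 521, 644565, 0, 0, 0, 0, 0, 0⟩)))))
    (.s2
    (.leaf (.box ⟨250, 0, -2048, 24, 172, 341, 180413, 0, 0, 0, 0, 0, 0⟩ ⟨0, 0, 0, 0, 0, 0, 236003, 0, 0, 0, 0, 0, 0⟩ ⟨0, 0, 0, 0, 0, 0, 236003, 0, 0, 0, 0, 0, 0⟩ ⟨0, 0, 0, 0, 0, 0, 341106, 0, 0, 0, 0, 0, 0⟩ ⟨0, 0, 0, 0, 0, 0, 341106, 0, 0, 0, 0, 0, 0⟩ ⟨210, 0, -2048, 9, 54, 369, 614986, 0, 0, 0, 0, 0, 0⟩))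
    (.s0
    (.s2
    (.leaf (.box ⟨143, -1, -2048, 11, 148, 335, 185831, 0, 0, 0, 0, 0, 0⟩ ⟨0, 0, 0, 0, 0, 0, 243542, 0, 0, 0, 0, 0, 0⟩ ⟨0, 0, 0, 0, 0, 0, 243542, 0, 0, 0, 0, 0, 0⟩ ⟨0, 0, 0, 0, 0, 0, 353245, 0, 0, 0, 0, 0, 0⟩ ⟨0, 0, 0, 0, 0, 0, 353245, 0, 0, 0, 0, 0, 0⟩ ⟨245, -1, -3477, 6, 76, 595, 642781, 0, 0, 0, 0, 0, 0⟩))
    (.leaf (.box ⟨134, -1, -2048, 9, 136, 330, 189804, 0, 0, 0, 0, 0, 0⟩ ⟨0, 0, 0, 0, 0, 0, 248931, 0, 0, 0, 0, 0, 0⟩ ⟨0, 0, 0, 0, 0, 0, 248931, 0, 0, 0, 0, 0, 0⟩ ⟨0, 0, 0, 0, 0, 0, 361562, 0, 0, 0, 0, 0, 0⟩ ⟨0, 0, 0, 0, 0, 0, 361562, 0, 0, 0, 0, 0, 0⟩ ⟨268, -1, -4126, 6, 82, 693, 660336, 0, 0, 0, 0, 0, 0⟩)))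
    (.s2
    (.leaf (.box ⟨142, -1, -2048, 12, 147, 343, 195963, 0, 0, 0, 0, 0, 0⟩ ⟨0, 0, 0, 0, 0, 0, 256749, 0, 0, 0, 0, 0, 0⟩ ⟨0, 0, 0, 0, 0, 0, 256749, 0, 0, 0, 0, 0, 0⟩ ⟨0, 0, 0, 0, 0, 0, 372203, 0, 0, 0, 0, 0, 0⟩ ⟨0, 0, 0, 0, 0, 0, 372203, 0, 0, 0, 0, 0, 0⟩ ⟨229, 0, -3406, 6, 74, 593, 676335, 0, 0, 0, 0, 0, 0⟩))
    (.leaf (.box ⟨126, -1, -2048, 9, 135, 338, 200706, 0, 0, 0, 0, 0, 0⟩ ⟨0, 0, 0, 0, 0, 0, 263146, 0, 0, 0, 0, 0, 0⟩ ⟨0, 0, 0, 0, 0, 0, 263146, 0, 0, 0, 0, 0, 0⟩ ⟨0, 0, 0, 0, 0, 0, 381980, 0, 0, 0, 0, 0, 0⟩ ⟨0, 0, 0, 0, 0, 0, 381980, 0, 0, 0, 0, 0, 0⟩ ⟨254, -1, -4162, 6, 82, 712, 696523, 0, 0, 0, 0, 0, 0⟩))))))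

/-- A piece of the tree. -/
noncomputable def tree59 : Tree LeafX :=
  .s3
    (.s1
    (.leaf (.box ⟨267, 7, -2048, 61, 158, 339, 174706, 0, 0, 0, 0, 0, 0⟩ ⟨0, 0, 0, 0, 0, 0, 238136, 0, 0, 0, 0, 0, 0⟩ ⟨0, 0, 0, 0, 0, 0, 238136, 0, 0, 0, 0, 0, 0⟩ ⟨0, 0, 0, 0, 0, 0, 373877, 0, 0, 0, 0, 0, 0⟩ ⟨0, 0, 0, 0, 0, 0, 373877, 0, 0, 0, 0, 0, 0⟩ ⟨248, 1, -2048, 10, 36, 348, 869516, 0, 0, 0, 0, 0, 0⟩))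
    (.s3
    (.leaf (.box ⟨241, 2, -2048, 67, 152, 350, 172139, 0, 0, 0, 0, 0, 0⟩ ⟨0, 0, 0, 0, 0, 0, 237913, 0, 0, 0, 0, 0, 0⟩ ⟨0, 0, 0, 0, 0, 0, 237913, 0, 0, 0, 0, 0, 0⟩ ⟨0, 0, 0, 0, 0, 0, 385033, 0, 0, 0, 0, 0, 0⟩ ⟨0, 0, 0, 0, 0, 0, 385033, 0, 0, 0, 0, 0, 0⟩ ⟨237, 0, -2048, 8, 32, 368, 1008937, 0, 0, 0, 0, 0, 0⟩))
    (.s0
    (.leaf (.box ⟨196, 0, -2048, 36, 168, 348, 180121, 0, 0, 0, 0, 0, 0⟩ ⟨0, 0, 0, 0, 0, 0, 244740, 0, 0, 0, 0, 0, 0⟩ ⟨0, 0, 0, 0, 0, 0, 244740, 0, 0, 0, 0, 0, 0⟩ ⟨0, 0, 0, 0, 0, 0, 381663, 0, 0, 0, 0, 0, 0⟩ ⟨0, 0, 0, 0, 0, 0, 381663, 0, 0, 0, 0, 0, 0⟩ ⟨213, 0, -2048, 9, 36, 363, 866352, 0, 0, 0, 0, 0, 0⟩))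
    (.leaf (.box ⟨177, 2, -2048, 36, 165, 368, 200878, 0, 0, 0, 0, 0, 0⟩ ⟨0, 0, 0, 0, 0, 0, 272727, 0, 0, 0, 0, 0, 0⟩ ⟨0, 0, 0, 0, 0, 0, 272727, 0, 0, 0, 0, 0, 0⟩ ⟨0, 0, 0, 0, 0, 0, 424591, 0, 0, 0, 0, 0, 0⟩ ⟨0, 0, 0, 0, 0, 0, 424591, 0, 0, 0, 0, 0, 0⟩ ⟨190, 0, -2048, 8, 36, 379, 958087, 0, 0, 0, 0, 0, 0⟩)))))
    (.s0
    (.s1
    (.s2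
    (.leaf (.box ⟨199, 4, -2048, 28, 174, 341, 190131, 0, 0, 0, 0, 0, 0⟩ ⟨0, 0, 0, 0, 0, 0, 250006, 0, 0, 0, 0, 0, 0⟩ ⟨0, 0, 0, 0, 0, 0, 250006, 0, 0, 0, 0, 0, 0⟩ ⟨0, 0, 0, 0, 0, 0, 364923, 0, 0, 0, 0, 0, 0⟩ ⟨0, 0, 0, 0, 0, 0, 364923, 0, 0, 0, 0, 0, 0⟩ ⟨186, 1, -2048, 8, 51, 350, 675360, 0, 0, 0, 0, 0, 0⟩))
    (.leaf (.box ⟨168, 1, -2048, 19, 144, 331, 197135, 0, 0, 0, 0, 0, 0⟩ ⟨0, 0, 0, 0, 0, 0, 259745, 0, 0, 0, 0, 0, 0⟩ ⟨0, 0, 0, 0, 0, 0, 259745, 0, 0, 0, 0, 0, 0⟩ ⟨0, 0, 0, 0, 0, 0, 380632, 0, 0, 0, 0, 0, 0⟩ ⟨0, 0, 0, 0, 0, 0, 380632, 0, 0, 0, 0, 0, 0⟩ ⟨165, 0, -2048, 6, 41, 339, 712005, 0, 0, 0, 0, 0, 0⟩)))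
    (.s2
    (.leaf (.box ⟨207, 2, -2048, 27, 183, 363, 188342, 0, 0, 0, 0, 0, 0⟩ ⟨0, 0, 0, 0, 0, 0, 247884, 0, 0, 0, 0, 0, 0⟩ ⟨0, 0, 0, 0, 0, 0, 247884, 0, 0, 0, 0, 0, 0⟩ ⟨0, 0, 0, 0, 0, 0, 362473, 0, 0, 0, 0, 0, 0⟩ ⟨0, 0, 0, 0, 0, 0, 362473, 0, 0, 0, 0, 0, 0⟩ ⟨203, 1, -2048, 9, 53, 378, 674081, 0, 0, 0, 0, 0, 0⟩))
    (.s3
    (.leaf (.box ⟨162, -1, -2048, 17, 148, 349, 195769, 0, 0, 0, 0, 0, 0⟩ ⟨0, 0, 0, 0, 0, 0, 261651, 0, 0, 0, 0, 0, 0⟩ ⟨0, 0, 0, 0, 0, 0, 261651, 0, 0, 0, 0, 0, 0⟩ ⟨0, 0, 0, 0, 0, 0, 394365, 0, 0, 0, 0, 0, 0⟩ ⟨0, 0, 0, 0, 0, 0, 394365, 0, 0, 0, 0, 0, 0⟩ ⟨196, 0, -2542, 6, 46, 448, 800282, 0, 0, 0, 0, 0, 0⟩))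
    (.s2
    (.leaf (.box ⟨159, 0, -2048, 12, 150, 356, 207044, 0, 0, 0, 0, 0, 0⟩ ⟨0, 0, 0, 0, 0, 0, 271174, 0, 0, 0, 0, 0, 0⟩ ⟨0, 0, 0, 0, 0, 0, 271174, 0, 0, 0, 0, 0, 0⟩ ⟨0, 0, 0, 0, 0, 0, 392859, 0, 0, 0, 0, 0, 0⟩ ⟨0, 0, 0, 0, 0, 0, 392859, 0, 0, 0, 0, 0, 0⟩ ⟨232, 0, -2999, 6, 66, 538, 712644, 0, 0, 0, 0, 0, 0⟩))
    (.leaf (.box ⟨153, -1, -2048, 10, 137, 352, 212591, 0, 0, 0, 0, 0, 0⟩ ⟨0, 0, 0, 0, 0, 0, 278641, 0, 0, 0, 0, 0, 0⟩ ⟨0, 0, 0, 0, 0, 0, 278641, 0, 0, 0, 0, 0, 0⟩ ⟨0, 0, 0, 0, 0, 0, 404229, 0, 0, 0, 0, 0, 0⟩ ⟨0, 0, 0, 0, 0, 0, 404229, 0, 0, 0, 0, 0, 0⟩ ⟨247, -1, -3454, 6, 68, 610, 735921, 0, 0, 0, 0, 0, 0⟩))))))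
    (.leaf (.box ⟨279, 4, -2048, 43, 175, 372, 208995, 0, 0, 0, 0, 0, 0⟩ ⟨0, 0, 0, 0, 0, 0, 274859, 0, 0, 0, 0, 0, 0⟩ ⟨0, 0, 0, 0, 0, 0, 274859, 0, 0, 0, 0, 0, 0⟩ ⟨0, 0, 0, 0, 0, 0, 401338, 0, 0, 0, 0, 0, 0⟩ ⟨0, 0, 0, 0, 0, 0, 401338, 0, 0, 0, 0, 0, 0⟩ ⟨286, 1, -2048, 14, 47, 372, 743440, 0, 0, 0, 0, 0, 0⟩)))

/-- A piece of the tree. -/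
noncomputable def tree60 : Tree LeafX :=
  .s0
    (.leaf (.box ⟨510, -8, -2048, 38, 198, 347, 141425, 0, 0, 0, 0, 0, 0⟩ ⟨0, 0, 0, 0, 0, 0, 188780, 0, 0, 0, 0, 0, 0⟩ ⟨0, 0, 0, 0, 0, 0, 188780, 0, 0, 0, 0, 0, 0⟩ ⟨0, 0, 0, 0, 0, 0, 283809, 0, 0, 0, 0, 0, 0⟩ ⟨0, 0, 0, 0, 0, 0, 283809, 0, 0, 0, 0, 0, 0⟩ ⟨461, -3, -2048, 13, 57, 409, 571489, 0, 0, 0, 0, 0, 0⟩))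
    (.s3
    (.leaf (.box ⟨304, -5, -2048, 34, 203, 370, 154999, 0, 0, 0, 0, 0, 0⟩ ⟨0, 0, 0, 0, 0, 0, 211816, 0, 0, 0, 0, 0, 0⟩ ⟨0, 0, 0, 0, 0, 0, 211816, 0, 0, 0, 0, 0, 0⟩ ⟨0, 0, 0, 0, 0, 0, 334392, 0, 0, 0, 0, 0, 0⟩ ⟨0, 0, 0, 0, 0, 0, 334392, 0, 0, 0, 0, 0, 0⟩ ⟨325, -1, -2048, 8, 43, 405, 793693, 0, 0, 0, 0, 0, 0⟩))
    (.leaf (.box ⟨334, -5, -2048, 35, 199, 391, 171340, 0, 0, 0, 0, 0, 0⟩ ⟨0, 0, 0, 0, 0, 0, 225818, 0, 0, 0, 0, 0, 0⟩ ⟨0, 0, 0, 0, 0, 0, 225818, 0, 0, 0, 0, 0, 0⟩ ⟨0, 0, 0, 0, 0, 0, 331085, 0, 0, 0, 0, 0, 0⟩ ⟨0, 0, 0, 0, 0, 0, 331085, 0, 0, 0, 0, 0, 0⟩ ⟨371, -2, -2048, 12, 59, 421, 620199, 0, 0, 0, 0, 0, 0⟩)))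

/-- A piece of the tree. -/
noncomputable def tree61 : Tree LeafX :=
  .s3
    (.s0
    (.s1
    (.leaf (.box ⟨184, -4, -2048, 14, 168, 327, 142349, 0, 0, 0, 0, 0, 0⟩ ⟨0, 0, 0, 0, 0, 0, 195136, 0, 0, 0, 0, 0, 0⟩ ⟨0, 0, 0, 0, 0, 0, 195136, 0, 0, 0, 0, 0, 0⟩ ⟨0, 0, 0, 0, 0, 0, 310143, 0, 0, 0, 0, 0, 0⟩ ⟨0, 0, 0, 0, 0, 0, 310143, 0, 0, 0, 0, 0, 0⟩ ⟨347, -2, -3699, 6, 61, 644, 755292, 0, 0, 0, 0, 0, 0⟩))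
    (.leaf (.box ⟨204, -5, -2048, 12, 182, 355, 143936, 0, 0, 0, 0, 0, 0⟩ ⟨0, 0, 0, 0, 0, 0, 197658, 0, 0, 0, 0, 0, 0⟩ ⟨0, 0, 0, 0, 0, 0, 197658, 0, 0, 0, 0, 0, 0⟩ ⟨0, 0, 0, 0, 0, 0, 315361, 0, 0, 0, 0, 0, 0⟩ ⟨0, 0, 0, 0, 0, 0, 315361, 0, 0, 0, 0, 0, 0⟩ ⟨459, -3, -4649, 6, 81, 883, 779608, 0, 0, 0, 0, 0, 0⟩)))
    (.s1
    (.s0
    (.leaf (.box ⟨172, -4, -2048, 14, 165, 332, 149508, 0, 0, 0, 0, 0, 0⟩ ⟨0, 0, 0, 0, 0, 0, 204889, 0, 0, 0, 0, 0, 0⟩ ⟨0, 0, 0, 0, 0, 0, 204889, 0, 0, 0, 0, 0, 0⟩ ⟨0, 0, 0, 0, 0, 0, 325435, 0, 0, 0, 0, 0, 0⟩ ⟨0, 0, 0, 0, 0, 0, 325435, 0, 0, 0, 0, 0, 0⟩ ⟨346, -2, -3757, 6, 61, 659, 790564, 0, 0, 0, 0, 0, 0⟩))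
    (.s2
    (.leaf (.box ⟨158, -2, -2048, 10, 169, 337, 153340, 0, 0, 0, 0, 0, 0⟩ ⟨0, 0, 0, 0, 0, 0, 210110, 0, 0, 0, 0, 0, 0⟩ ⟨0, 0, 0, 0, 0, 0, 210110, 0, 0, 0, 0, 0, 0⟩ ⟨0, 0, 0, 0, 0, 0, 333626, 0, 0, 0, 0, 0, 0⟩ ⟨0, 0, 0, 0, 0, 0, 333626, 0, 0, 0, 0, 0, 0⟩ ⟨356, -2, -4534, 6, 75, 809, 809502, 0, 0, 0, 0, 0, 0⟩))
    (.leaf (.box ⟨140, -2, -2048, 8, 159, 333, 155833, 0, 0, 0, 0, 0, 0⟩ ⟨0, 0, 0, 0, 0, 0, 213738, 0, 0, 0, 0, 0, 0⟩ ⟨0, 0, 0, 0, 0, 0, 213738, 0, 0, 0, 0, 0, 0⟩ ⟨0, 0, 0, 0, 0, 0, 340121, 0, 0, 0, 0, 0, 0⟩ ⟨0, 0, 0, 0, 0, 0, 340121, 0, 0, 0, 0, 0, 0⟩ ⟨455, -2, -6702, 6, 102, 1169, 832194, 0, 0, 0, 0, 0, 0⟩))))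
    (.leaf (.box ⟨191, -5, -2048, 12, 181, 360, 150787, 0, 0, 0, 0, 0, 0⟩ ⟨0, 0, 0, 0, 0, 0, 207020, 0, 0, 0, 0, 0, 0⟩ ⟨0, 0, 0, 0, 0, 0, 207020, 0, 0, 0, 0, 0, 0⟩ ⟨0, 0, 0, 0, 0, 0, 330137, 0, 0, 0, 0, 0, 0⟩ ⟨0, 0, 0, 0, 0, 0, 330137, 0, 0, 0, 0, 0, 0⟩ ⟨411, -2, -4330, 6, 75, 827, 814570, 0, 0, 0, 0, 0, 0⟩))))
    (.s1
    (.s3
    (.leaf (.box ⟨221, -4, -2048, 15, 159, 334, 159418, 0, 0, 0, 0, 0, 0⟩ ⟨0, 0, 0, 0, 0, 0, 213600, 0, 0, 0, 0, 0, 0⟩ ⟨0, 0, 0, 0, 0, 0, 213600, 0, 0, 0, 0, 0, 0⟩ ⟨0, 0, 0, 0, 0, 0, 323573, 0, 0, 0, 0, 0, 0⟩ ⟨0, 0, 0, 0, 0, 0, 323573, 0, 0, 0, 0, 0, 0⟩ ⟨238, -2, -2527, 6, 50, 451, 666962, 0, 0, 0, 0, 0, 0⟩))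
    (.leaf (.box ⟨239, -4, -2048, 15, 154, 340, 169357, 0, 0, 0, 0, 0, 0⟩ ⟨0, 0, 0, 0, 0, 0, 222436, 0, 0, 0, 0, 0, 0⟩ ⟨0, 0, 0, 0, 0, 0, 222436, 0, 0, 0, 0, 0, 0⟩ ⟨0, 0, 0, 0, 0, 0, 323972, 0, 0, 0, 0, 0, 0⟩ ⟨0, 0, 0, 0, 0, 0, 323972, 0, 0, 0, 0, 0, 0⟩ ⟨223, -2, -2352, 6, 54, 426, 596055, 0, 0, 0, 0, 0, 0⟩)))
    (.leaf (.box ⟨215, -6, -2048, 15, 177, 376, 162558, 0, 0, 0, 0, 0, 0⟩ ⟨0, 0, 0, 0, 0, 0, 215393, 0, 0, 0, 0, 0, 0⟩ ⟨0, 0, 0, 0, 0, 0, 215393, 0, 0, 0, 0, 0, 0⟩ ⟨0, 0, 0, 0, 0, 0, 319110, 0, 0, 0, 0, 0, 0⟩ ⟨0, 0, 0, 0, 0, 0, 319110, 0, 0, 0, 0, 0, 0⟩ ⟨267, -3, -2523, 6, 60, 495, 615478, 0, 0, 0, 0, 0, 0⟩)))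

/-- A piece of the tree. -/
noncomputable def tree62 : Tree LeafX :=
  .s3
    (.s2
    (.s3
    (.leaf (.box ⟨265, -4, -2048, 16, 174, 347, 157285, 0, 0, 0, 0, 0, 0⟩ ⟨0, 0, 0, 0, 0, 0, 218130, 0, 0, 0, 0, 0, 0⟩ ⟨0, 0, 0, 0, 0, 0, 218130, 0, 0, 0, 0, 0, 0⟩ ⟨0, 0, 0, 0, 0, 0, 355748, 0, 0, 0, 0, 0, 0⟩ ⟨0, 0, 0, 0, 0, 0, 355748, 0, 0, 0, 0, 0, 0⟩ ⟨376, -2, -3148, 6, 47, 590, 963823, 0, 0, 0, 0, 0, 0⟩))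
    (.leaf (.box ⟨281, -4, -2048, 16, 171, 354, 166190, 0, 0, 0, 0, 0, 0⟩ ⟨0, 0, 0, 0, 0, 0, 226635, 0, 0, 0, 0, 0, 0⟩ ⟨0, 0, 0, 0, 0, 0, 226635, 0, 0, 0, 0, 0, 0⟩ ⟨0, 0, 0, 0, 0, 0, 356179, 0, 0, 0, 0, 0, 0⟩ ⟨0, 0, 0, 0, 0, 0, 356179, 0, 0, 0, 0, 0, 0⟩ ⟨330, -2, -2710, 6, 49, 515, 831413, 0, 0, 0, 0, 0, 0⟩)))
    (.s3
    (.s1
    (.s0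
    (.leaf (.box ⟨130, -2, -2048, 8, 157, 335, 160167, 0, 0, 0, 0, 0, 0⟩ ⟨0, 0, 0, 0, 0, 0, 222308, 0, 0, 0, 0, 0, 0⟩ ⟨0, 0, 0, 0, 0, 0, 222308, 0, 0, 0, 0, 0, 0⟩ ⟨0, 0, 0, 0, 0, 0, 363234, 0, 0, 0, 0, 0, 0⟩ ⟨0, 0, 0, 0, 0, 0, 363234, 0, 0, 0, 0, 0, 0⟩ ⟨483, -2, -7905, 6, 103, 1386, 992227, 0, 0, 0, 0, 0, 0⟩))
    (.leaf (.box ⟨123, -2, -2048, 8, 155, 344, 169460, 0, 0, 0, 0, 0, 0⟩ ⟨0, 0, 0, 0, 0, 0, 235141, 0, 0, 0, 0, 0, 0⟩ ⟨0, 0, 0, 0, 0, 0, 235141, 0, 0, 0, 0, 0, 0⟩ ⟨0, 0, 0, 0, 0, 0, 383959, 0, 0, 0, 0, 0, 0⟩ ⟨0, 0, 0, 0, 0, 0, 383959, 0, 0, 0, 0, 0, 0⟩ ⟨483, -1, -8174, 6, 105, 1458, 1045892, 0, 0, 0, 0, 0, 0⟩)))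
    (.s2
    (.leaf (.box ⟨149, -3, -2048, 8, 175, 365, 161735, 0, 0, 0, 0, 0, 0⟩ ⟨0, 0, 0, 0, 0, 0, 224862, 0, 0, 0, 0, 0, 0⟩ ⟨0, 0, 0, 0, 0, 0, 224862, 0, 0, 0, 0, 0, 0⟩ ⟨0, 0, 0, 0, 0, 0, 368814, 0, 0, 0, 0, 0, 0⟩ ⟨0, 0, 0, 0, 0, 0, 368814, 0, 0, 0, 0, 0, 0⟩ ⟨533, -2, -8172, 6, 115, 1563, 1024985, 0, 0, 0, 0, 0, 0⟩))
    (.leaf (.box ⟨147, -4, -2048, 10, 170, 362, 163904, 0, 0, 0, 0, 0, 0⟩ ⟨0, 0, 0, 0, 0, 0, 227964, 0, 0, 0, 0, 0, 0⟩ ⟨0, 0, 0, 0, 0, 0, 227964, 0, 0, 0, 0, 0, 0⟩ ⟨0, 0, 0, 0, 0, 0, 374221, 0, 0, 0, 0, 0, 0⟩ ⟨0, 0, 0, 0, 0, 0, 374221, 0, 0, 0, 0, 0, 0⟩ ⟨502, -2, -8053, 6, 109, 1523, 1044098, 0, 0, 0, 0, 0, 0⟩))))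
    (.s0
    (.s1
    (.leaf (.box ⟨135, -2, -2048, 8, 154, 342, 169457, 0, 0, 0, 0, 0, 0⟩ ⟨0, 0, 0, 0, 0, 0, 231312, 0, 0, 0, 0, 0, 0⟩ ⟨0, 0, 0, 0, 0, 0, 231312, 0, 0, 0, 0, 0, 0⟩ ⟨0, 0, 0, 0, 0, 0, 364279, 0, 0, 0, 0, 0, 0⟩ ⟨0, 0, 0, 0, 0, 0, 364279, 0, 0, 0, 0, 0, 0⟩ ⟨411, -2, -6504, 6, 101, 1154, 856801, 0, 0, 0, 0, 0, 0⟩))
    (.leaf (.box ⟨136, -3, -2048, 8, 166, 367, 171924, 0, 0, 0, 0, 0, 0⟩ ⟨0, 0, 0, 0, 0, 0, 235097, 0, 0, 0, 0, 0, 0⟩ ⟨0, 0, 0, 0, 0, 0, 235097, 0, 0, 0, 0, 0, 0⟩ ⟨0, 0, 0, 0, 0, 0, 371662, 0, 0, 0, 0, 0, 0⟩ ⟨0, 0, 0, 0, 0, 0, 371662, 0, 0, 0, 0, 0, 0⟩ ⟨481, -2, -7648, 6, 125, 1464, 886787, 0, 0, 0, 0, 0, 0⟩)))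
    (.leaf (.box ⟨215, -3, -2048, 10, 157, 357, 179188, 0, 0, 0, 0, 0, 0⟩ ⟨0, 0, 0, 0, 0, 0, 244518, 0, 0, 0, 0, 0, 0⟩ ⟨0, 0, 0, 0, 0, 0, 244518, 0, 0, 0, 0, 0, 0⟩ ⟨0, 0, 0, 0, 0, 0, 384814, 0, 0, 0, 0, 0, 0⟩ ⟨0, 0, 0, 0, 0, 0, 384814, 0, 0, 0, 0, 0, 0⟩ ⟨507, -2, -4944, 6, 79, 924, 902834, 0, 0, 0, 0, 0, 0⟩)))))
    (.s1
    (.s0
    (.s3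
    (.leaf (.box ⟨181, -3, -2048, 13, 155, 347, 175821, 0, 0, 0, 0, 0, 0⟩ ⟨0, 0, 0, 0, 0, 0, 235435, 0, 0, 0, 0, 0, 0⟩ ⟨0, 0, 0, 0, 0, 0, 235435, 0, 0, 0, 0, 0, 0⟩ ⟨0, 0, 0, 0, 0, 0, 356211, 0, 0, 0, 0, 0, 0⟩ ⟨0, 0, 0, 0, 0, 0, 356211, 0, 0, 0, 0, 0, 0⟩ ⟨259, -2, -3139, 6, 61, 570, 731427, 0, 0, 0, 0, 0, 0⟩))
    (.leaf (.box ⟨165, -3, -2048, 13, 154, 359, 186508, 0, 0, 0, 0, 0, 0⟩ ⟨0, 0, 0, 0, 0, 0, 244815, 0, 0, 0, 0, 0, 0⟩ ⟨0, 0, 0, 0, 0, 0, 244815, 0, 0, 0, 0, 0, 0⟩ ⟨0, 0, 0, 0, 0, 0, 356156, 0, 0, 0, 0, 0, 0⟩ ⟨0, 0, 0, 0, 0, 0, 356156, 0, 0, 0, 0, 0, 0⟩ ⟨236, -2, -2650, 6, 59, 488, 653255, 0, 0, 0, 0, 0, 0⟩)))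
    (.s3
    (.leaf (.box ⟨150, -3, -2048, 13, 156, 359, 185333, 0, 0, 0, 0, 0, 0⟩ ⟨0, 0, 0, 0, 0, 0, 248080, 0, 0, 0, 0, 0, 0⟩ ⟨0, 0, 0, 0, 0, 0, 248080, 0, 0, 0, 0, 0, 0⟩ ⟨0, 0, 0, 0, 0, 0, 375063, 0, 0, 0, 0, 0, 0⟩ ⟨0, 0, 0, 0, 0, 0, 375063, 0, 0, 0, 0, 0, 0⟩ ⟨279, -1, -3565, 6, 68, 657, 768349, 0, 0, 0, 0, 0, 0⟩))
    (.s2
    (.leaf (.box ⟨144, -2, -2048, 10, 157, 369, 196424, 0, 0, 0, 0, 0, 0⟩ ⟨0, 0, 0, 0, 0, 0, 257736, 0, 0, 0, 0, 0, 0⟩ ⟨0, 0, 0, 0, 0, 0, 257736, 0, 0, 0, 0, 0, 0⟩ ⟨0, 0, 0, 0, 0, 0, 374690, 0, 0, 0, 0, 0, 0⟩ ⟨0, 0, 0, 0, 0, 0, 374690, 0, 0, 0, 0, 0, 0⟩ ⟨276, -1, -3924, 6, 89, 742, 685967, 0, 0, 0, 0, 0, 0⟩))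
    (.leaf (.box ⟨133, -2, -2048, 8, 145, 363, 201745, 0, 0, 0, 0, 0, 0⟩ ⟨0, 0, 0, 0, 0, 0, 264989, 0, 0, 0, 0, 0, 0⟩ ⟨0, 0, 0, 0, 0, 0, 264989, 0, 0, 0, 0, 0, 0⟩ ⟨0, 0, 0, 0, 0, 0, 385988, 0, 0, 0, 0, 0, 0⟩ ⟨0, 0, 0, 0, 0, 0, 385988, 0, 0, 0, 0, 0, 0⟩ ⟨308, -1, -4910, 6, 101, 906, 710349, 0, 0, 0, 0, 0, 0⟩)))))
    (.s0
    (.leaf (.box ⟨197, -4, -2048, 12, 172, 383, 178454, 0, 0, 0, 0, 0, 0⟩ ⟨0, 0, 0, 0, 0, 0, 236334, 0, 0, 0, 0, 0, 0⟩ ⟨0, 0, 0, 0, 0, 0, 236334, 0, 0, 0, 0, 0, 0⟩ ⟨0, 0, 0, 0, 0, 0, 349780, 0, 0, 0, 0, 0, 0⟩ ⟨0, 0, 0, 0, 0, 0, 349780, 0, 0, 0, 0, 0, 0⟩ ⟨358, -2, -3641, 6, 84, 722, 672688, 0, 0, 0, 0, 0, 0⟩))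
    (.s2
    (.leaf (.box ⟨169, -3, -2048, 10, 174, 394, 187644, 0, 0, 0, 0, 0, 0⟩ ⟨0, 0, 0, 0, 0, 0, 248422, 0, 0, 0, 0, 0, 0⟩ ⟨0, 0, 0, 0, 0, 0, 248422, 0, 0, 0, 0, 0, 0⟩ ⟨0, 0, 0, 0, 0, 0, 367432, 0, 0, 0, 0, 0, 0⟩ ⟨0, 0, 0, 0, 0, 0, 367432, 0, 0, 0, 0, 0, 0⟩ ⟨304, -2, -3853, 6, 90, 784, 705332, 0, 0, 0, 0, 0, 0⟩))
    (.leaf (.box ⟨149, -3, -2048, 8, 162, 385, 193119, 0, 0, 0, 0, 0, 0⟩ ⟨0, 0, 0, 0, 0, 0, 255965, 0, 0, 0, 0, 0, 0⟩ ⟨0, 0, 0, 0, 0, 0, 255965, 0, 0, 0, 0, 0, 0⟩ ⟨0, 0, 0, 0, 0, 0, 379446, 0, 0, 0, 0, 0, 0⟩ ⟨0, 0, 0, 0, 0, 0, 379446, 0, 0, 0, 0, 0, 0⟩ ⟨368, -2, -5110, 6, 110, 1009, 733105, 0, 0, 0, 0, 0, 0⟩)))))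

/-- A piece of the tree. -/
noncomputable def tree63 : Tree LeafX :=
  .s2
    (.s3
    (.leaf (.box ⟨338, -2, -2048, 44, 209, 395, 171132, 0, 0, 0, 0, 0, 0⟩ ⟨0, 0, 0, 0, 0, 0, 233682, 0, 0, 0, 0, 0, 0⟩ ⟨0, 0, 0, 0, 0, 0, 233682, 0, 0, 0, 0, 0, 0⟩ ⟨0, 0, 0, 0, 0, 0, 368293, 0, 0, 0, 0, 0, 0⟩ ⟨0, 0, 0, 0, 0, 0, 368293, 0, 0, 0, 0, 0, 0⟩ ⟨329, -1, -2048, 10, 44, 420, 868715, 0, 0, 0, 0, 0, 0⟩))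
    (.leaf (.box ⟨354, -3, -2048, 45, 205, 412, 188381, 0, 0, 0, 0, 0, 0⟩ ⟨0, 0, 0, 0, 0, 0, 248077, 0, 0, 0, 0, 0, 0⟩ ⟨0, 0, 0, 0, 0, 0, 248077, 0, 0, 0, 0, 0, 0⟩ ⟨0, 0, 0, 0, 0, 0, 363158, 0, 0, 0, 0, 0, 0⟩ ⟨0, 0, 0, 0, 0, 0, 363158, 0, 0, 0, 0, 0, 0⟩ ⟨347, -1, -2048, 14, 60, 434, 677395, 0, 0, 0, 0, 0, 0⟩)))
    (.s3
    (.s0
    (.s2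
    (.leaf (.box ⟨245, -3, -2048, 18, 177, 376, 175407, 0, 0, 0, 0, 0, 0⟩ ⟨0, 0, 0, 0, 0, 0, 240176, 0, 0, 0, 0, 0, 0⟩ ⟨0, 0, 0, 0, 0, 0, 240176, 0, 0, 0, 0, 0, 0⟩ ⟨0, 0, 0, 0, 0, 0, 380777, 0, 0, 0, 0, 0, 0⟩ ⟨0, 0, 0, 0, 0, 0, 380777, 0, 0, 0, 0, 0, 0⟩ ⟨334, -1, -2836, 6, 49, 551, 918436, 0, 0, 0, 0, 0, 0⟩))
    (.s3
    (.leaf (.box ⟨209, -3, -2048, 12, 163, 368, 179505, 0, 0, 0, 0, 0, 0⟩ ⟨0, 0, 0, 0, 0, 0, 249021, 0, 0, 0, 0, 0, 0⟩ ⟨0, 0, 0, 0, 0, 0, 249021, 0, 0, 0, 0, 0, 0⟩ ⟨0, 0, 0, 0, 0, 0, 406407, 0, 0, 0, 0, 0, 0⟩ ⟨0, 0, 0, 0, 0, 0, 406407, 0, 0, 0, 0, 0, 0⟩ ⟨471, -2, -4591, 6, 61, 870, 1104424, 0, 0, 0, 0, 0, 0⟩))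
    (.s1
    (.leaf (.box ⟨145, -2, -2048, 10, 153, 363, 189883, 0, 0, 0, 0, 0, 0⟩ ⟨0, 0, 0, 0, 0, 0, 259020, 0, 0, 0, 0, 0, 0⟩ ⟨0, 0, 0, 0, 0, 0, 259020, 0, 0, 0, 0, 0, 0⟩ ⟨0, 0, 0, 0, 0, 0, 407330, 0, 0, 0, 0, 0, 0⟩ ⟨0, 0, 0, 0, 0, 0, 407330, 0, 0, 0, 0, 0, 0⟩ ⟨353, -1, -5124, 6, 79, 950, 952998, 0, 0, 0, 0, 0, 0⟩))
    (.leaf (.box ⟨155, -3, -2048, 9, 164, 387, 191764, 0, 0, 0, 0, 0, 0⟩ ⟨0, 0, 0, 0, 0, 0, 262083, 0, 0, 0, 0, 0, 0⟩ ⟨0, 0, 0, 0, 0, 0, 262083, 0, 0, 0, 0, 0, 0⟩ ⟨0, 0, 0, 0, 0, 0, 413832, 0, 0, 0, 0, 0, 0⟩ ⟨0, 0, 0, 0, 0, 0, 413832, 0, 0, 0, 0, 0, 0⟩ ⟨478, -2, -7135, 6, 115, 1413, 983000, 0, 0, 0, 0, 0, 0⟩)))))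
    (.leaf (.box ⟨222, -3, -2048, 20, 166, 393, 196993, 0, 0, 0, 0, 0, 0⟩ ⟨0, 0, 0, 0, 0, 0, 269575, 0, 0, 0, 0, 0, 0⟩ ⟨0, 0, 0, 0, 0, 0, 269575, 0, 0, 0, 0, 0, 0⟩ ⟨0, 0, 0, 0, 0, 0, 426845, 0, 0, 0, 0, 0, 0⟩ ⟨0, 0, 0, 0, 0, 0, 426845, 0, 0, 0, 0, 0, 0⟩ ⟨318, -1, -2914, 6, 47, 581, 1024594, 0, 0, 0, 0, 0, 0⟩)))
    (.s0
    (.s3
    (.s1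
    (.s2
    (.leaf (.box ⟨158, -2, -2048, 12, 162, 374, 195803, 0, 0, 0, 0, 0, 0⟩ ⟨0, 0, 0, 0, 0, 0, 261988, 0, 0, 0, 0, 0, 0⟩ ⟨0, 0, 0, 0, 0, 0, 261988, 0, 0, 0, 0, 0, 0⟩ ⟨0, 0, 0, 0, 0, 0, 395760, 0, 0, 0, 0, 0, 0⟩ ⟨0, 0, 0, 0, 0, 0, 395760, 0, 0, 0, 0, 0, 0⟩ ⟨287, -1, -3809, 6, 76, 727, 808676, 0, 0, 0, 0, 0, 0⟩))
    (.leaf (.box ⟨148, -2, -2048, 10, 149, 369, 201034, 0, 0, 0, 0, 0, 0⟩ ⟨0, 0, 0, 0, 0, 0, 269277, 0, 0, 0, 0, 0, 0⟩ ⟨0, 0, 0, 0, 0, 0, 269277, 0, 0, 0, 0, 0, 0⟩ ⟨0, 0, 0, 0, 0, 0, 407661, 0, 0, 0, 0, 0, 0⟩ ⟨0, 0, 0, 0, 0, 0, 407661, 0, 0, 0, 0, 0, 0⟩ ⟨371, -1, -5317, 6, 96, 996, 838652, 0, 0, 0, 0, 0, 0⟩)))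
    (.leaf (.box ⟨170, -3, -2048, 12, 168, 397, 197742, 0, 0, 0, 0, 0, 0⟩ ⟨0, 0, 0, 0, 0, 0, 265097, 0, 0, 0, 0, 0, 0⟩ ⟨0, 0, 0, 0, 0, 0, 265097, 0, 0, 0, 0, 0, 0⟩ ⟨0, 0, 0, 0, 0, 0, 402037, 0, 0, 0, 0, 0, 0⟩ ⟨0, 0, 0, 0, 0, 0, 402037, 0, 0, 0, 0, 0, 0⟩ ⟨288, -2, -3478, 6, 70, 706, 831629, 0, 0, 0, 0, 0, 0⟩)))
    (.s2
    (.leaf (.box ⟨238, -3, -2048, 15, 164, 394, 207317, 0, 0, 0, 0, 0, 0⟩ ⟨0, 0, 0, 0, 0, 0, 271918, 0, 0, 0, 0, 0, 0⟩ ⟨0, 0, 0, 0, 0, 0, 271918, 0, 0, 0, 0, 0, 0⟩ ⟨0, 0, 0, 0, 0, 0, 395002, 0, 0, 0, 0, 0, 0⟩ ⟨0, 0, 0, 0, 0, 0, 395002, 0, 0, 0, 0, 0, 0⟩ ⟨294, -1, -2518, 6, 60, 505, 721663, 0, 0, 0, 0, 0, 0⟩))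
    (.s0
    (.leaf (.box ⟨206, -3, -2048, 10, 147, 380, 213408, 0, 0, 0, 0, 0, 0⟩ ⟨0, 0, 0, 0, 0, 0, 280207, 0, 0, 0, 0, 0, 0⟩ ⟨0, 0, 0, 0, 0, 0, 280207, 0, 0, 0, 0, 0, 0⟩ ⟨0, 0, 0, 0, 0, 0, 407876, 0, 0, 0, 0, 0, 0⟩ ⟨0, 0, 0, 0, 0, 0, 407876, 0, 0, 0, 0, 0, 0⟩ ⟨358, -2, -3633, 6, 77, 706, 749253, 0, 0, 0, 0, 0, 0⟩))
    (.leaf (.box ⟨187, -2, -2048, 8, 146, 391, 226145, 0, 0, 0, 0, 0, 0⟩ ⟨0, 0, 0, 0, 0, 0, 296815, 0, 0, 0, 0, 0, 0⟩ ⟨0, 0, 0, 0, 0, 0, 296815, 0, 0, 0, 0, 0, 0⟩ ⟨0, 0, 0, 0, 0, 0, 431727, 0, 0, 0, 0, 0, 0⟩ ⟨0, 0, 0, 0, 0, 0, 431727, 0, 0, 0, 0, 0, 0⟩ ⟨383, -1, -4068, 6, 85, 803, 791482, 0, 0, 0, 0, 0, 0⟩)))))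
    (.s1
    (.leaf (.box ⟨168, -2, -2048, 17, 154, 393, 219678, 0, 0, 0, 0, 0, 0⟩ ⟨0, 0, 0, 0, 0, 0, 289833, 0, 0, 0, 0, 0, 0⟩ ⟨0, 0, 0, 0, 0, 0, 289833, 0, 0, 0, 0, 0, 0⟩ ⟨0, 0, 0, 0, 0, 0, 425818, 0, 0, 0, 0, 0, 0⟩ ⟨0, 0, 0, 0, 0, 0, 425818, 0, 0, 0, 0, 0, 0⟩ ⟨190, -1, -2372, 6, 50, 468, 802194, 0, 0, 0, 0, 0, 0⟩))
    (.leaf (.box ⟨179, -3, -2048, 14, 164, 417, 220914, 0, 0, 0, 0, 0, 0⟩ ⟨0, 0, 0, 0, 0, 0, 292102, 0, 0, 0, 0, 0, 0⟩ ⟨0, 0, 0, 0, 0, 0, 292102, 0, 0, 0, 0, 0, 0⟩ ⟨0, 0, 0, 0, 0, 0, 430984, 0, 0, 0, 0, 0, 0⟩ ⟨0, 0, 0, 0, 0, 0, 430984, 0, 0, 0, 0, 0, 0⟩ ⟨251, -1, -2926, 6, 64, 616, 821633, 0, 0, 0, 0, 0, 0⟩)))))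

/-- A piece of the tree. -/
noncomputable def tree64 : Tree LeafX :=
  .s0
    (.s2
    (.leaf (.box ⟨425, 7, -2048, 59, 196, 408, 209096, 0, 0, 0, 0, 0, 0⟩ ⟨0, 0, 0, 0, 0, 0, 278142, 0, 0, 0, 0, 0, 0⟩ ⟨0, 0, 0, 0, 0, 0, 278142, 0, 0, 0, 0, 0, 0⟩ ⟨0, 0, 0, 0, 0, 0, 415268, 0, 0, 0, 0, 0, 0⟩ ⟨0, 0, 0, 0, 0, 0, 415268, 0, 0, 0, 0, 0, 0⟩ ⟨432, 2, -2048, 17, 52, 424, 819079, 0, 0, 0, 0, 0, 0⟩))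
    (.s1
    (.leaf (.box ⟨271, 3, -2048, 33, 150, 392, 224712, 0, 0, 0, 0, 0, 0⟩ ⟨0, 0, 0, 0, 0, 0, 299274, 0, 0, 0, 0, 0, 0⟩ ⟨0, 0, 0, 0, 0, 0, 299274, 0, 0, 0, 0, 0, 0⟩ ⟨0, 0, 0, 0, 0, 0, 447887, 0, 0, 0, 0, 0, 0⟩ ⟨0, 0, 0, 0, 0, 0, 447887, 0, 0, 0, 0, 0, 0⟩ ⟨258, 1, -2048, 8, 38, 394, 889686, 0, 0, 0, 0, 0, 0⟩))
    (.leaf (.box ⟨284, -2, -2048, 29, 162, 422, 222691, 0, 0, 0, 0, 0, 0⟩ ⟨0, 0, 0, 0, 0, 0, 297180, 0, 0, 0, 0, 0, 0⟩ ⟨0, 0, 0, 0, 0, 0, 297180, 0, 0, 0, 0, 0, 0⟩ ⟨0, 0, 0, 0, 0, 0, 446545, 0, 0, 0, 0, 0, 0⟩ ⟨0, 0, 0, 0, 0, 0, 446545, 0, 0, 0, 0, 0, 0⟩ ⟨275, -1, -2048, 8, 42, 439, 897774, 0, 0, 0, 0, 0, 0⟩))))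
    (.leaf (.box ⟨343, 9, -2048, 75, 158, 459, 264757, 0, 0, 0, 0, 0, 0⟩ ⟨0, 0, 0, 0, 0, 0, 351678, 0, 0, 0, 0, 0, 0⟩ ⟨0, 0, 0, 0, 0, 0, 351678, 0, 0, 0, 0, 0, 0⟩ ⟨0, 0, 0, 0, 0, 0, 523564, 0, 0, 0, 0, 0, 0⟩ ⟨0, 0, 0, 0, 0, 0, 523564, 0, 0, 0, 0, 0, 0⟩ ⟨347, 3, -2048, 19, 41, 458, 1024112, 0, 0, 0, 0, 0, 0⟩))

/-- A piece of the tree. -/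
noncomputable def tree65 : Tree LeafX :=
  .s3
    (.s2
    (.s0
    (.s1
    (.s3
    (.leaf (.box ⟨121, -2, -2048, 12, 125, 275, 146562, 0, 0, 0, 0, 0, 0⟩ ⟨0, 0, 0, 0, 0, 0, 203232, 0, 0, 0, 0, 0, 0⟩ ⟨0, 0, 0, 0, 0, 0, 203232, 0, 0, 0, 0, 0, 0⟩ ⟨0, 0, 0, 0, 0, 0, 331354, 0, 0, 0, 0, 0, 0⟩ ⟨0, 0, 0, 0, 0, 0, 331354, 0, 0, 0, 0, 0, 0⟩ ⟨265, -1, -4494, 6, 47, 642, 896571, 0, 0, 0, 0, 0, 0⟩))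
    (.leaf (.box ⟨124, -2, -2048, 12, 122, 279, 154843, 0, 0, 0, 0, 0, 0⟩ ⟨0, 0, 0, 0, 0, 0, 211112, 0, 0, 0, 0, 0, 0⟩ ⟨0, 0, 0, 0, 0, 0, 211112, 0, 0, 0, 0, 0, 0⟩ ⟨0, 0, 0, 0, 0, 0, 331617, 0, 0, 0, 0, 0, 0⟩ ⟨0, 0, 0, 0, 0, 0, 331617, 0, 0, 0, 0, 0, 0⟩ ⟨268, -1, -4410, 6, 55, 635, 772665, 0, 0, 0, 0, 0, 0⟩)))
    (.leaf (.box ⟨149, -4, -2048, 18, 145, 298, 146254, 0, 0, 0, 0, 0, 0⟩ ⟨0, 0, 0, 0, 0, 0, 200486, 0, 0, 0, 0, 0, 0⟩ ⟨0, 0, 0, 0, 0, 0, 200486, 0, 0, 0, 0, 0, 0⟩ ⟨0, 0, 0, 0, 0, 0, 318636, 0, 0, 0, 0, 0, 0⟩ ⟨0, 0, 0, 0, 0, 0, 318636, 0, 0, 0, 0, 0, 0⟩ ⟨320, -2, -4508, 6, 60, 699, 775879, 0, 0, 0, 0, 0, 0⟩)))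
    (.s2
    (.s1
    (.s3
    (.leaf (.box ⟨118, -1, -2048, 10, 128, 284, 155100, 0, 0, 0, 0, 0, 0⟩ ⟨0, 0, 0, 0, 0, 0, 215033, 0, 0, 0, 0, 0, 0⟩ ⟨0, 0, 0, 0, 0, 0, 215033, 0, 0, 0, 0, 0, 0⟩ ⟨0, 0, 0, 0, 0, 0, 350453, 0, 0, 0, 0, 0, 0⟩ ⟨0, 0, 0, 0, 0, 0, 350453, 0, 0, 0, 0, 0, 0⟩ ⟨353, -1, -6346, 6, 68, 930, 946565, 0, 0, 0, 0, 0, 0⟩))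
    (.leaf (.box ⟨117, -1, -2048, 9, 126, 288, 163753, 0, 0, 0, 0, 0, 0⟩ ⟨0, 0, 0, 0, 0, 0, 223223, 0, 0, 0, 0, 0, 0⟩ ⟨0, 0, 0, 0, 0, 0, 223223, 0, 0, 0, 0, 0, 0⟩ ⟨0, 0, 0, 0, 0, 0, 350521, 0, 0, 0, 0, 0, 0⟩ ⟨0, 0, 0, 0, 0, 0, 350521, 0, 0, 0, 0, 0, 0⟩ ⟨325, -1, -5660, 6, 73, 836, 815683, 0, 0, 0, 0, 0, 0⟩)))
    (.s3
    (.leaf (.box ⟨119, -2, -2048, 8, 137, 303, 154611, 0, 0, 0, 0, 0, 0⟩ ⟨0, 0, 0, 0, 0, 0, 214483, 0, 0, 0, 0, 0, 0⟩ ⟨0, 0, 0, 0, 0, 0, 214483, 0, 0, 0, 0, 0, 0⟩ ⟨0, 0, 0, 0, 0, 0, 350027, 0, 0, 0, 0, 0, 0⟩ ⟨0, 0, 0, 0, 0, 0, 350027, 0, 0, 0, 0, 0, 0⟩ ⟨526, -1, -9141, 6, 104, 1443, 951051, 0, 0, 0, 0, 0, 0⟩))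
    (.leaf (.box ⟨122, -2, -2048, 8, 134, 308, 163558, 0, 0, 0, 0, 0, 0⟩ ⟨0, 0, 0, 0, 0, 0, 223102, 0, 0, 0, 0, 0, 0⟩ ⟨0, 0, 0, 0, 0, 0, 223102, 0, 0, 0, 0, 0, 0⟩ ⟨0, 0, 0, 0, 0, 0, 350816, 0, 0, 0, 0, 0, 0⟩ ⟨0, 0, 0, 0, 0, 0, 350816, 0, 0, 0, 0, 0, 0⟩ ⟨447, -1, -7336, 6, 100, 1169, 820524, 0, 0, 0, 0, 0, 0⟩))))
    (.leaf (.box ⟨196, -2, -2048, 11, 127, 295, 158192, 0, 0, 0, 0, 0, 0⟩ ⟨0, 0, 0, 0, 0, 0, 216763, 0, 0, 0, 0, 0, 0⟩ ⟨0, 0, 0, 0, 0, 0, 216763, 0, 0, 0, 0, 0, 0⟩ ⟨0, 0, 0, 0, 0, 0, 344203, 0, 0, 0, 0, 0, 0⟩ ⟨0, 0, 0, 0, 0, 0, 344203, 0, 0, 0, 0, 0, 0⟩ ⟨499, -1, -5231, 6, 64, 794, 835296, 0, 0, 0, 0, 0, 0⟩))))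
    (.leaf (.box ⟨257, -4, -2048, 17, 122, 293, 153041, 0, 0, 0, 0, 0, 0⟩ ⟨0, 0, 0, 0, 0, 0, 209737, 0, 0, 0, 0, 0, 0⟩ ⟨0, 0, 0, 0, 0, 0, 209737, 0, 0, 0, 0, 0, 0⟩ ⟨0, 0, 0, 0, 0, 0, 333159, 0, 0, 0, 0, 0, 0⟩ ⟨0, 0, 0, 0, 0, 0, 333159, 0, 0, 0, 0, 0, 0⟩ ⟨397, -1, -3467, 6, 41, 522, 809542, 0, 0, 0, 0, 0, 0⟩)))
    (.s2
    (.s0
    (.s1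
    (.s3
    (.leaf (.box ⟨128, -1, -2048, 11, 119, 283, 163943, 0, 0, 0, 0, 0, 0⟩ ⟨0, 0, 0, 0, 0, 0, 219426, 0, 0, 0, 0, 0, 0⟩ ⟨0, 0, 0, 0, 0, 0, 219426, 0, 0, 0, 0, 0, 0⟩ ⟨0, 0, 0, 0, 0, 0, 331671, 0, 0, 0, 0, 0, 0⟩ ⟨0, 0, 0, 0, 0, 0, 331671, 0, 0, 0, 0, 0, 0⟩ ⟨239, -1, -3771, 6, 55, 547, 679014, 0, 0, 0, 0, 0, 0⟩))
    (.leaf (.box ⟨134, -1, -2048, 11, 116, 287, 173905, 0, 0, 0, 0, 0, 0⟩ ⟨0, 0, 0, 0, 0, 0, 228116, 0, 0, 0, 0, 0, 0⟩ ⟨0, 0, 0, 0, 0, 0, 228116, 0, 0, 0, 0, 0, 0⟩ ⟨0, 0, 0, 0, 0, 0, 331429, 0, 0, 0, 0, 0, 0⟩ ⟨0, 0, 0, 0, 0, 0, 331429, 0, 0, 0, 0, 0, 0⟩ ⟨195, -1, -3048, 6, 51, 446, 605794, 0, 0, 0, 0, 0, 0⟩)))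
    (.leaf (.box ⟨152, -3, -2048, 11, 131, 308, 163985, 0, 0, 0, 0, 0, 0⟩ ⟨0, 0, 0, 0, 0, 0, 216840, 0, 0, 0, 0, 0, 0⟩ ⟨0, 0, 0, 0, 0, 0, 216840, 0, 0, 0, 0, 0, 0⟩ ⟨0, 0, 0, 0, 0, 0, 319969, 0, 0, 0, 0, 0, 0⟩ ⟨0, 0, 0, 0, 0, 0, 319969, 0, 0, 0, 0, 0, 0⟩ ⟨240, -2, -3356, 6, 60, 531, 610166, 0, 0, 0, 0, 0, 0⟩)))
    (.s2
    (.s3
    (.s1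
    (.leaf (.box ⟨121, -1, -2048, 9, 122, 292, 173305, 0, 0, 0, 0, 0, 0⟩ ⟨0, 0, 0, 0, 0, 0, 231915, 0, 0, 0, 0, 0, 0⟩ ⟨0, 0, 0, 0, 0, 0, 231915, 0, 0, 0, 0, 0, 0⟩ ⟨0, 0, 0, 0, 0, 0, 350422, 0, 0, 0, 0, 0, 0⟩ ⟨0, 0, 0, 0, 0, 0, 350422, 0, 0, 0, 0, 0, 0⟩ ⟨281, -1, -4783, 6, 72, 712, 716601, 0, 0, 0, 0, 0, 0⟩))
    (.leaf (.box ⟨126, -2, -2048, 8, 131, 313, 173277, 0, 0, 0, 0, 0, 0⟩ ⟨0, 0, 0, 0, 0, 0, 232067, 0, 0, 0, 0, 0, 0⟩ ⟨0, 0, 0, 0, 0, 0, 232067, 0, 0, 0, 0, 0, 0⟩ ⟨0, 0, 0, 0, 0, 0, 351233, 0, 0, 0, 0, 0, 0⟩ ⟨0, 0, 0, 0, 0, 0, 351233, 0, 0, 0, 0, 0, 0⟩ ⟨405, -1, -6716, 6, 107, 1080, 721960, 0, 0, 0, 0, 0, 0⟩)))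
    (.s1
    (.leaf (.box ⟨125, -1, -2048, 9, 119, 296, 183768, 0, 0, 0, 0, 0, 0⟩ ⟨0, 0, 0, 0, 0, 0, 241004, 0, 0, 0, 0, 0, 0⟩ ⟨0, 0, 0, 0, 0, 0, 241004, 0, 0, 0, 0, 0, 0⟩ ⟨0, 0, 0, 0, 0, 0, 350017, 0, 0, 0, 0, 0, 0⟩ ⟨0, 0, 0, 0, 0, 0, 350017, 0, 0, 0, 0, 0, 0⟩ ⟨237, -1, -3946, 6, 68, 592, 639105, 0, 0, 0, 0, 0, 0⟩))
    (.leaf (.box ⟨137, -2, -2048, 8, 128, 319, 183905, 0, 0, 0, 0, 0, 0⟩ ⟨0, 0, 0, 0, 0, 0, 241433, 0, 0, 0, 0, 0, 0⟩ ⟨0, 0, 0, 0, 0, 0, 241433, 0, 0, 0, 0, 0, 0⟩ ⟨0, 0, 0, 0, 0, 0, 351336, 0, 0, 0, 0, 0, 0⟩ ⟨0, 0, 0, 0, 0, 0, 351336, 0, 0, 0, 0, 0, 0⟩ ⟨351, -1, -5617, 6, 103, 913, 644899, 0, 0, 0, 0, 0, 0⟩))))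
    (.leaf (.box ⟨205, -2, -2048, 11, 121, 303, 177234, 0, 0, 0, 0, 0, 0⟩ ⟨0, 0, 0, 0, 0, 0, 234181, 0, 0, 0, 0, 0, 0⟩ ⟨0, 0, 0, 0, 0, 0, 234181, 0, 0, 0, 0, 0, 0⟩ ⟨0, 0, 0, 0, 0, 0, 345047, 0, 0, 0, 0, 0, 0⟩ ⟨0, 0, 0, 0, 0, 0, 345047, 0, 0, 0, 0, 0, 0⟩ ⟨391, -1, -3891, 6, 64, 600, 655258, 0, 0, 0, 0, 0, 0⟩))))
    (.leaf (.box ⟨271, -4, -2048, 18, 116, 301, 171571, 0, 0, 0, 0, 0, 0⟩ ⟨0, 0, 0, 0, 0, 0, 226749, 0, 0, 0, 0, 0, 0⟩ ⟨0, 0, 0, 0, 0, 0, 226749, 0, 0, 0, 0, 0, 0⟩ ⟨0, 0, 0, 0, 0, 0, 334242, 0, 0, 0, 0, 0, 0⟩ ⟨0, 0, 0, 0, 0, 0, 334242, 0, 0, 0, 0, 0, 0⟩ ⟨290, -1, -2483, 6, 39, 379, 635514, 0, 0, 0, 0, 0, 0⟩)))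

/-- A piece of the tree. -/
noncomputable def tree66 : Tree LeafX :=
  .s3
    (.s2
    (.s1
    (.s3
    (.leaf (.box ⟨147, -1, -2048, 14, 129, 299, 164524, 0, 0, 0, 0, 0, 0⟩ ⟨0, 0, 0, 0, 0, 0, 228050, 0, 0, 0, 0, 0, 0⟩ ⟨0, 0, 0, 0, 0, 0, 228050, 0, 0, 0, 0, 0, 0⟩ ⟨0, 0, 0, 0, 0, 0, 371486, 0, 0, 0, 0, 0, 0⟩ ⟨0, 0, 0, 0, 0, 0, 371486, 0, 0, 0, 0, 0, 0⟩ ⟨339, 0, -4952, 6, 53, 754, 1001229, 0, 0, 0, 0, 0, 0⟩))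
    (.leaf (.box ⟨153, -1, -2048, 14, 126, 302, 173569, 0, 0, 0, 0, 0, 0⟩ ⟨0, 0, 0, 0, 0, 0, 236551, 0, 0, 0, 0, 0, 0⟩ ⟨0, 0, 0, 0, 0, 0, 236551, 0, 0, 0, 0, 0, 0⟩ ⟨0, 0, 0, 0, 0, 0, 371272, 0, 0, 0, 0, 0, 0⟩ ⟨0, 0, 0, 0, 0, 0, 371272, 0, 0, 0, 0, 0, 0⟩ ⟨268, 0, -3872, 6, 49, 593, 862466, 0, 0, 0, 0, 0, 0⟩)))
    (.s3
    (.s3
    (.leaf (.box ⟨142, -2, -2048, 11, 136, 316, 163779, 0, 0, 0, 0, 0, 0⟩ ⟨0, 0, 0, 0, 0, 0, 228556, 0, 0, 0, 0, 0, 0⟩ ⟨0, 0, 0, 0, 0, 0, 228556, 0, 0, 0, 0, 0, 0⟩ ⟨0, 0, 0, 0, 0, 0, 378099, 0, 0, 0, 0, 0, 0⟩ ⟨0, 0, 0, 0, 0, 0, 378099, 0, 0, 0, 0, 0, 0⟩ ⟨427, -1, -6561, 6, 68, 1065, 1093700, 0, 0, 0, 0, 0, 0⟩))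
    (.leaf (.box ⟨143, -2, -2048, 11, 135, 318, 168416, 0, 0, 0, 0, 0, 0⟩ ⟨0, 0, 0, 0, 0, 0, 233115, 0, 0, 0, 0, 0, 0⟩ ⟨0, 0, 0, 0, 0, 0, 233115, 0, 0, 0, 0, 0, 0⟩ ⟨0, 0, 0, 0, 0, 0, 378532, 0, 0, 0, 0, 0, 0⟩ ⟨0, 0, 0, 0, 0, 0, 378532, 0, 0, 0, 0, 0, 0⟩ ⟨346, -1, -5267, 6, 60, 859, 1006196, 0, 0, 0, 0, 0, 0⟩)))
    (.s3
    (.leaf (.box ⟨141, -2, -2048, 11, 133, 320, 173212, 0, 0, 0, 0, 0, 0⟩ ⟨0, 0, 0, 0, 0, 0, 237724, 0, 0, 0, 0, 0, 0⟩ ⟨0, 0, 0, 0, 0, 0, 237724, 0, 0, 0, 0, 0, 0⟩ ⟨0, 0, 0, 0, 0, 0, 378807, 0, 0, 0, 0, 0, 0⟩ ⟨0, 0, 0, 0, 0, 0, 378807, 0, 0, 0, 0, 0, 0⟩ ⟨402, -1, -6059, 6, 76, 992, 931816, 0, 0, 0, 0, 0, 0⟩))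
    (.leaf (.box ⟨140, -2, -2048, 10, 132, 322, 178238, 0, 0, 0, 0, 0, 0⟩ ⟨0, 0, 0, 0, 0, 0, 242459, 0, 0, 0, 0, 0, 0⟩ ⟨0, 0, 0, 0, 0, 0, 242459, 0, 0, 0, 0, 0, 0⟩ ⟨0, 0, 0, 0, 0, 0, 379022, 0, 0, 0, 0, 0, 0⟩ ⟨0, 0, 0, 0, 0, 0, 379022, 0, 0, 0, 0, 0, 0⟩ ⟨360, -1, -5337, 6, 73, 877, 867814, 0, 0, 0, 0, 0, 0⟩)))))
    (.leaf (.box ⟨239, -3, -2048, 15, 120, 312, 173424, 0, 0, 0, 0, 0, 0⟩ ⟨0, 0, 0, 0, 0, 0, 237580, 0, 0, 0, 0, 0, 0⟩ ⟨0, 0, 0, 0, 0, 0, 237580, 0, 0, 0, 0, 0, 0⟩ ⟨0, 0, 0, 0, 0, 0, 377069, 0, 0, 0, 0, 0, 0⟩ ⟨0, 0, 0, 0, 0, 0, 377069, 0, 0, 0, 0, 0, 0⟩ ⟨461, -1, -4206, 6, 48, 666, 913288, 0, 0, 0, 0, 0, 0⟩)))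
    (.s2
    (.s1
    (.s3
    (.leaf (.box ⟨153, -1, -2048, 13, 123, 306, 183554, 0, 0, 0, 0, 0, 0⟩ ⟨0, 0, 0, 0, 0, 0, 245582, 0, 0, 0, 0, 0, 0⟩ ⟨0, 0, 0, 0, 0, 0, 245582, 0, 0, 0, 0, 0, 0⟩ ⟨0, 0, 0, 0, 0, 0, 370929, 0, 0, 0, 0, 0, 0⟩ ⟨0, 0, 0, 0, 0, 0, 370929, 0, 0, 0, 0, 0, 0⟩ ⟨250, 0, -3429, 6, 51, 529, 757626, 0, 0, 0, 0, 0, 0⟩))
    (.leaf (.box ⟨150, -1, -2048, 13, 119, 309, 194563, 0, 0, 0, 0, 0, 0⟩ ⟨0, 0, 0, 0, 0, 0, 255103, 0, 0, 0, 0, 0, 0⟩ ⟨0, 0, 0, 0, 0, 0, 255103, 0, 0, 0, 0, 0, 0⟩ ⟨0, 0, 0, 0, 0, 0, 370334, 0, 0, 0, 0, 0, 0⟩ ⟨0, 0, 0, 0, 0, 0, 370334, 0, 0, 0, 0, 0, 0⟩ ⟨236, 0, -3295, 6, 57, 512, 675431, 0, 0, 0, 0, 0, 0⟩)))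
    (.s3
    (.s3
    (.leaf (.box ⟨147, -2, -2048, 11, 130, 325, 183450, 0, 0, 0, 0, 0, 0⟩ ⟨0, 0, 0, 0, 0, 0, 247251, 0, 0, 0, 0, 0, 0⟩ ⟨0, 0, 0, 0, 0, 0, 247251, 0, 0, 0, 0, 0, 0⟩ ⟨0, 0, 0, 0, 0, 0, 379093, 0, 0, 0, 0, 0, 0⟩ ⟨0, 0, 0, 0, 0, 0, 379093, 0, 0, 0, 0, 0, 0⟩ ⟨298, -1, -4484, 6, 66, 740, 812160, 0, 0, 0, 0, 0, 0⟩))
    (.leaf (.box ⟨145, -2, -2048, 11, 128, 327, 188928, 0, 0, 0, 0, 0, 0⟩ ⟨0, 0, 0, 0, 0, 0, 252184, 0, 0, 0, 0, 0, 0⟩ ⟨0, 0, 0, 0, 0, 0, 252184, 0, 0, 0, 0, 0, 0⟩ ⟨0, 0, 0, 0, 0, 0, 379116, 0, 0, 0, 0, 0, 0⟩ ⟨0, 0, 0, 0, 0, 0, 379116, 0, 0, 0, 0, 0, 0⟩ ⟨288, -1, -4279, 6, 68, 709, 763319, 0, 0, 0, 0, 0, 0⟩)))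
    (.s3
    (.leaf (.box ⟨144, -2, -2048, 11, 126, 329, 194635, 0, 0, 0, 0, 0, 0⟩ ⟨0, 0, 0, 0, 0, 0, 257195, 0, 0, 0, 0, 0, 0⟩ ⟨0, 0, 0, 0, 0, 0, 257195, 0, 0, 0, 0, 0, 0⟩ ⟨0, 0, 0, 0, 0, 0, 379020, 0, 0, 0, 0, 0, 0⟩ ⟨0, 0, 0, 0, 0, 0, 379020, 0, 0, 0, 0, 0, 0⟩ ⟨275, -1, -4048, 6, 69, 674, 720114, 0, 0, 0, 0, 0, 0⟩))
    (.leaf (.box ⟨143, -3, -2048, 16, 132, 330, 199628, 0, 0, 0, 0, 0, 0⟩ ⟨0, 0, 0, 0, 0, 0, 260619, 0, 0, 0, 0, 0, 0⟩ ⟨0, 0, 0, 0, 0, 0, 260619, 0, 0, 0, 0, 0, 0⟩ ⟨0, 0, 0, 0, 0, 0, 375272, 0, 0, 0, 0, 0, 0⟩ ⟨0, 0, 0, 0, 0, 0, 375272, 0, 0, 0, 0, 0, 0⟩ ⟨267, -1, -3869, 6, 72, 647, 670039, 0, 0, 0, 0, 0, 0⟩)))))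
    (.leaf (.box ⟨239, -3, -2048, 15, 112, 312, 194129, 0, 0, 0, 0, 0, 0⟩ ⟨0, 0, 0, 0, 0, 0, 256438, 0, 0, 0, 0, 0, 0⟩ ⟨0, 0, 0, 0, 0, 0, 256438, 0, 0, 0, 0, 0, 0⟩ ⟨0, 0, 0, 0, 0, 0, 377648, 0, 0, 0, 0, 0, 0⟩ ⟨0, 0, 0, 0, 0, 0, 377648, 0, 0, 0, 0, 0, 0⟩ ⟨342, -1, -3028, 6, 47, 485, 716153, 0, 0, 0, 0, 0, 0⟩)))

/-- A piece of the tree. -/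
noncomputable def tree67 : Tree LeafX :=
  .s3
    (.s0
    (.s2
    (.leaf (.box ⟨232, -9, -2048, 21, 161, 332, 146794, 0, 0, 0, 0, 0, 0⟩ ⟨0, 0, 0, 0, 0, 0, 201569, 0, 0, 0, 0, 0, 0⟩ ⟨0, 0, 0, 0, 0, 0, 201569, 0, 0, 0, 0, 0, 0⟩ ⟨0, 0, 0, 0, 0, 0, 321553, 0, 0, 0, 0, 0, 0⟩ ⟨0, 0, 0, 0, 0, 0, 321553, 0, 0, 0, 0, 0, 0⟩ ⟨372, -3, -3486, 6, 53, 606, 794453, 0, 0, 0, 0, 0, 0⟩))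
    (.leaf (.box ⟨202, -11, -2048, 26, 151, 328, 155162, 0, 0, 0, 0, 0, 0⟩ ⟨0, 0, 0, 0, 0, 0, 213245, 0, 0, 0, 0, 0, 0⟩ ⟨0, 0, 0, 0, 0, 0, 213245, 0, 0, 0, 0, 0, 0⟩ ⟨0, 0, 0, 0, 0, 0, 340827, 0, 0, 0, 0, 0, 0⟩ ⟨0, 0, 0, 0, 0, 0, 340827, 0, 0, 0, 0, 0, 0⟩ ⟨186, -2, -2055, 6, 28, 351, 848440, 0, 0, 0, 0, 0, 0⟩)))
    (.s2
    (.s3
    (.s1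
    (.leaf (.box ⟨131, -3, -2048, 10, 148, 324, 154992, 0, 0, 0, 0, 0, 0⟩ ⟨0, 0, 0, 0, 0, 0, 215327, 0, 0, 0, 0, 0, 0⟩ ⟨0, 0, 0, 0, 0, 0, 215327, 0, 0, 0, 0, 0, 0⟩ ⟨0, 0, 0, 0, 0, 0, 352574, 0, 0, 0, 0, 0, 0⟩ ⟨0, 0, 0, 0, 0, 0, 352574, 0, 0, 0, 0, 0, 0⟩ ⟨475, -2, -7624, 6, 91, 1290, 972326, 0, 0, 0, 0, 0, 0⟩))
    (.leaf (.box ⟨128, -6, -2048, 12, 163, 347, 157534, 0, 0, 0, 0, 0, 0⟩ ⟨0, 0, 0, 0, 0, 0, 219214, 0, 0, 0, 0, 0, 0⟩ ⟨0, 0, 0, 0, 0, 0, 219214, 0, 0, 0, 0, 0, 0⟩ ⟨0, 0, 0, 0, 0, 0, 360269, 0, 0, 0, 0, 0, 0⟩ ⟨0, 0, 0, 0, 0, 0, 360269, 0, 0, 0, 0, 0, 0⟩ ⟨368, -3, -5703, 6, 73, 1034, 1010466, 0, 0, 0, 0, 0, 0⟩)))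
    (.leaf (.box ⟨202, -7, -2048, 18, 153, 341, 164408, 0, 0, 0, 0, 0, 0⟩ ⟨0, 0, 0, 0, 0, 0, 224642, 0, 0, 0, 0, 0, 0⟩ ⟨0, 0, 0, 0, 0, 0, 224642, 0, 0, 0, 0, 0, 0⟩ ⟨0, 0, 0, 0, 0, 0, 354530, 0, 0, 0, 0, 0, 0⟩ ⟨0, 0, 0, 0, 0, 0, 354530, 0, 0, 0, 0, 0, 0⟩ ⟨300, -2, -2949, 6, 45, 522, 840513, 0, 0, 0, 0, 0, 0⟩)))
    (.leaf (.box ⟨201, -11, -2048, 28, 149, 335, 164773, 0, 0, 0, 0, 0, 0⟩ ⟨0, 0, 0, 0, 0, 0, 226417, 0, 0, 0, 0, 0, 0⟩ ⟨0, 0, 0, 0, 0, 0, 226417, 0, 0, 0, 0, 0, 0⟩ ⟨0, 0, 0, 0, 0, 0, 361750, 0, 0, 0, 0, 0, 0⟩ ⟨0, 0, 0, 0, 0, 0, 361750, 0, 0, 0, 0, 0, 0⟩ ⟨190, -2, -2195, 6, 30, 380, 899253, 0, 0, 0, 0, 0, 0⟩))))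
    (.s0
    (.leaf (.box ⟨248, -11, -2048, 26, 152, 342, 165731, 0, 0, 0, 0, 0, 0⟩ ⟨0, 0, 0, 0, 0, 0, 219582, 0, 0, 0, 0, 0, 0⟩ ⟨0, 0, 0, 0, 0, 0, 219582, 0, 0, 0, 0, 0, 0⟩ ⟨0, 0, 0, 0, 0, 0, 325271, 0, 0, 0, 0, 0, 0⟩ ⟨0, 0, 0, 0, 0, 0, 325271, 0, 0, 0, 0, 0, 0⟩ ⟨248, -3, -2048, 7, 41, 360, 627113, 0, 0, 0, 0, 0, 0⟩))
    (.s1
    (.leaf (.box ⟨169, -5, -2048, 14, 141, 337, 174802, 0, 0, 0, 0, 0, 0⟩ ⟨0, 0, 0, 0, 0, 0, 231548, 0, 0, 0, 0, 0, 0⟩ ⟨0, 0, 0, 0, 0, 0, 231548, 0, 0, 0, 0, 0, 0⟩ ⟨0, 0, 0, 0, 0, 0, 342843, 0, 0, 0, 0, 0, 0⟩ ⟨0, 0, 0, 0, 0, 0, 342843, 0, 0, 0, 0, 0, 0⟩ ⟨273, -2, -3440, 6, 64, 593, 660150, 0, 0, 0, 0, 0, 0⟩))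
    (.leaf (.box ⟨251, -10, -2048, 23, 165, 378, 179306, 0, 0, 0, 0, 0, 0⟩ ⟨0, 0, 0, 0, 0, 0, 237975, 0, 0, 0, 0, 0, 0⟩ ⟨0, 0, 0, 0, 0, 0, 237975, 0, 0, 0, 0, 0, 0⟩ ⟨0, 0, 0, 0, 0, 0, 353706, 0, 0, 0, 0, 0, 0⟩ ⟨0, 0, 0, 0, 0, 0, 353706, 0, 0, 0, 0, 0, 0⟩ ⟨181, -3, -2048, 6, 42, 376, 688571, 0, 0, 0, 0, 0, 0⟩))))

/-- A piece of the tree. -/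
noncomputable def tree68 : Tree LeafX :=
  .s0
    (.s0
    (.s3
    (.s1
    (.leaf (.box ⟨112, -3, -2048, 9, 145, 330, 164039, 0, 0, 0, 0, 0, 0⟩ ⟨0, 0, 0, 0, 0, 0, 227844, 0, 0, 0, 0, 0, 0⟩ ⟨0, 0, 0, 0, 0, 0, 227844, 0, 0, 0, 0, 0, 0⟩ ⟨0, 0, 0, 0, 0, 0, 372876, 0, 0, 0, 0, 0, 0⟩ ⟨0, 0, 0, 0, 0, 0, 372876, 0, 0, 0, 0, 0, 0⟩ ⟨479, -2, -8212, 6, 96, 1407, 1025924, 0, 0, 0, 0, 0, 0⟩))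
    (.leaf (.box ⟨118, -5, -2048, 11, 160, 352, 166402, 0, 0, 0, 0, 0, 0⟩ ⟨0, 0, 0, 0, 0, 0, 231512, 0, 0, 0, 0, 0, 0⟩ ⟨0, 0, 0, 0, 0, 0, 231512, 0, 0, 0, 0, 0, 0⟩ ⟨0, 0, 0, 0, 0, 0, 380324, 0, 0, 0, 0, 0, 0⟩ ⟨0, 0, 0, 0, 0, 0, 380324, 0, 0, 0, 0, 0, 0⟩ ⟨427, -3, -7149, 6, 90, 1308, 1064692, 0, 0, 0, 0, 0, 0⟩)))
    (.leaf (.box ⟨185, -6, -2048, 16, 150, 347, 173894, 0, 0, 0, 0, 0, 0⟩ ⟨0, 0, 0, 0, 0, 0, 237546, 0, 0, 0, 0, 0, 0⟩ ⟨0, 0, 0, 0, 0, 0, 237546, 0, 0, 0, 0, 0, 0⟩ ⟨0, 0, 0, 0, 0, 0, 374701, 0, 0, 0, 0, 0, 0⟩ ⟨0, 0, 0, 0, 0, 0, 374701, 0, 0, 0, 0, 0, 0⟩ ⟨348, -2, -3769, 6, 56, 674, 886615, 0, 0, 0, 0, 0, 0⟩)))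
    (.s3
    (.s1
    (.leaf (.box ⟨110, -3, -2048, 9, 144, 334, 168899, 0, 0, 0, 0, 0, 0⟩ ⟨0, 0, 0, 0, 0, 0, 234564, 0, 0, 0, 0, 0, 0⟩ ⟨0, 0, 0, 0, 0, 0, 234564, 0, 0, 0, 0, 0, 0⟩ ⟨0, 0, 0, 0, 0, 0, 383764, 0, 0, 0, 0, 0, 0⟩ ⟨0, 0, 0, 0, 0, 0, 383764, 0, 0, 0, 0, 0, 0⟩ ⟨496, -2, -8977, 6, 104, 1552, 1054510, 0, 0, 0, 0, 0, 0⟩))
    (.leaf (.box ⟨114, -5, -2048, 11, 158, 356, 171161, 0, 0, 0, 0, 0, 0⟩ ⟨0, 0, 0, 0, 0, 0, 238108, 0, 0, 0, 0, 0, 0⟩ ⟨0, 0, 0, 0, 0, 0, 238108, 0, 0, 0, 0, 0, 0⟩ ⟨0, 0, 0, 0, 0, 0, 391068, 0, 0, 0, 0, 0, 0⟩ ⟨0, 0, 0, 0, 0, 0, 391068, 0, 0, 0, 0, 0, 0⟩ ⟨390, -2, -6726, 6, 84, 1240, 1093579, 0, 0, 0, 0, 0, 0⟩)))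
    (.s1
    (.leaf (.box ⟨111, -3, -2048, 9, 141, 340, 178982, 0, 0, 0, 0, 0, 0⟩ ⟨0, 0, 0, 0, 0, 0, 244464, 0, 0, 0, 0, 0, 0⟩ ⟨0, 0, 0, 0, 0, 0, 244464, 0, 0, 0, 0, 0, 0⟩ ⟨0, 0, 0, 0, 0, 0, 385501, 0, 0, 0, 0, 0, 0⟩ ⟨0, 0, 0, 0, 0, 0, 385501, 0, 0, 0, 0, 0, 0⟩ ⟨403, -2, -6951, 6, 97, 1213, 911187, 0, 0, 0, 0, 0, 0⟩))
    (.leaf (.box ⟨120, -5, -2048, 12, 154, 362, 182254, 0, 0, 0, 0, 0, 0⟩ ⟨0, 0, 0, 0, 0, 0, 249379, 0, 0, 0, 0, 0, 0⟩ ⟨0, 0, 0, 0, 0, 0, 249379, 0, 0, 0, 0, 0, 0⟩ ⟨0, 0, 0, 0, 0, 0, 394774, 0, 0, 0, 0, 0, 0⟩ ⟨0, 0, 0, 0, 0, 0, 394774, 0, 0, 0, 0, 0, 0⟩ ⟨309, -2, -4994, 6, 74, 930, 946771, 0, 0, 0, 0, 0, 0⟩)))))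
    (.s3
    (.s1
    (.s3
    (.leaf (.box ⟨108, -2, -2048, 9, 143, 340, 173992, 0, 0, 0, 0, 0, 0⟩ ⟨0, 0, 0, 0, 0, 0, 243068, 0, 0, 0, 0, 0, 0⟩ ⟨0, 0, 0, 0, 0, 0, 243068, 0, 0, 0, 0, 0, 0⟩ ⟨0, 0, 0, 0, 0, 0, 403101, 0, 0, 0, 0, 0, 0⟩ ⟨0, 0, 0, 0, 0, 0, 403101, 0, 0, 0, 0, 0, 0⟩ ⟨457, -2, -8431, 6, 90, 1475, 1179999, 0, 0, 0, 0, 0, 0⟩))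
    (.leaf (.box ⟨110, -3, -2048, 9, 142, 342, 179027, 0, 0, 0, 0, 0, 0⟩ ⟨0, 0, 0, 0, 0, 0, 248101, 0, 0, 0, 0, 0, 0⟩ ⟨0, 0, 0, 0, 0, 0, 248101, 0, 0, 0, 0, 0, 0⟩ ⟨0, 0, 0, 0, 0, 0, 403960, 0, 0, 0, 0, 0, 0⟩ ⟨0, 0, 0, 0, 0, 0, 403960, 0, 0, 0, 0, 0, 0⟩ ⟨509, -2, -9387, 6, 110, 1650, 1086523, 0, 0, 0, 0, 0, 0⟩)))
    (.s2
    (.s1
    (.leaf (.box ⟨91, -2, -2249, 6, 170, 393, 176146, 0, 0, 0, 0, 0, 0⟩ ⟨0, 0, 0, 0, 0, 0, 245016, 0, 0, 0, 0, 0, 0⟩ ⟨0, 0, 0, 0, 0, 0, 245016, 0, 0, 0, 0, 0, 0⟩ ⟨0, 0, 0, 0, 0, 0, 402310, 0, 0, 0, 0, 0, 0⟩ ⟨0, 0, 0, 0, 0, 0, 402310, 0, 0, 0, 0, 0, 0⟩ ⟨452, -2, -12164, 6, 149, 2249, 1123693, 0, 0, 0, 0, 0, 0⟩))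
    (.leaf (.box ⟨84, -3, -2048, 8, 161, 369, 178224, 0, 0, 0, 0, 0, 0⟩ ⟨0, 0, 0, 0, 0, 0, 248106, 0, 0, 0, 0, 0, 0⟩ ⟨0, 0, 0, 0, 0, 0, 248106, 0, 0, 0, 0, 0, 0⟩ ⟨0, 0, 0, 0, 0, 0, 408133, 0, 0, 0, 0, 0, 0⟩ ⟨0, 0, 0, 0, 0, 0, 408133, 0, 0, 0, 0, 0, 0⟩ ⟨387, -2, -10265, 6, 129, 1958, 1149666, 0, 0, 0, 0, 0, 0⟩)))
    (.s1
    (.leaf (.box ⟨79, -2, -2048, 7, 148, 355, 182981, 0, 0, 0, 0, 0, 0⟩ ⟨0, 0, 0, 0, 0, 0, 254650, 0, 0, 0, 0, 0, 0⟩ ⟨0, 0, 0, 0, 0, 0, 254650, 0, 0, 0, 0, 0, 0⟩ ⟨0, 0, 0, 0, 0, 0, 418608, 0, 0, 0, 0, 0, 0⟩ ⟨0, 0, 0, 0, 0, 0, 418608, 0, 0, 0, 0, 0, 0⟩ ⟨310, -2, -9213, 6, 106, 1683, 1175391, 0, 0, 0, 0, 0, 0⟩))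
    (.leaf (.box ⟨76, -3, -2048, 7, 155, 365, 185595, 0, 0, 0, 0, 0, 0⟩ ⟨0, 0, 0, 0, 0, 0, 258489, 0, 0, 0, 0, 0, 0⟩ ⟨0, 0, 0, 0, 0, 0, 258489, 0, 0, 0, 0, 0, 0⟩ ⟨0, 0, 0, 0, 0, 0, 425677, 0, 0, 0, 0, 0, 0⟩ ⟨0, 0, 0, 0, 0, 0, 425677, 0, 0, 0, 0, 0, 0⟩ ⟨268, -3, -7974, 6, 95, 1498, 1205165, 0, 0, 0, 0, 0, 0⟩)))))
    (.s1
    (.s2
    (.leaf (.box ⟨115, -2, -2048, 7, 143, 347, 184310, 0, 0, 0, 0, 0, 0⟩ ⟨0, 0, 0, 0, 0, 0, 251705, 0, 0, 0, 0, 0, 0⟩ ⟨0, 0, 0, 0, 0, 0, 251705, 0, 0, 0, 0, 0, 0⟩ ⟨0, 0, 0, 0, 0, 0, 396798, 0, 0, 0, 0, 0, 0⟩ ⟨0, 0, 0, 0, 0, 0, 396798, 0, 0, 0, 0, 0, 0⟩ ⟨510, -2, -8983, 6, 127, 1597, 936813, 0, 0, 0, 0, 0, 0⟩))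
    (.leaf (.box ⟨110, -2, -2048, 7, 135, 346, 190704, 0, 0, 0, 0, 0, 0⟩ ⟨0, 0, 0, 0, 0, 0, 260589, 0, 0, 0, 0, 0, 0⟩ ⟨0, 0, 0, 0, 0, 0, 260589, 0, 0, 0, 0, 0, 0⟩ ⟨0, 0, 0, 0, 0, 0, 411318, 0, 0, 0, 0, 0, 0⟩ ⟨0, 0, 0, 0, 0, 0, 411318, 0, 0, 0, 0, 0, 0⟩ ⟨442, -2, -8820, 6, 116, 1555, 975657, 0, 0, 0, 0, 0, 0⟩)))
    (.s2
    (.s1
    (.leaf (.box ⟨89, -2, -2172, 6, 160, 386, 187501, 0, 0, 0, 0, 0, 0⟩ ⟨0, 0, 0, 0, 0, 0, 256528, 0, 0, 0, 0, 0, 0⟩ ⟨0, 0, 0, 0, 0, 0, 256528, 0, 0, 0, 0, 0, 0⟩ ⟨0, 0, 0, 0, 0, 0, 405987, 0, 0, 0, 0, 0, 0⟩ ⟨0, 0, 0, 0, 0, 0, 405987, 0, 0, 0, 0, 0, 0⟩ ⟨404, -2, -10461, 6, 152, 1955, 972718, 0, 0, 0, 0, 0, 0⟩))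
    (.leaf (.box ⟨88, -3, -2048, 8, 157, 375, 190159, 0, 0, 0, 0, 0, 0⟩ ⟨0, 0, 0, 0, 0, 0, 260385, 0, 0, 0, 0, 0, 0⟩ ⟨0, 0, 0, 0, 0, 0, 260385, 0, 0, 0, 0, 0, 0⟩ ⟨0, 0, 0, 0, 0, 0, 412850, 0, 0, 0, 0, 0, 0⟩ ⟨0, 0, 0, 0, 0, 0, 412850, 0, 0, 0, 0, 0, 0⟩ ⟨357, -2, -9328, 6, 140, 1799, 996112, 0, 0, 0, 0, 0, 0⟩)))
    (.leaf (.box ⟨105, -4, -2048, 10, 148, 366, 195060, 0, 0, 0, 0, 0, 0⟩ ⟨0, 0, 0, 0, 0, 0, 267011, 0, 0, 0, 0, 0, 0⟩ ⟨0, 0, 0, 0, 0, 0, 267011, 0, 0, 0, 0, 0, 0⟩ ⟨0, 0, 0, 0, 0, 0, 423062, 0, 0, 0, 0, 0, 0⟩ ⟨0, 0, 0, 0, 0, 0, 423062, 0, 0, 0, 0, 0, 0⟩ ⟨279, -2, -5714, 6, 81, 1069, 1018050, 0, 0, 0, 0, 0, 0⟩)))))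

/-- A piece of the tree. -/
noncomputable def tree69 : Tree LeafX :=
  .s0
    (.s1
    (.leaf (.box ⟨124, -4, -2048, 13, 137, 334, 175296, 0, 0, 0, 0, 0, 0⟩ ⟨0, 0, 0, 0, 0, 0, 240829, 0, 0, 0, 0, 0, 0⟩ ⟨0, 0, 0, 0, 0, 0, 240829, 0, 0, 0, 0, 0, 0⟩ ⟨0, 0, 0, 0, 0, 0, 384610, 0, 0, 0, 0, 0, 0⟩ ⟨0, 0, 0, 0, 0, 0, 384610, 0, 0, 0, 0, 0, 0⟩ ⟨260, -2, -4799, 6, 60, 822, 954436, 0, 0, 0, 0, 0, 0⟩))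
    (.leaf (.box ⟨115, -8, -2048, 19, 154, 352, 179697, 0, 0, 0, 0, 0, 0⟩ ⟨0, 0, 0, 0, 0, 0, 247320, 0, 0, 0, 0, 0, 0⟩ ⟨0, 0, 0, 0, 0, 0, 247320, 0, 0, 0, 0, 0, 0⟩ ⟨0, 0, 0, 0, 0, 0, 396543, 0, 0, 0, 0, 0, 0⟩ ⟨0, 0, 0, 0, 0, 0, 396543, 0, 0, 0, 0, 0, 0⟩ ⟨167, -2, -3253, 6, 45, 589, 999769, 0, 0, 0, 0, 0, 0⟩)))
    (.s3
    (.leaf (.box ⟨167, -9, -2048, 25, 142, 350, 186783, 0, 0, 0, 0, 0, 0⟩ ⟨0, 0, 0, 0, 0, 0, 259605, 0, 0, 0, 0, 0, 0⟩ ⟨0, 0, 0, 0, 0, 0, 259605, 0, 0, 0, 0, 0, 0⟩ ⟨0, 0, 0, 0, 0, 0, 425492, 0, 0, 0, 0, 0, 0⟩ ⟨0, 0, 0, 0, 0, 0, 425492, 0, 0, 0, 0, 0, 0⟩ ⟨218, -2, -2833, 6, 32, 506, 1178648, 0, 0, 0, 0, 0, 0⟩))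
    (.leaf (.box ⟨174, -9, -2048, 26, 138, 355, 198371, 0, 0, 0, 0, 0, 0⟩ ⟨0, 0, 0, 0, 0, 0, 271172, 0, 0, 0, 0, 0, 0⟩ ⟨0, 0, 0, 0, 0, 0, 271172, 0, 0, 0, 0, 0, 0⟩ ⟨0, 0, 0, 0, 0, 0, 428384, 0, 0, 0, 0, 0, 0⟩ ⟨0, 0, 0, 0, 0, 0, 428384, 0, 0, 0, 0, 0, 0⟩ ⟨189, -2, -2494, 6, 33, 450, 1019366, 0, 0, 0, 0, 0, 0⟩)))

/-- A piece of the tree. -/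
noncomputable def tree70 : Tree LeafX :=
  .s2
    (.s0
    (.s3
    (.s1
    (.leaf (.box ⟨129, -3, -2048, 9, 139, 343, 184773, 0, 0, 0, 0, 0, 0⟩ ⟨0, 0, 0, 0, 0, 0, 247856, 0, 0, 0, 0, 0, 0⟩ ⟨0, 0, 0, 0, 0, 0, 247856, 0, 0, 0, 0, 0, 0⟩ ⟨0, 0, 0, 0, 0, 0, 376342, 0, 0, 0, 0, 0, 0⟩ ⟨0, 0, 0, 0, 0, 0, 376342, 0, 0, 0, 0, 0, 0⟩ ⟨391, -2, -6191, 6, 102, 1087, 781420, 0, 0, 0, 0, 0, 0⟩))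
    (.leaf (.box ⟨129, -5, -2048, 11, 152, 367, 189204, 0, 0, 0, 0, 0, 0⟩ ⟨0, 0, 0, 0, 0, 0, 254258, 0, 0, 0, 0, 0, 0⟩ ⟨0, 0, 0, 0, 0, 0, 254258, 0, 0, 0, 0, 0, 0⟩ ⟨0, 0, 0, 0, 0, 0, 387486, 0, 0, 0, 0, 0, 0⟩ ⟨0, 0, 0, 0, 0, 0, 387486, 0, 0, 0, 0, 0, 0⟩ ⟨257, -2, -4000, 6, 71, 751, 814024, 0, 0, 0, 0, 0, 0⟩)))
    (.s1
    (.leaf (.box ⟨132, -3, -2048, 9, 135, 349, 196845, 0, 0, 0, 0, 0, 0⟩ ⟨0, 0, 0, 0, 0, 0, 258832, 0, 0, 0, 0, 0, 0⟩ ⟨0, 0, 0, 0, 0, 0, 258832, 0, 0, 0, 0, 0, 0⟩ ⟨0, 0, 0, 0, 0, 0, 377803, 0, 0, 0, 0, 0, 0⟩ ⟨0, 0, 0, 0, 0, 0, 377803, 0, 0, 0, 0, 0, 0⟩ ⟨341, -2, -5266, 6, 100, 934, 699174, 0, 0, 0, 0, 0, 0⟩))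
    (.leaf (.box ⟨136, -5, -2048, 12, 147, 373, 202480, 0, 0, 0, 0, 0, 0⟩ ⟨0, 0, 0, 0, 0, 0, 266716, 0, 0, 0, 0, 0, 0⟩ ⟨0, 0, 0, 0, 0, 0, 266716, 0, 0, 0, 0, 0, 0⟩ ⟨0, 0, 0, 0, 0, 0, 390646, 0, 0, 0, 0, 0, 0⟩ ⟨0, 0, 0, 0, 0, 0, 390646, 0, 0, 0, 0, 0, 0⟩ ⟨241, -2, -3630, 6, 74, 689, 729705, 0, 0, 0, 0, 0, 0⟩))))
    (.s3
    (.s1
    (.leaf (.box ⟨122, -4, -2048, 14, 143, 351, 195701, 0, 0, 0, 0, 0, 0⟩ ⟨0, 0, 0, 0, 0, 0, 262441, 0, 0, 0, 0, 0, 0⟩ ⟨0, 0, 0, 0, 0, 0, 262441, 0, 0, 0, 0, 0, 0⟩ ⟨0, 0, 0, 0, 0, 0, 398256, 0, 0, 0, 0, 0, 0⟩ ⟨0, 0, 0, 0, 0, 0, 398256, 0, 0, 0, 0, 0, 0⟩ ⟨356, -2, -5957, 6, 97, 1065, 825418, 0, 0, 0, 0, 0, 0⟩))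
    (.s2
    (.leaf (.box ⟨121, -4, -2048, 10, 150, 376, 200036, 0, 0, 0, 0, 0, 0⟩ ⟨0, 0, 0, 0, 0, 0, 268752, 0, 0, 0, 0, 0, 0⟩ ⟨0, 0, 0, 0, 0, 0, 268752, 0, 0, 0, 0, 0, 0⟩ ⟨0, 0, 0, 0, 0, 0, 409380, 0, 0, 0, 0, 0, 0⟩ ⟨0, 0, 0, 0, 0, 0, 409380, 0, 0, 0, 0, 0, 0⟩ ⟨303, -2, -5429, 6, 95, 1042, 858714, 0, 0, 0, 0, 0, 0⟩))
    (.leaf (.box ⟨107, -4, -2048, 10, 143, 372, 208395, 0, 0, 0, 0, 0, 0⟩ ⟨0, 0, 0, 0, 0, 0, 280133, 0, 0, 0, 0, 0, 0⟩ ⟨0, 0, 0, 0, 0, 0, 280133, 0, 0, 0, 0, 0, 0⟩ ⟨0, 0, 0, 0, 0, 0, 427188, 0, 0, 0, 0, 0, 0⟩ ⟨0, 0, 0, 0, 0, 0, 427188, 0, 0, 0, 0, 0, 0⟩ ⟨221, -2, -4345, 6, 72, 821, 899239, 0, 0, 0, 0, 0, 0⟩))))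
    (.s1
    (.leaf (.box ⟨129, -2, -2048, 8, 133, 357, 208341, 0, 0, 0, 0, 0, 0⟩ ⟨0, 0, 0, 0, 0, 0, 273871, 0, 0, 0, 0, 0, 0⟩ ⟨0, 0, 0, 0, 0, 0, 273871, 0, 0, 0, 0, 0, 0⟩ ⟨0, 0, 0, 0, 0, 0, 399539, 0, 0, 0, 0, 0, 0⟩ ⟨0, 0, 0, 0, 0, 0, 399539, 0, 0, 0, 0, 0, 0⟩ ⟨334, -2, -5409, 6, 101, 976, 738324, 0, 0, 0, 0, 0, 0⟩))
    (.s2
    (.leaf (.box ⟨124, -4, -2048, 10, 145, 383, 213946, 0, 0, 0, 0, 0, 0⟩ ⟨0, 0, 0, 0, 0, 0, 281755, 0, 0, 0, 0, 0, 0⟩ ⟨0, 0, 0, 0, 0, 0, 281755, 0, 0, 0, 0, 0, 0⟩ ⟨0, 0, 0, 0, 0, 0, 412491, 0, 0, 0, 0, 0, 0⟩ ⟨0, 0, 0, 0, 0, 0, 412491, 0, 0, 0, 0, 0, 0⟩ ⟨294, -2, -5154, 6, 104, 1001, 769582, 0, 0, 0, 0, 0, 0⟩))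
    (.leaf (.box ⟨107, -4, -2048, 10, 138, 378, 223193, 0, 0, 0, 0, 0, 0⟩ ⟨0, 0, 0, 0, 0, 0, 294089, 0, 0, 0, 0, 0, 0⟩ ⟨0, 0, 0, 0, 0, 0, 294089, 0, 0, 0, 0, 0, 0⟩ ⟨0, 0, 0, 0, 0, 0, 430989, 0, 0, 0, 0, 0, 0⟩ ⟨0, 0, 0, 0, 0, 0, 430989, 0, 0, 0, 0, 0, 0⟩ ⟨189, -2, -3797, 6, 72, 725, 806348, 0, 0, 0, 0, 0, 0⟩))))))
    (.s0
    (.leaf (.box ⟨189, -9, -2048, 26, 139, 354, 198402, 0, 0, 0, 0, 0, 0⟩ ⟨0, 0, 0, 0, 0, 0, 263008, 0, 0, 0, 0, 0, 0⟩ ⟨0, 0, 0, 0, 0, 0, 263008, 0, 0, 0, 0, 0, 0⟩ ⟨0, 0, 0, 0, 0, 0, 390003, 0, 0, 0, 0, 0, 0⟩ ⟨0, 0, 0, 0, 0, 0, 390003, 0, 0, 0, 0, 0, 0⟩ ⟨176, -3, -2048, 8, 37, 367, 754154, 0, 0, 0, 0, 0, 0⟩))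
    (.s1
    (.leaf (.box ⟨122, -4, -2048, 12, 127, 353, 211164, 0, 0, 0, 0, 0, 0⟩ ⟨0, 0, 0, 0, 0, 0, 279858, 0, 0, 0, 0, 0, 0⟩ ⟨0, 0, 0, 0, 0, 0, 279858, 0, 0, 0, 0, 0, 0⟩ ⟨0, 0, 0, 0, 0, 0, 414795, 0, 0, 0, 0, 0, 0⟩ ⟨0, 0, 0, 0, 0, 0, 414795, 0, 0, 0, 0, 0, 0⟩ ⟨192, -2, -3691, 6, 61, 656, 801014, 0, 0, 0, 0, 0, 0⟩))
    (.leaf (.box ⟨113, -7, -2048, 18, 141, 371, 218197, 0, 0, 0, 0, 0, 0⟩ ⟨0, 0, 0, 0, 0, 0, 289730, 0, 0, 0, 0, 0, 0⟩ ⟨0, 0, 0, 0, 0, 0, 289730, 0, 0, 0, 0, 0, 0⟩ ⟨0, 0, 0, 0, 0, 0, 431038, 0, 0, 0, 0, 0, 0⟩ ⟨0, 0, 0, 0, 0, 0, 431038, 0, 0, 0, 0, 0, 0⟩ ⟨122, -2, -2342, 6, 43, 439, 841417, 0, 0, 0, 0, 0, 0⟩))))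

/-- A piece of the tree. -/
noncomputable def tree71 : Tree LeafX :=
  .s1
    (.s3
    (.leaf (.box ⟨272, -1, -2048, 27, 128, 338, 186263, 0, 0, 0, 0, 0, 0⟩ ⟨0, 0, 0, 0, 0, 0, 254881, 0, 0, 0, 0, 0, 0⟩ ⟨0, 0, 0, 0, 0, 0, 254881, 0, 0, 0, 0, 0, 0⟩ ⟨0, 0, 0, 0, 0, 0, 403540, 0, 0, 0, 0, 0, 0⟩ ⟨0, 0, 0, 0, 0, 0, 403540, 0, 0, 0, 0, 0, 0⟩ ⟨266, 0, -2381, 6, 29, 400, 968306, 0, 0, 0, 0, 0, 0⟩))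
    (.leaf (.box ⟨251, -1, -2048, 25, 121, 342, 207078, 0, 0, 0, 0, 0, 0⟩ ⟨0, 0, 0, 0, 0, 0, 273273, 0, 0, 0, 0, 0, 0⟩ ⟨0, 0, 0, 0, 0, 0, 273273, 0, 0, 0, 0, 0, 0⟩ ⟨0, 0, 0, 0, 0, 0, 401669, 0, 0, 0, 0, 0, 0⟩ ⟨0, 0, 0, 0, 0, 0, 401669, 0, 0, 0, 0, 0, 0⟩ ⟨229, 0, -2048, 7, 34, 347, 757647, 0, 0, 0, 0, 0, 0⟩)))
    (.s3
    (.s2
    (.leaf (.box ⟨250, -2, -2048, 19, 146, 354, 184840, 0, 0, 0, 0, 0, 0⟩ ⟨0, 0, 0, 0, 0, 0, 253154, 0, 0, 0, 0, 0, 0⟩ ⟨0, 0, 0, 0, 0, 0, 253154, 0, 0, 0, 0, 0, 0⟩ ⟨0, 0, 0, 0, 0, 0, 401566, 0, 0, 0, 0, 0, 0⟩ ⟨0, 0, 0, 0, 0, 0, 401566, 0, 0, 0, 0, 0, 0⟩ ⟨343, -1, -3440, 6, 46, 607, 970553, 0, 0, 0, 0, 0, 0⟩))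
    (.leaf (.box ⟨226, -3, -2048, 18, 123, 352, 197898, 0, 0, 0, 0, 0, 0⟩ ⟨0, 0, 0, 0, 0, 0, 271219, 0, 0, 0, 0, 0, 0⟩ ⟨0, 0, 0, 0, 0, 0, 271219, 0, 0, 0, 0, 0, 0⟩ ⟨0, 0, 0, 0, 0, 0, 430844, 0, 0, 0, 0, 0, 0⟩ ⟨0, 0, 0, 0, 0, 0, 430844, 0, 0, 0, 0, 0, 0⟩ ⟨428, -1, -4046, 6, 47, 719, 1047132, 0, 0, 0, 0, 0, 0⟩)))
    (.s0
    (.s3
    (.leaf (.box ⟨150, -2, -2048, 14, 124, 346, 206722, 0, 0, 0, 0, 0, 0⟩ ⟨0, 0, 0, 0, 0, 0, 276618, 0, 0, 0, 0, 0, 0⟩ ⟨0, 0, 0, 0, 0, 0, 276618, 0, 0, 0, 0, 0, 0⟩ ⟨0, 0, 0, 0, 0, 0, 417925, 0, 0, 0, 0, 0, 0⟩ ⟨0, 0, 0, 0, 0, 0, 417925, 0, 0, 0, 0, 0, 0⟩ ⟨235, -1, -3401, 6, 51, 590, 854368, 0, 0, 0, 0, 0, 0⟩))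
    (.leaf (.box ⟨152, -2, -2048, 14, 120, 350, 219120, 0, 0, 0, 0, 0, 0⟩ ⟨0, 0, 0, 0, 0, 0, 287380, 0, 0, 0, 0, 0, 0⟩ ⟨0, 0, 0, 0, 0, 0, 287380, 0, 0, 0, 0, 0, 0⟩ ⟨0, 0, 0, 0, 0, 0, 417411, 0, 0, 0, 0, 0, 0⟩ ⟨0, 0, 0, 0, 0, 0, 417411, 0, 0, 0, 0, 0, 0⟩ ⟨195, -1, -2801, 6, 48, 489, 762350, 0, 0, 0, 0, 0, 0⟩)))
    (.leaf (.box ⟨163, -2, -2048, 17, 119, 371, 234269, 0, 0, 0, 0, 0, 0⟩ ⟨0, 0, 0, 0, 0, 0, 309163, 0, 0, 0, 0, 0, 0⟩ ⟨0, 0, 0, 0, 0, 0, 309163, 0, 0, 0, 0, 0, 0⟩ ⟨0, 0, 0, 0, 0, 0, 454444, 0, 0, 0, 0, 0, 0⟩ ⟨0, 0, 0, 0, 0, 0, 454444, 0, 0, 0, 0, 0, 0⟩ ⟨172, -1, -2397, 6, 38, 440, 857308, 0, 0, 0, 0, 0, 0⟩))))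

/-- A piece of the tree. -/
noncomputable def tree72 : Tree LeafX :=
  .s2
    (.s3
    (.s1
    (.s3
    (.leaf (.box ⟨134, -2, -2048, 9, 143, 355, 184910, 0, 0, 0, 0, 0, 0⟩ ⟨0, 0, 0, 0, 0, 0, 258251, 0, 0, 0, 0, 0, 0⟩ ⟨0, 0, 0, 0, 0, 0, 258251, 0, 0, 0, 0, 0, 0⟩ ⟨0, 0, 0, 0, 0, 0, 428010, 0, 0, 0, 0, 0, 0⟩ ⟨0, 0, 0, 0, 0, 0, 428010, 0, 0, 0, 0, 0, 0⟩ ⟨457, -1, -7655, 6, 81, 1383, 1249102, 0, 0, 0, 0, 0, 0⟩))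
    (.leaf (.box ⟨133, -2, -2048, 9, 141, 355, 190183, 0, 0, 0, 0, 0, 0⟩ ⟨0, 0, 0, 0, 0, 0, 263487, 0, 0, 0, 0, 0, 0⟩ ⟨0, 0, 0, 0, 0, 0, 263487, 0, 0, 0, 0, 0, 0⟩ ⟨0, 0, 0, 0, 0, 0, 428738, 0, 0, 0, 0, 0, 0⟩ ⟨0, 0, 0, 0, 0, 0, 428738, 0, 0, 0, 0, 0, 0⟩ ⟨400, -1, -6313, 6, 74, 1146, 1149959, 0, 0, 0, 0, 0, 0⟩)))
    (.s2
    (.s3
    (.leaf (.box ⟨129, -3, -2048, 8, 157, 375, 186822, 0, 0, 0, 0, 0, 0⟩ ⟨0, 0, 0, 0, 0, 0, 261346, 0, 0, 0, 0, 0, 0⟩ ⟨0, 0, 0, 0, 0, 0, 261346, 0, 0, 0, 0, 0, 0⟩ ⟨0, 0, 0, 0, 0, 0, 434781, 0, 0, 0, 0, 0, 0⟩ ⟨0, 0, 0, 0, 0, 0, 434781, 0, 0, 0, 0, 0, 0⟩ ⟨485, -2, -8161, 6, 93, 1569, 1292531, 0, 0, 0, 0, 0, 0⟩))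
    (.leaf (.box ⟨128, -3, -2048, 9, 154, 376, 192629, 0, 0, 0, 0, 0, 0⟩ ⟨0, 0, 0, 0, 0, 0, 267328, 0, 0, 0, 0, 0, 0⟩ ⟨0, 0, 0, 0, 0, 0, 267328, 0, 0, 0, 0, 0, 0⟩ ⟨0, 0, 0, 0, 0, 0, 436657, 0, 0, 0, 0, 0, 0⟩ ⟨0, 0, 0, 0, 0, 0, 436657, 0, 0, 0, 0, 0, 0⟩ ⟨500, -2, -8368, 6, 105, 1617, 1191140, 0, 0, 0, 0, 0, 0⟩)))
    (.s0
    (.s1
    (.leaf (.box ⟨78, -3, -2048, 8, 144, 365, 194544, 0, 0, 0, 0, 0, 0⟩ ⟨0, 0, 0, 0, 0, 0, 270682, 0, 0, 0, 0, 0, 0⟩ ⟨0, 0, 0, 0, 0, 0, 270682, 0, 0, 0, 0, 0, 0⟩ ⟨0, 0, 0, 0, 0, 0, 444736, 0, 0, 0, 0, 0, 0⟩ ⟨0, 0, 0, 0, 0, 0, 444736, 0, 0, 0, 0, 0, 0⟩ ⟨436, -2, -13226, 6, 149, 2462, 1245825, 0, 0, 0, 0, 0, 0⟩))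
    (.leaf (.box ⟨73, -3, -2048, 8, 151, 374, 197184, 0, 0, 0, 0, 0, 0⟩ ⟨0, 0, 0, 0, 0, 0, 274573, 0, 0, 0, 0, 0, 0⟩ ⟨0, 0, 0, 0, 0, 0, 274573, 0, 0, 0, 0, 0, 0⟩ ⟨0, 0, 0, 0, 0, 0, 451949, 0, 0, 0, 0, 0, 0⟩ ⟨0, 0, 0, 0, 0, 0, 451949, 0, 0, 0, 0, 0, 0⟩ ⟨305, -2, -9283, 6, 108, 1774, 1276717, 0, 0, 0, 0, 0, 0⟩)))
    (.leaf (.box ⟨100, -4, -2048, 12, 145, 379, 207134, 0, 0, 0, 0, 0, 0⟩ ⟨0, 0, 0, 0, 0, 0, 288127, 0, 0, 0, 0, 0, 0⟩ ⟨0, 0, 0, 0, 0, 0, 288127, 0, 0, 0, 0, 0, 0⟩ ⟨0, 0, 0, 0, 0, 0, 473129, 0, 0, 0, 0, 0, 0⟩ ⟨0, 0, 0, 0, 0, 0, 473129, 0, 0, 0, 0, 0, 0⟩ ⟨329, -2, -7375, 6, 83, 1419, 1321894, 0, 0, 0, 0, 0, 0⟩)))))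
    (.s1
    (.s0
    (.s2
    (.leaf (.box ⟨110, -2, -2048, 7, 140, 356, 195716, 0, 0, 0, 0, 0, 0⟩ ⟨0, 0, 0, 0, 0, 0, 267199, 0, 0, 0, 0, 0, 0⟩ ⟨0, 0, 0, 0, 0, 0, 267199, 0, 0, 0, 0, 0, 0⟩ ⟨0, 0, 0, 0, 0, 0, 420940, 0, 0, 0, 0, 0, 0⟩ ⟨0, 0, 0, 0, 0, 0, 420940, 0, 0, 0, 0, 0, 0⟩ ⟨398, -1, -7554, 6, 105, 1370, 991342, 0, 0, 0, 0, 0, 0⟩))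
    (.leaf (.box ⟨103, -2, -2048, 7, 132, 355, 202927, 0, 0, 0, 0, 0, 0⟩ ⟨0, 0, 0, 0, 0, 0, 277215, 0, 0, 0, 0, 0, 0⟩ ⟨0, 0, 0, 0, 0, 0, 277215, 0, 0, 0, 0, 0, 0⟩ ⟨0, 0, 0, 0, 0, 0, 437303, 0, 0, 0, 0, 0, 0⟩ ⟨0, 0, 0, 0, 0, 0, 437303, 0, 0, 0, 0, 0, 0⟩ ⟨349, -2, -7120, 6, 92, 1282, 1035002, 0, 0, 0, 0, 0, 0⟩)))
    (.leaf (.box ⟨111, -2, -2048, 9, 135, 365, 208172, 0, 0, 0, 0, 0, 0⟩ ⟨0, 0, 0, 0, 0, 0, 284107, 0, 0, 0, 0, 0, 0⟩ ⟨0, 0, 0, 0, 0, 0, 284107, 0, 0, 0, 0, 0, 0⟩ ⟨0, 0, 0, 0, 0, 0, 447248, 0, 0, 0, 0, 0, 0⟩ ⟨0, 0, 0, 0, 0, 0, 447248, 0, 0, 0, 0, 0, 0⟩ ⟨325, -1, -6186, 6, 83, 1142, 1050437, 0, 0, 0, 0, 0, 0⟩)))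
    (.s0
    (.s2
    (.s1
    (.leaf (.box ⟨92, -2, -2338, 6, 169, 425, 198723, 0, 0, 0, 0, 0, 0⟩ ⟨0, 0, 0, 0, 0, 0, 271810, 0, 0, 0, 0, 0, 0⟩ ⟨0, 0, 0, 0, 0, 0, 271810, 0, 0, 0, 0, 0, 0⟩ ⟨0, 0, 0, 0, 0, 0, 429929, 0, 0, 0, 0, 0, 0⟩ ⟨0, 0, 0, 0, 0, 0, 429929, 0, 0, 0, 0, 0, 0⟩ ⟨381, -2, -10210, 6, 146, 1940, 1027872, 0, 0, 0, 0, 0, 0⟩))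
    (.leaf (.box ⟨83, -2, -2048, 6, 154, 383, 201368, 0, 0, 0, 0, 0, 0⟩ ⟨0, 0, 0, 0, 0, 0, 275667, 0, 0, 0, 0, 0, 0⟩ ⟨0, 0, 0, 0, 0, 0, 275667, 0, 0, 0, 0, 0, 0⟩ ⟨0, 0, 0, 0, 0, 0, 436853, 0, 0, 0, 0, 0, 0⟩ ⟨0, 0, 0, 0, 0, 0, 436853, 0, 0, 0, 0, 0, 0⟩ ⟨354, -2, -9147, 6, 134, 1791, 1051922, 0, 0, 0, 0, 0, 0⟩)))
    (.s1
    (.leaf (.box ⟨77, -2, -2090, 6, 143, 377, 207252, 0, 0, 0, 0, 0, 0⟩ ⟨0, 0, 0, 0, 0, 0, 283633, 0, 0, 0, 0, 0, 0⟩ ⟨0, 0, 0, 0, 0, 0, 283633, 0, 0, 0, 0, 0, 0⟩ ⟨0, 0, 0, 0, 0, 0, 449170, 0, 0, 0, 0, 0, 0⟩ ⟨0, 0, 0, 0, 0, 0, 449170, 0, 0, 0, 0, 0, 0⟩ ⟨255, -2, -7641, 6, 102, 1436, 1078782, 0, 0, 0, 0, 0, 0⟩))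
    (.leaf (.box ⟨75, -3, -2048, 7, 147, 380, 210555, 0, 0, 0, 0, 0, 0⟩ ⟨0, 0, 0, 0, 0, 0, 288395, 0, 0, 0, 0, 0, 0⟩ ⟨0, 0, 0, 0, 0, 0, 288395, 0, 0, 0, 0, 0, 0⟩ ⟨0, 0, 0, 0, 0, 0, 457540, 0, 0, 0, 0, 0, 0⟩ ⟨0, 0, 0, 0, 0, 0, 457540, 0, 0, 0, 0, 0, 0⟩ ⟨238, -2, -7049, 6, 98, 1360, 1106529, 0, 0, 0, 0, 0, 0⟩))))
    (.s2
    (.leaf (.box ⟨112, -3, -2048, 9, 148, 387, 210966, 0, 0, 0, 0, 0, 0⟩ ⟨0, 0, 0, 0, 0, 0, 288471, 0, 0, 0, 0, 0, 0⟩ ⟨0, 0, 0, 0, 0, 0, 288471, 0, 0, 0, 0, 0, 0⟩ ⟨0, 0, 0, 0, 0, 0, 455992, 0, 0, 0, 0, 0, 0⟩ ⟨0, 0, 0, 0, 0, 0, 455992, 0, 0, 0, 0, 0, 0⟩ ⟨346, -2, -6858, 6, 98, 1346, 1087568, 0, 0, 0, 0, 0, 0⟩))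
    (.leaf (.box ⟨99, -4, -2048, 11, 141, 384, 220505, 0, 0, 0, 0, 0, 0⟩ ⟨0, 0, 0, 0, 0, 0, 301691, 0, 0, 0, 0, 0, 0⟩ ⟨0, 0, 0, 0, 0, 0, 301691, 0, 0, 0, 0, 0, 0⟩ ⟨0, 0, 0, 0, 0, 0, 477495, 0, 0, 0, 0, 0, 0⟩ ⟨0, 0, 0, 0, 0, 0, 477495, 0, 0, 0, 0, 0, 0⟩ ⟨277, -2, -6080, 6, 82, 1180, 1144327, 0, 0, 0, 0, 0, 0⟩))))))
    (.s1
    (.s3
    (.leaf (.box ⟨140, -4, -2048, 14, 131, 357, 199285, 0, 0, 0, 0, 0, 0⟩ ⟨0, 0, 0, 0, 0, 0, 276919, 0, 0, 0, 0, 0, 0⟩ ⟨0, 0, 0, 0, 0, 0, 276919, 0, 0, 0, 0, 0, 0⟩ ⟨0, 0, 0, 0, 0, 0, 453636, 0, 0, 0, 0, 0, 0⟩ ⟨0, 0, 0, 0, 0, 0, 453636, 0, 0, 0, 0, 0, 0⟩ ⟨337, -2, -5624, 6, 58, 1015, 1253681, 0, 0, 0, 0, 0, 0⟩))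
    (.leaf (.box ⟨141, -3, -2048, 13, 128, 361, 211514, 0, 0, 0, 0, 0, 0⟩ ⟨0, 0, 0, 0, 0, 0, 289069, 0, 0, 0, 0, 0, 0⟩ ⟨0, 0, 0, 0, 0, 0, 289069, 0, 0, 0, 0, 0, 0⟩ ⟨0, 0, 0, 0, 0, 0, 456422, 0, 0, 0, 0, 0, 0⟩ ⟨0, 0, 0, 0, 0, 0, 456422, 0, 0, 0, 0, 0, 0⟩ ⟨339, -2, -5793, 6, 72, 1053, 1083979, 0, 0, 0, 0, 0, 0⟩)))
    (.s3
    (.leaf (.box ⟨119, -7, -2048, 19, 147, 372, 203832, 0, 0, 0, 0, 0, 0⟩ ⟨0, 0, 0, 0, 0, 0, 283696, 0, 0, 0, 0, 0, 0⟩ ⟨0, 0, 0, 0, 0, 0, 283696, 0, 0, 0, 0, 0, 0⟩ ⟨0, 0, 0, 0, 0, 0, 466460, 0, 0, 0, 0, 0, 0⟩ ⟨0, 0, 0, 0, 0, 0, 466460, 0, 0, 0, 0, 0, 0⟩ ⟨229, -2, -4280, 6, 49, 809, 1311113, 0, 0, 0, 0, 0, 0⟩))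
    (.leaf (.box ⟨123, -7, -2048, 19, 142, 375, 217350, 0, 0, 0, 0, 0, 0⟩ ⟨0, 0, 0, 0, 0, 0, 297553, 0, 0, 0, 0, 0, 0⟩ ⟨0, 0, 0, 0, 0, 0, 297553, 0, 0, 0, 0, 0, 0⟩ ⟨0, 0, 0, 0, 0, 0, 471561, 0, 0, 0, 0, 0, 0⟩ ⟨0, 0, 0, 0, 0, 0, 471561, 0, 0, 0, 0, 0, 0⟩ ⟨181, -2, -3388, 6, 46, 646, 1135731, 0, 0, 0, 0, 0, 0⟩))))

/-- A piece of the tree. -/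
noncomputable def tree73 : Tree LeafX :=
  .s1
    (.s2
    (.leaf (.box ⟨146, -2, -2048, 13, 139, 380, 209789, 0, 0, 0, 0, 0, 0⟩ ⟨0, 0, 0, 0, 0, 0, 287538, 0, 0, 0, 0, 0, 0⟩ ⟨0, 0, 0, 0, 0, 0, 287538, 0, 0, 0, 0, 0, 0⟩ ⟨0, 0, 0, 0, 0, 0, 456848, 0, 0, 0, 0, 0, 0⟩ ⟨0, 0, 0, 0, 0, 0, 456848, 0, 0, 0, 0, 0, 0⟩ ⟨299, -1, -4748, 6, 62, 904, 1111083, 0, 0, 0, 0, 0, 0⟩))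
    (.leaf (.box ⟨152, -3, -2048, 14, 125, 383, 227553, 0, 0, 0, 0, 0, 0⟩ ⟨0, 0, 0, 0, 0, 0, 312282, 0, 0, 0, 0, 0, 0⟩ ⟨0, 0, 0, 0, 0, 0, 312282, 0, 0, 0, 0, 0, 0⟩ ⟨0, 0, 0, 0, 0, 0, 497538, 0, 0, 0, 0, 0, 0⟩ ⟨0, 0, 0, 0, 0, 0, 497538, 0, 0, 0, 0, 0, 0⟩ ⟨275, -1, -4148, 6, 48, 791, 1223156, 0, 0, 0, 0, 0, 0⟩)))
    (.s3
    (.leaf (.box ⟨129, -6, -2048, 21, 159, 395, 211209, 0, 0, 0, 0, 0, 0⟩ ⟨0, 0, 0, 0, 0, 0, 293543, 0, 0, 0, 0, 0, 0⟩ ⟨0, 0, 0, 0, 0, 0, 293543, 0, 0, 0, 0, 0, 0⟩ ⟨0, 0, 0, 0, 0, 0, 481077, 0, 0, 0, 0, 0, 0⟩ ⟨0, 0, 0, 0, 0, 0, 481077, 0, 0, 0, 0, 0, 0⟩ ⟨237, -2, -3765, 6, 45, 748, 1332119, 0, 0, 0, 0, 0, 0⟩))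
    (.s2
    (.leaf (.box ⟨130, -3, -2048, 11, 146, 401, 224290, 0, 0, 0, 0, 0, 0⟩ ⟨0, 0, 0, 0, 0, 0, 306591, 0, 0, 0, 0, 0, 0⟩ ⟨0, 0, 0, 0, 0, 0, 306591, 0, 0, 0, 0, 0, 0⟩ ⟨0, 0, 0, 0, 0, 0, 484297, 0, 0, 0, 0, 0, 0⟩ ⟨0, 0, 0, 0, 0, 0, 484297, 0, 0, 0, 0, 0, 0⟩ ⟨357, -2, -5930, 6, 83, 1193, 1152049, 0, 0, 0, 0, 0, 0⟩))
    (.leaf (.box ⟨117, -5, -2048, 17, 135, 399, 247299, 0, 0, 0, 0, 0, 0⟩ ⟨0, 0, 0, 0, 0, 0, 338387, 0, 0, 0, 0, 0, 0⟩ ⟨0, 0, 0, 0, 0, 0, 338387, 0, 0, 0, 0, 0, 0⟩ ⟨0, 0, 0, 0, 0, 0, 535701, 0, 0, 0, 0, 0, 0⟩ ⟨0, 0, 0, 0, 0, 0, 535701, 0, 0, 0, 0, 0, 0⟩ ⟨189, -2, -3647, 6, 47, 727, 1284971, 0, 0, 0, 0, 0, 0⟩))))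

/-- A piece of the tree. -/
noncomputable def tree74 : Tree LeafX :=
  .s3
    (.s1
    (.s0
    (.s2
    (.leaf (.box ⟨112, -2, -2048, 6, 136, 361, 207646, 0, 0, 0, 0, 0, 0⟩ ⟨0, 0, 0, 0, 0, 0, 278370, 0, 0, 0, 0, 0, 0⟩ ⟨0, 0, 0, 0, 0, 0, 278370, 0, 0, 0, 0, 0, 0⟩ ⟨0, 0, 0, 0, 0, 0, 422156, 0, 0, 0, 0, 0, 0⟩ ⟨0, 0, 0, 0, 0, 0, 422156, 0, 0, 0, 0, 0, 0⟩ ⟨330, -1, -6185, 6, 100, 1132, 873171, 0, 0, 0, 0, 0, 0⟩))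
    (.leaf (.box ⟨105, -2, -2048, 7, 128, 360, 215639, 0, 0, 0, 0, 0, 0⟩ ⟨0, 0, 0, 0, 0, 0, 289269, 0, 0, 0, 0, 0, 0⟩ ⟨0, 0, 0, 0, 0, 0, 289269, 0, 0, 0, 0, 0, 0⟩ ⟨0, 0, 0, 0, 0, 0, 439252, 0, 0, 0, 0, 0, 0⟩ ⟨0, 0, 0, 0, 0, 0, 439252, 0, 0, 0, 0, 0, 0⟩ ⟨362, -2, -7482, 6, 113, 1358, 912231, 0, 0, 0, 0, 0, 0⟩)))
    (.leaf (.box ⟨113, -2, -2048, 9, 132, 370, 220669, 0, 0, 0, 0, 0, 0⟩ ⟨0, 0, 0, 0, 0, 0, 295725, 0, 0, 0, 0, 0, 0⟩ ⟨0, 0, 0, 0, 0, 0, 295725, 0, 0, 0, 0, 0, 0⟩ ⟨0, 0, 0, 0, 0, 0, 448156, 0, 0, 0, 0, 0, 0⟩ ⟨0, 0, 0, 0, 0, 0, 448156, 0, 0, 0, 0, 0, 0⟩ ⟨303, -1, -5527, 6, 86, 1029, 924884, 0, 0, 0, 0, 0, 0⟩)))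
    (.s0
    (.s2
    (.s1
    (.leaf (.box ⟨106, -2, -2647, 6, 185, 489, 211861, 0, 0, 0, 0, 0, 0⟩ ⟨0, 0, 0, 0, 0, 0, 284563, 0, 0, 0, 0, 0, 0⟩ ⟨0, 0, 0, 0, 0, 0, 284563, 0, 0, 0, 0, 0, 0⟩ ⟨0, 0, 0, 0, 0, 0, 433227, 0, 0, 0, 0, 0, 0⟩ ⟨0, 0, 0, 0, 0, 0, 433227, 0, 0, 0, 0, 0, 0⟩ ⟨367, -2, -9586, 6, 160, 1841, 907150, 0, 0, 0, 0, 0, 0⟩))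
    (.leaf (.box ⟨84, -2, -2048, 7, 149, 390, 215180, 0, 0, 0, 0, 0, 0⟩ ⟨0, 0, 0, 0, 0, 0, 289277, 0, 0, 0, 0, 0, 0⟩ ⟨0, 0, 0, 0, 0, 0, 289277, 0, 0, 0, 0, 0, 0⟩ ⟨0, 0, 0, 0, 0, 0, 441204, 0, 0, 0, 0, 0, 0⟩ ⟨0, 0, 0, 0, 0, 0, 441204, 0, 0, 0, 0, 0, 0⟩ ⟨300, -2, -7586, 6, 130, 1501, 929235, 0, 0, 0, 0, 0, 0⟩)))
    (.s1
    (.leaf (.box ⟨79, -2, -2195, 6, 146, 402, 221281, 0, 0, 0, 0, 0, 0⟩ ⟨0, 0, 0, 0, 0, 0, 297384, 0, 0, 0, 0, 0, 0⟩ ⟨0, 0, 0, 0, 0, 0, 297384, 0, 0, 0, 0, 0, 0⟩ ⟨0, 0, 0, 0, 0, 0, 453271, 0, 0, 0, 0, 0, 0⟩ ⟨0, 0, 0, 0, 0, 0, 453271, 0, 0, 0, 0, 0, 0⟩ ⟨301, -2, -8750, 6, 137, 1659, 952645, 0, 0, 0, 0, 0, 0⟩))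
    (.leaf (.box ⟨76, -3, -2048, 7, 142, 386, 225315, 0, 0, 0, 0, 0, 0⟩ ⟨0, 0, 0, 0, 0, 0, 303063, 0, 0, 0, 0, 0, 0⟩ ⟨0, 0, 0, 0, 0, 0, 303063, 0, 0, 0, 0, 0, 0⟩ ⟨0, 0, 0, 0, 0, 0, 462736, 0, 0, 0, 0, 0, 0⟩ ⟨0, 0, 0, 0, 0, 0, 462736, 0, 0, 0, 0, 0, 0⟩ ⟨218, -2, -6407, 6, 104, 1249, 978017, 0, 0, 0, 0, 0, 0⟩))))
    (.s3
    (.leaf (.box ⟨154, -3, -2048, 10, 146, 399, 224739, 0, 0, 0, 0, 0, 0⟩ ⟨0, 0, 0, 0, 0, 0, 303719, 0, 0, 0, 0, 0, 0⟩ ⟨0, 0, 0, 0, 0, 0, 303719, 0, 0, 0, 0, 0, 0⟩ ⟨0, 0, 0, 0, 0, 0, 468286, 0, 0, 0, 0, 0, 0⟩ ⟨0, 0, 0, 0, 0, 0, 468286, 0, 0, 0, 0, 0, 0⟩ ⟨323, -2, -5933, 6, 92, 1166, 1022108, 0, 0, 0, 0, 0, 0⟩))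
    (.leaf (.box ⟨156, -3, -2048, 10, 147, 402, 232177, 0, 0, 0, 0, 0, 0⟩ ⟨0, 0, 0, 0, 0, 0, 310768, 0, 0, 0, 0, 0, 0⟩ ⟨0, 0, 0, 0, 0, 0, 310768, 0, 0, 0, 0, 0, 0⟩ ⟨0, 0, 0, 0, 0, 0, 469789, 0, 0, 0, 0, 0, 0⟩ ⟨0, 0, 0, 0, 0, 0, 469789, 0, 0, 0, 0, 0, 0⟩ ⟨268, -2, -4810, 6, 81, 950, 962098, 0, 0, 0, 0, 0, 0⟩)))))
    (.s1
    (.s0
    (.s2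
    (.leaf (.box ⟨115, -3, -2048, 11, 127, 367, 220884, 0, 0, 0, 0, 0, 0⟩ ⟨0, 0, 0, 0, 0, 0, 290268, 0, 0, 0, 0, 0, 0⟩ ⟨0, 0, 0, 0, 0, 0, 290268, 0, 0, 0, 0, 0, 0⟩ ⟨0, 0, 0, 0, 0, 0, 423203, 0, 0, 0, 0, 0, 0⟩ ⟨0, 0, 0, 0, 0, 0, 423203, 0, 0, 0, 0, 0, 0⟩ ⟨303, -1, -5486, 6, 103, 1014, 780781, 0, 0, 0, 0, 0, 0⟩))
    (.leaf (.box ⟨107, -2, -2048, 7, 125, 365, 229747, 0, 0, 0, 0, 0, 0⟩ ⟨0, 0, 0, 0, 0, 0, 302105, 0, 0, 0, 0, 0, 0⟩ ⟨0, 0, 0, 0, 0, 0, 302105, 0, 0, 0, 0, 0, 0⟩ ⟨0, 0, 0, 0, 0, 0, 440992, 0, 0, 0, 0, 0, 0⟩ ⟨0, 0, 0, 0, 0, 0, 440992, 0, 0, 0, 0, 0, 0⟩ ⟨368, -2, -7377, 6, 128, 1351, 816245, 0, 0, 0, 0, 0, 0⟩)))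
    (.s3
    (.leaf (.box ⟨104, -2, -2048, 8, 127, 374, 234536, 0, 0, 0, 0, 0, 0⟩ ⟨0, 0, 0, 0, 0, 0, 310203, 0, 0, 0, 0, 0, 0⟩ ⟨0, 0, 0, 0, 0, 0, 310203, 0, 0, 0, 0, 0, 0⟩ ⟨0, 0, 0, 0, 0, 0, 457947, 0, 0, 0, 0, 0, 0⟩ ⟨0, 0, 0, 0, 0, 0, 457947, 0, 0, 0, 0, 0, 0⟩ ⟨294, -1, -5367, 6, 91, 1006, 874413, 0, 0, 0, 0, 0, 0⟩))
    (.leaf (.box ⟨111, -2, -2048, 8, 126, 376, 241103, 0, 0, 0, 0, 0, 0⟩ ⟨0, 0, 0, 0, 0, 0, 315155, 0, 0, 0, 0, 0, 0⟩ ⟨0, 0, 0, 0, 0, 0, 315155, 0, 0, 0, 0, 0, 0⟩ ⟨0, 0, 0, 0, 0, 0, 454857, 0, 0, 0, 0, 0, 0⟩ ⟨0, 0, 0, 0, 0, 0, 454857, 0, 0, 0, 0, 0, 0⟩ ⟨283, -1, -5214, 6, 96, 981, 817032, 0, 0, 0, 0, 0, 0⟩))))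
    (.s0
    (.s2
    (.s1
    (.leaf (.box ⟨113, -2, -2748, 6, 186, 516, 226440, 0, 0, 0, 0, 0, 0⟩ ⟨0, 0, 0, 0, 0, 0, 298130, 0, 0, 0, 0, 0, 0⟩ ⟨0, 0, 0, 0, 0, 0, 298130, 0, 0, 0, 0, 0, 0⟩ ⟨0, 0, 0, 0, 0, 0, 436243, 0, 0, 0, 0, 0, 0⟩ ⟨0, 0, 0, 0, 0, 0, 436243, 0, 0, 0, 0, 0, 0⟩ ⟨308, -2, -7781, 6, 150, 1510, 812766, 0, 0, 0, 0, 0, 0⟩))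
    (.leaf (.box ⟨84, -2, -2048, 6, 144, 396, 230507, 0, 0, 0, 0, 0, 0⟩ ⟨0, 0, 0, 0, 0, 0, 303750, 0, 0, 0, 0, 0, 0⟩ ⟨0, 0, 0, 0, 0, 0, 303750, 0, 0, 0, 0, 0, 0⟩ ⟨0, 0, 0, 0, 0, 0, 445215, 0, 0, 0, 0, 0, 0⟩ ⟨0, 0, 0, 0, 0, 0, 445215, 0, 0, 0, 0, 0, 0⟩ ⟨233, -2, -6000, 6, 118, 1201, 833314, 0, 0, 0, 0, 0, 0⟩)))
    (.s1
    (.leaf (.box ⟨76, -2, -2093, 6, 134, 389, 236848, 0, 0, 0, 0, 0, 0⟩ ⟨0, 0, 0, 0, 0, 0, 312008, 0, 0, 0, 0, 0, 0⟩ ⟨0, 0, 0, 0, 0, 0, 312008, 0, 0, 0, 0, 0, 0⟩ ⟨0, 0, 0, 0, 0, 0, 457041, 0, 0, 0, 0, 0, 0⟩ ⟨0, 0, 0, 0, 0, 0, 457041, 0, 0, 0, 0, 0, 0⟩ ⟨267, -2, -7756, 6, 140, 1485, 854026, 0, 0, 0, 0, 0, 0⟩))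
    (.leaf (.box ⟨77, -3, -2048, 7, 137, 392, 241695, 0, 0, 0, 0, 0, 0⟩ ⟨0, 0, 0, 0, 0, 0, 318660, 0, 0, 0, 0, 0, 0⟩ ⟨0, 0, 0, 0, 0, 0, 318660, 0, 0, 0, 0, 0, 0⟩ ⟨0, 0, 0, 0, 0, 0, 467542, 0, 0, 0, 0, 0, 0⟩ ⟨0, 0, 0, 0, 0, 0, 467542, 0, 0, 0, 0, 0, 0⟩ ⟨184, -2, -5420, 6, 101, 1067, 877542, 0, 0, 0, 0, 0, 0⟩))))
    (.s2
    (.leaf (.box ⟨160, -4, -2048, 11, 139, 408, 240022, 0, 0, 0, 0, 0, 0⟩ ⟨0, 0, 0, 0, 0, 0, 315919, 0, 0, 0, 0, 0, 0⟩ ⟨0, 0, 0, 0, 0, 0, 315919, 0, 0, 0, 0, 0, 0⟩ ⟨0, 0, 0, 0, 0, 0, 462008, 0, 0, 0, 0, 0, 0⟩ ⟨0, 0, 0, 0, 0, 0, 462008, 0, 0, 0, 0, 0, 0⟩ ⟨321, -2, -5957, 6, 115, 1193, 859434, 0, 0, 0, 0, 0, 0⟩))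
    (.s1
    (.leaf (.box ⟨82, -2, -2317, 6, 145, 441, 251645, 0, 0, 0, 0, 0, 0⟩ ⟨0, 0, 0, 0, 0, 0, 331413, 0, 0, 0, 0, 0, 0⟩ ⟨0, 0, 0, 0, 0, 0, 331413, 0, 0, 0, 0, 0, 0⟩ ⟨0, 0, 0, 0, 0, 0, 485218, 0, 0, 0, 0, 0, 0⟩ ⟨0, 0, 0, 0, 0, 0, 485218, 0, 0, 0, 0, 0, 0⟩ ⟨271, -2, -7971, 6, 140, 1555, 905410, 0, 0, 0, 0, 0, 0⟩))
    (.leaf (.box ⟨72, -3, -2048, 8, 133, 400, 256634, 0, 0, 0, 0, 0, 0⟩ ⟨0, 0, 0, 0, 0, 0, 338273, 0, 0, 0, 0, 0, 0⟩ ⟨0, 0, 0, 0, 0, 0, 338273, 0, 0, 0, 0, 0, 0⟩ ⟨0, 0, 0, 0, 0, 0, 496081, 0, 0, 0, 0, 0, 0⟩ ⟨0, 0, 0, 0, 0, 0, 496081, 0, 0, 0, 0, 0, 0⟩ ⟨198, -2, -5880, 6, 107, 1178, 929885, 0, 0, 0, 0, 0, 0⟩))))))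

/-- A piece of the tree. -/
noncomputable def tree75 : Tree LeafX :=
  .s1
    (.s3
    (.leaf (.box ⟨134, -3, -2048, 11, 125, 365, 225014, 0, 0, 0, 0, 0, 0⟩ ⟨0, 0, 0, 0, 0, 0, 301977, 0, 0, 0, 0, 0, 0⟩ ⟨0, 0, 0, 0, 0, 0, 301977, 0, 0, 0, 0, 0, 0⟩ ⟨0, 0, 0, 0, 0, 0, 458956, 0, 0, 0, 0, 0, 0⟩ ⟨0, 0, 0, 0, 0, 0, 458956, 0, 0, 0, 0, 0, 0⟩ ⟨261, -2, -4474, 6, 65, 819, 955834, 0, 0, 0, 0, 0, 0⟩))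
    (.leaf (.box ⟨135, -3, -2048, 11, 121, 370, 239995, 0, 0, 0, 0, 0, 0⟩ ⟨0, 0, 0, 0, 0, 0, 315716, 0, 0, 0, 0, 0, 0⟩ ⟨0, 0, 0, 0, 0, 0, 315716, 0, 0, 0, 0, 0, 0⟩ ⟨0, 0, 0, 0, 0, 0, 461243, 0, 0, 0, 0, 0, 0⟩ ⟨0, 0, 0, 0, 0, 0, 461243, 0, 0, 0, 0, 0, 0⟩ ⟨238, -2, -3982, 6, 67, 735, 855646, 0, 0, 0, 0, 0, 0⟩)))
    (.s3
    (.s3
    (.leaf (.box ⟨110, -6, -2048, 17, 137, 381, 232274, 0, 0, 0, 0, 0, 0⟩ ⟨0, 0, 0, 0, 0, 0, 314261, 0, 0, 0, 0, 0, 0⟩ ⟨0, 0, 0, 0, 0, 0, 314261, 0, 0, 0, 0, 0, 0⟩ ⟨0, 0, 0, 0, 0, 0, 485700, 0, 0, 0, 0, 0, 0⟩ ⟨0, 0, 0, 0, 0, 0, 485700, 0, 0, 0, 0, 0, 0⟩ ⟨163, -2, -3226, 6, 48, 619, 1068722, 0, 0, 0, 0, 0, 0⟩))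
    (.leaf (.box ⟨113, -6, -2048, 17, 135, 384, 240333, 0, 0, 0, 0, 0, 0⟩ ⟨0, 0, 0, 0, 0, 0, 322054, 0, 0, 0, 0, 0, 0⟩ ⟨0, 0, 0, 0, 0, 0, 322054, 0, 0, 0, 0, 0, 0⟩ ⟨0, 0, 0, 0, 0, 0, 487983, 0, 0, 0, 0, 0, 0⟩ ⟨0, 0, 0, 0, 0, 0, 487983, 0, 0, 0, 0, 0, 0⟩ ⟨167, -2, -3307, 6, 53, 637, 1006607, 0, 0, 0, 0, 0, 0⟩)))
    (.s3
    (.leaf (.box ⟨110, -6, -2048, 16, 133, 386, 248834, 0, 0, 0, 0, 0, 0⟩ ⟨0, 0, 0, 0, 0, 0, 330096, 0, 0, 0, 0, 0, 0⟩ ⟨0, 0, 0, 0, 0, 0, 330096, 0, 0, 0, 0, 0, 0⟩ ⟨0, 0, 0, 0, 0, 0, 490169, 0, 0, 0, 0, 0, 0⟩ ⟨0, 0, 0, 0, 0, 0, 490169, 0, 0, 0, 0, 0, 0⟩ ⟨137, -2, -2601, 6, 45, 503, 951658, 0, 0, 0, 0, 0, 0⟩))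
    (.leaf (.box ⟨116, -6, -2048, 18, 130, 389, 257780, 0, 0, 0, 0, 0, 0⟩ ⟨0, 0, 0, 0, 0, 0, 338339, 0, 0, 0, 0, 0, 0⟩ ⟨0, 0, 0, 0, 0, 0, 338339, 0, 0, 0, 0, 0, 0⟩ ⟨0, 0, 0, 0, 0, 0, 492136, 0, 0, 0, 0, 0, 0⟩ ⟨0, 0, 0, 0, 0, 0, 492136, 0, 0, 0, 0, 0, 0⟩ ⟨127, -2, -2495, 6, 46, 485, 902280, 0, 0, 0, 0, 0, 0⟩))))

/-- A piece of the tree. -/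
noncomputable def tree76 : Tree LeafX :=
  .s2
    (.s3
    (.s1
    (.leaf (.box ⟨131, -2, -2048, 10, 130, 386, 234831, 0, 0, 0, 0, 0, 0⟩ ⟨0, 0, 0, 0, 0, 0, 314585, 0, 0, 0, 0, 0, 0⟩ ⟨0, 0, 0, 0, 0, 0, 314585, 0, 0, 0, 0, 0, 0⟩ ⟨0, 0, 0, 0, 0, 0, 476372, 0, 0, 0, 0, 0, 0⟩ ⟨0, 0, 0, 0, 0, 0, 476372, 0, 0, 0, 0, 0, 0⟩ ⟨305, -1, -4938, 6, 76, 951, 980763, 0, 0, 0, 0, 0, 0⟩))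
    (.leaf (.box ⟨132, -3, -2048, 11, 142, 406, 238730, 0, 0, 0, 0, 0, 0⟩ ⟨0, 0, 0, 0, 0, 0, 320450, 0, 0, 0, 0, 0, 0⟩ ⟨0, 0, 0, 0, 0, 0, 320450, 0, 0, 0, 0, 0, 0⟩ ⟨0, 0, 0, 0, 0, 0, 487235, 0, 0, 0, 0, 0, 0⟩ ⟨0, 0, 0, 0, 0, 0, 487235, 0, 0, 0, 0, 0, 0⟩ ⟨316, -2, -5176, 6, 85, 1050, 1016074, 0, 0, 0, 0, 0, 0⟩)))
    (.s1
    (.leaf (.box ⟨130, -2, -2048, 10, 127, 390, 249359, 0, 0, 0, 0, 0, 0⟩ ⟨0, 0, 0, 0, 0, 0, 327451, 0, 0, 0, 0, 0, 0⟩ ⟨0, 0, 0, 0, 0, 0, 327451, 0, 0, 0, 0, 0, 0⟩ ⟨0, 0, 0, 0, 0, 0, 476756, 0, 0, 0, 0, 0, 0⟩ ⟨0, 0, 0, 0, 0, 0, 476756, 0, 0, 0, 0, 0, 0⟩ ⟨297, -1, -4765, 6, 85, 925, 876327, 0, 0, 0, 0, 0, 0⟩))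
    (.s2
    (.leaf (.box ⟨130, -2, -2048, 7, 138, 412, 254754, 0, 0, 0, 0, 0, 0⟩ ⟨0, 0, 0, 0, 0, 0, 335200, 0, 0, 0, 0, 0, 0⟩ ⟨0, 0, 0, 0, 0, 0, 335200, 0, 0, 0, 0, 0, 0⟩ ⟨0, 0, 0, 0, 0, 0, 489898, 0, 0, 0, 0, 0, 0⟩ ⟨0, 0, 0, 0, 0, 0, 489898, 0, 0, 0, 0, 0, 0⟩ ⟨346, -2, -5655, 6, 108, 1165, 909764, 0, 0, 0, 0, 0, 0⟩))
    (.leaf (.box ⟨120, -3, -2048, 10, 130, 409, 267641, 0, 0, 0, 0, 0, 0⟩ ⟨0, 0, 0, 0, 0, 0, 352376, 0, 0, 0, 0, 0, 0⟩ ⟨0, 0, 0, 0, 0, 0, 352376, 0, 0, 0, 0, 0, 0⟩ ⟨0, 0, 0, 0, 0, 0, 515622, 0, 0, 0, 0, 0, 0⟩ ⟨0, 0, 0, 0, 0, 0, 515622, 0, 0, 0, 0, 0, 0⟩ ⟨263, -2, -4730, 6, 85, 963, 960671, 0, 0, 0, 0, 0, 0⟩)))))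
    (.s1
    (.leaf (.box ⟨144, -3, -2048, 13, 119, 389, 256192, 0, 0, 0, 0, 0, 0⟩ ⟨0, 0, 0, 0, 0, 0, 339231, 0, 0, 0, 0, 0, 0⟩ ⟨0, 0, 0, 0, 0, 0, 339231, 0, 0, 0, 0, 0, 0⟩ ⟨0, 0, 0, 0, 0, 0, 501914, 0, 0, 0, 0, 0, 0⟩ ⟨0, 0, 0, 0, 0, 0, 501914, 0, 0, 0, 0, 0, 0⟩ ⟨191, -1, -3002, 6, 47, 580, 964412, 0, 0, 0, 0, 0, 0⟩))
    (.leaf (.box ⟨174, -6, -2048, 19, 136, 414, 263930, 0, 0, 0, 0, 0, 0⟩ ⟨0, 0, 0, 0, 0, 0, 350177, 0, 0, 0, 0, 0, 0⟩ ⟨0, 0, 0, 0, 0, 0, 350177, 0, 0, 0, 0, 0, 0⟩ ⟨0, 0, 0, 0, 0, 0, 520152, 0, 0, 0, 0, 0, 0⟩ ⟨0, 0, 0, 0, 0, 0, 520152, 0, 0, 0, 0, 0, 0⟩ ⟨143, -2, -2518, 6, 43, 507, 1010780, 0, 0, 0, 0, 0, 0⟩)))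

/-- A piece of the tree. -/
noncomputable def tree77 : Tree LeafX :=
  .s0
    (.s1
    (.leaf (.box ⟨343, -1, -2048, 46, 117, 402, 239444, 0, 0, 0, 0, 0, 0⟩ ⟨0, 0, 0, 0, 0, 0, 319458, 0, 0, 0, 0, 0, 0⟩ ⟨0, 0, 0, 0, 0, 0, 319458, 0, 0, 0, 0, 0, 0⟩ ⟨0, 0, 0, 0, 0, 0, 479784, 0, 0, 0, 0, 0, 0⟩ ⟨0, 0, 0, 0, 0, 0, 479784, 0, 0, 0, 0, 0, 0⟩ ⟨305, 0, -2048, 11, 29, 402, 963170, 0, 0, 0, 0, 0, 0⟩))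
    (.s3
    (.leaf (.box ⟨280, -8, -2048, 41, 137, 429, 238878, 0, 0, 0, 0, 0, 0⟩ ⟨0, 0, 0, 0, 0, 0, 327179, 0, 0, 0, 0, 0, 0⟩ ⟨0, 0, 0, 0, 0, 0, 327179, 0, 0, 0, 0, 0, 0⟩ ⟨0, 0, 0, 0, 0, 0, 519041, 0, 0, 0, 0, 0, 0⟩ ⟨0, 0, 0, 0, 0, 0, 519041, 0, 0, 0, 0, 0, 0⟩ ⟨255, -2, -2048, 8, 26, 433, 1254978, 0, 0, 0, 0, 0, 0⟩))
    (.s2
    (.leaf (.box ⟨235, -5, -2048, 28, 129, 424, 266829, 0, 0, 0, 0, 0, 0⟩ ⟨0, 0, 0, 0, 0, 0, 352510, 0, 0, 0, 0, 0, 0⟩ ⟨0, 0, 0, 0, 0, 0, 352510, 0, 0, 0, 0, 0, 0⟩ ⟨0, 0, 0, 0, 0, 0, 519240, 0, 0, 0, 0, 0, 0⟩ ⟨0, 0, 0, 0, 0, 0, 519240, 0, 0, 0, 0, 0, 0⟩ ⟨238, -1, -2048, 7, 36, 437, 985238, 0, 0, 0, 0, 0, 0⟩))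
    (.leaf (.box ⟨262, -7, -2048, 34, 120, 437, 292378, 0, 0, 0, 0, 0, 0⟩ ⟨0, 0, 0, 0, 0, 0, 386870, 0, 0, 0, 0, 0, 0⟩ ⟨0, 0, 0, 0, 0, 0, 386870, 0, 0, 0, 0, 0, 0⟩ ⟨0, 0, 0, 0, 0, 0, 571603, 0, 0, 0, 0, 0, 0⟩ ⟨0, 0, 0, 0, 0, 0, 571603, 0, 0, 0, 0, 0, 0⟩ ⟨242, -2, -2048, 9, 32, 439, 1093986, 0, 0, 0, 0, 0, 0⟩)))))
    (.leaf (.box ⟨434, -3, -2048, 82, 98, 481, 310932, 0, 0, 0, 0, 0, 0⟩ ⟨0, 0, 0, 0, 0, 0, 414140, 0, 0, 0, 0, 0, 0⟩ ⟨0, 0, 0, 0, 0, 0, 414140, 0, 0, 0, 0, 0, 0⟩ ⟨0, 0, 0, 0, 0, 0, 619906, 0, 0, 0, 0, 0, 0⟩ ⟨0, 0, 0, 0, 0, 0, 619906, 0, 0, 0, 0, 0, 0⟩ ⟨410, -1, -2048, 21, 25, 475, 1232053, 0, 0, 0, 0, 0, 0⟩))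

/-- A piece of the tree. -/
noncomputable def tree78 : Tree LeafX :=
  .s2
    (.leaf (.box ⟨525, -23, -2048, 77, 267, 458, 145628, 0, 0, 0, 0, 0, 0⟩ ⟨0, 0, 0, 0, 0, 0, 195088, 0, 0, 0, 0, 0, 0⟩ ⟨0, 0, 0, 0, 0, 0, 195088, 0, 0, 0, 0, 0, 0⟩ ⟨0, 0, 0, 0, 0, 0, 295421, 0, 0, 0, 0, 0, 0⟩ ⟨0, 0, 0, 0, 0, 0, 295421, 0, 0, 0, 0, 0, 0⟩ ⟨448, -7, -2048, 22, 68, 499, 608235, 0, 0, 0, 0, 0, 0⟩))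
    (.s0
    (.s2
    (.leaf (.box ⟨321, -18, -2048, 35, 235, 411, 147551, 0, 0, 0, 0, 0, 0⟩ ⟨0, 0, 0, 0, 0, 0, 198364, 0, 0, 0, 0, 0, 0⟩ ⟨0, 0, 0, 0, 0, 0, 198364, 0, 0, 0, 0, 0, 0⟩ ⟨0, 0, 0, 0, 0, 0, 302554, 0, 0, 0, 0, 0, 0⟩ ⟨0, 0, 0, 0, 0, 0, 302554, 0, 0, 0, 0, 0, 0⟩ ⟨297, -4, -2048, 8, 56, 454, 637290, 0, 0, 0, 0, 0, 0⟩))
    (.s0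
    (.s1
    (.leaf (.box ⟨241, -10, -2048, 18, 206, 393, 150267, 0, 0, 0, 0, 0, 0⟩ ⟨0, 0, 0, 0, 0, 0, 202273, 0, 0, 0, 0, 0, 0⟩ ⟨0, 0, 0, 0, 0, 0, 202273, 0, 0, 0, 0, 0, 0⟩ ⟨0, 0, 0, 0, 0, 0, 309327, 0, 0, 0, 0, 0, 0⟩ ⟨0, 0, 0, 0, 0, 0, 309327, 0, 0, 0, 0, 0, 0⟩ ⟨215, -3, -2295, 6, 54, 469, 657104, 0, 0, 0, 0, 0, 0⟩))
    (.leaf (.box ⟨204, -16, -2048, 26, 217, 415, 155856, 0, 0, 0, 0, 0, 0⟩ ⟨0, 0, 0, 0, 0, 0, 210194, 0, 0, 0, 0, 0, 0⟩ ⟨0, 0, 0, 0, 0, 0, 210194, 0, 0, 0, 0, 0, 0⟩ ⟨0, 0, 0, 0, 0, 0, 322699, 0, 0, 0, 0, 0, 0⟩ ⟨0, 0, 0, 0, 0, 0, 322699, 0, 0, 0, 0, 0, 0⟩ ⟨177, -4, -2048, 7, 50, 445, 694343, 0, 0, 0, 0, 0, 0⟩)))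
    (.s3
    (.leaf (.box ⟨260, -14, -2048, 26, 195, 393, 165706, 0, 0, 0, 0, 0, 0⟩ ⟨0, 0, 0, 0, 0, 0, 228089, 0, 0, 0, 0, 0, 0⟩ ⟨0, 0, 0, 0, 0, 0, 228089, 0, 0, 0, 0, 0, 0⟩ ⟨0, 0, 0, 0, 0, 0, 365797, 0, 0, 0, 0, 0, 0⟩ ⟨0, 0, 0, 0, 0, 0, 365797, 0, 0, 0, 0, 0, 0⟩ ⟨273, -3, -2563, 6, 47, 540, 923154, 0, 0, 0, 0, 0, 0⟩))
    (.leaf (.box ⟨250, -13, -2048, 25, 189, 422, 189341, 0, 0, 0, 0, 0, 0⟩ ⟨0, 0, 0, 0, 0, 0, 251494, 0, 0, 0, 0, 0, 0⟩ ⟨0, 0, 0, 0, 0, 0, 251494, 0, 0, 0, 0, 0, 0⟩ ⟨0, 0, 0, 0, 0, 0, 374391, 0, 0, 0, 0, 0, 0⟩ ⟨0, 0, 0, 0, 0, 0, 374391, 0, 0, 0, 0, 0, 0⟩ ⟨221, -4, -2048, 7, 50, 443, 732183, 0, 0, 0, 0, 0, 0⟩)))))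
    (.s2
    (.leaf (.box ⟨338, -10, -2048, 28, 216, 445, 178994, 0, 0, 0, 0, 0, 0⟩ ⟨0, 0, 0, 0, 0, 0, 240353, 0, 0, 0, 0, 0, 0⟩ ⟨0, 0, 0, 0, 0, 0, 240353, 0, 0, 0, 0, 0, 0⟩ ⟨0, 0, 0, 0, 0, 0, 365721, 0, 0, 0, 0, 0, 0⟩ ⟨0, 0, 0, 0, 0, 0, 365721, 0, 0, 0, 0, 0, 0⟩ ⟨301, -3, -2048, 8, 52, 469, 764465, 0, 0, 0, 0, 0, 0⟩))
    (.s3
    (.leaf (.box ⟨266, -11, -2048, 27, 194, 416, 184370, 0, 0, 0, 0, 0, 0⟩ ⟨0, 0, 0, 0, 0, 0, 253654, 0, 0, 0, 0, 0, 0⟩ ⟨0, 0, 0, 0, 0, 0, 253654, 0, 0, 0, 0, 0, 0⟩ ⟨0, 0, 0, 0, 0, 0, 406354, 0, 0, 0, 0, 0, 0⟩ ⟨0, 0, 0, 0, 0, 0, 406354, 0, 0, 0, 0, 0, 0⟩ ⟨262, -2, -2206, 6, 40, 482, 1021006, 0, 0, 0, 0, 0, 0⟩))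
    (.s2
    (.leaf (.box ⟨272, -9, -2048, 24, 188, 445, 210143, 0, 0, 0, 0, 0, 0⟩ ⟨0, 0, 0, 0, 0, 0, 278982, 0, 0, 0, 0, 0, 0⟩ ⟨0, 0, 0, 0, 0, 0, 278982, 0, 0, 0, 0, 0, 0⟩ ⟨0, 0, 0, 0, 0, 0, 414891, 0, 0, 0, 0, 0, 0⟩ ⟨0, 0, 0, 0, 0, 0, 414891, 0, 0, 0, 0, 0, 0⟩ ⟨235, -3, -2048, 7, 50, 462, 809007, 0, 0, 0, 0, 0, 0⟩))
    (.leaf (.box ⟨243, -10, -2048, 25, 179, 428, 214452, 0, 0, 0, 0, 0, 0⟩ ⟨0, 0, 0, 0, 0, 0, 284835, 0, 0, 0, 0, 0, 0⟩ ⟨0, 0, 0, 0, 0, 0, 284835, 0, 0, 0, 0, 0, 0⟩ ⟨0, 0, 0, 0, 0, 0, 423985, 0, 0, 0, 0, 0, 0⟩ ⟨0, 0, 0, 0, 0, 0, 423985, 0, 0, 0, 0, 0, 0⟩ ⟨227, -3, -2048, 7, 48, 455, 828954, 0, 0, 0, 0, 0, 0⟩))))))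

/-- A piece of the tree. -/
noncomputable def tree79 : Tree LeafX :=
  .s3
    (.s2
    (.s0
    (.s1
    (.leaf (.box ⟨156, -12, -2048, 21, 184, 367, 154196, 0, 0, 0, 0, 0, 0⟩ ⟨0, 0, 0, 0, 0, 0, 212472, 0, 0, 0, 0, 0, 0⟩ ⟨0, 0, 0, 0, 0, 0, 212472, 0, 0, 0, 0, 0, 0⟩ ⟨0, 0, 0, 0, 0, 0, 341559, 0, 0, 0, 0, 0, 0⟩ ⟨0, 0, 0, 0, 0, 0, 341559, 0, 0, 0, 0, 0, 0⟩ ⟨215, -3, -2926, 6, 48, 563, 870315, 0, 0, 0, 0, 0, 0⟩))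
    (.leaf (.box ⟨151, -17, -2048, 26, 201, 388, 160381, 0, 0, 0, 0, 0, 0⟩ ⟨0, 0, 0, 0, 0, 0, 221326, 0, 0, 0, 0, 0, 0⟩ ⟨0, 0, 0, 0, 0, 0, 221326, 0, 0, 0, 0, 0, 0⟩ ⟨0, 0, 0, 0, 0, 0, 356978, 0, 0, 0, 0, 0, 0⟩ ⟨0, 0, 0, 0, 0, 0, 356978, 0, 0, 0, 0, 0, 0⟩ ⟨186, -4, -2576, 6, 45, 522, 922193, 0, 0, 0, 0, 0, 0⟩)))
    (.s3
    (.s1
    (.leaf (.box ⟨132, -10, -2048, 18, 179, 369, 162274, 0, 0, 0, 0, 0, 0⟩ ⟨0, 0, 0, 0, 0, 0, 226147, 0, 0, 0, 0, 0, 0⟩ ⟨0, 0, 0, 0, 0, 0, 226147, 0, 0, 0, 0, 0, 0⟩ ⟨0, 0, 0, 0, 0, 0, 372938, 0, 0, 0, 0, 0, 0⟩ ⟨0, 0, 0, 0, 0, 0, 372938, 0, 0, 0, 0, 0, 0⟩ ⟨271, -3, -4193, 6, 58, 808, 1062794, 0, 0, 0, 0, 0, 0⟩))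
    (.leaf (.box ⟨135, -14, -2048, 23, 196, 389, 168664, 0, 0, 0, 0, 0, 0⟩ ⟨0, 0, 0, 0, 0, 0, 235364, 0, 0, 0, 0, 0, 0⟩ ⟨0, 0, 0, 0, 0, 0, 235364, 0, 0, 0, 0, 0, 0⟩ ⟨0, 0, 0, 0, 0, 0, 389327, 0, 0, 0, 0, 0, 0⟩ ⟨0, 0, 0, 0, 0, 0, 389327, 0, 0, 0, 0, 0, 0⟩ ⟨211, -4, -3158, 6, 46, 641, 1125697, 0, 0, 0, 0, 0, 0⟩)))
    (.s1
    (.leaf (.box ⟨137, -9, -2048, 17, 174, 376, 173702, 0, 0, 0, 0, 0, 0⟩ ⟨0, 0, 0, 0, 0, 0, 238122, 0, 0, 0, 0, 0, 0⟩ ⟨0, 0, 0, 0, 0, 0, 238122, 0, 0, 0, 0, 0, 0⟩ ⟨0, 0, 0, 0, 0, 0, 378490, 0, 0, 0, 0, 0, 0⟩ ⟨0, 0, 0, 0, 0, 0, 378490, 0, 0, 0, 0, 0, 0⟩ ⟨221, -3, -3310, 6, 54, 645, 921977, 0, 0, 0, 0, 0, 0⟩))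
    (.leaf (.box ⟨135, -14, -2048, 23, 188, 397, 181280, 0, 0, 0, 0, 0, 0⟩ ⟨0, 0, 0, 0, 0, 0, 248857, 0, 0, 0, 0, 0, 0⟩ ⟨0, 0, 0, 0, 0, 0, 248857, 0, 0, 0, 0, 0, 0⟩ ⟨0, 0, 0, 0, 0, 0, 396758, 0, 0, 0, 0, 0, 0⟩ ⟨0, 0, 0, 0, 0, 0, 396758, 0, 0, 0, 0, 0, 0⟩ ⟨168, -4, -2540, 6, 44, 522, 978014, 0, 0, 0, 0, 0, 0⟩)))))
    (.s0
    (.leaf (.box ⟨175, -21, -2048, 37, 189, 365, 165688, 0, 0, 0, 0, 0, 0⟩ ⟨0, 0, 0, 0, 0, 0, 228472, 0, 0, 0, 0, 0, 0⟩ ⟨0, 0, 0, 0, 0, 0, 228472, 0, 0, 0, 0, 0, 0⟩ ⟨0, 0, 0, 0, 0, 0, 367868, 0, 0, 0, 0, 0, 0⟩ ⟨0, 0, 0, 0, 0, 0, 367868, 0, 0, 0, 0, 0, 0⟩ ⟨166, -4, -2048, 7, 34, 390, 943543, 0, 0, 0, 0, 0, 0⟩))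
    (.s1
    (.leaf (.box ⟨120, -12, -2048, 24, 174, 363, 175632, 0, 0, 0, 0, 0, 0⟩ ⟨0, 0, 0, 0, 0, 0, 242157, 0, 0, 0, 0, 0, 0⟩ ⟨0, 0, 0, 0, 0, 0, 242157, 0, 0, 0, 0, 0, 0⟩ ⟨0, 0, 0, 0, 0, 0, 389803, 0, 0, 0, 0, 0, 0⟩ ⟨0, 0, 0, 0, 0, 0, 389803, 0, 0, 0, 0, 0, 0⟩ ⟨147, -3, -2728, 6, 42, 512, 998764, 0, 0, 0, 0, 0, 0⟩))
    (.leaf (.box ⟨118, -16, -2048, 28, 191, 378, 183812, 0, 0, 0, 0, 0, 0⟩ ⟨0, 0, 0, 0, 0, 0, 253797, 0, 0, 0, 0, 0, 0⟩ ⟨0, 0, 0, 0, 0, 0, 253797, 0, 0, 0, 0, 0, 0⟩ ⟨0, 0, 0, 0, 0, 0, 409837, 0, 0, 0, 0, 0, 0⟩ ⟨0, 0, 0, 0, 0, 0, 409837, 0, 0, 0, 0, 0, 0⟩ ⟨125, -3, -2321, 6, 38, 456, 1064032, 0, 0, 0, 0, 0, 0⟩)))))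
    (.s2
    (.s0
    (.leaf (.box ⟨228, -24, -2048, 39, 202, 393, 177156, 0, 0, 0, 0, 0, 0⟩ ⟨0, 0, 0, 0, 0, 0, 235569, 0, 0, 0, 0, 0, 0⟩ ⟨0, 0, 0, 0, 0, 0, 235569, 0, 0, 0, 0, 0, 0⟩ ⟨0, 0, 0, 0, 0, 0, 351450, 0, 0, 0, 0, 0, 0⟩ ⟨0, 0, 0, 0, 0, 0, 351450, 0, 0, 0, 0, 0, 0⟩ ⟨210, -5, -2048, 9, 48, 414, 691722, 0, 0, 0, 0, 0, 0⟩))
    (.s3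
    (.leaf (.box ⟨203, -21, -2048, 37, 197, 394, 186318, 0, 0, 0, 0, 0, 0⟩ ⟨0, 0, 0, 0, 0, 0, 250829, 0, 0, 0, 0, 0, 0⟩ ⟨0, 0, 0, 0, 0, 0, 250829, 0, 0, 0, 0, 0, 0⟩ ⟨0, 0, 0, 0, 0, 0, 383671, 0, 0, 0, 0, 0, 0⟩ ⟨0, 0, 0, 0, 0, 0, 383671, 0, 0, 0, 0, 0, 0⟩ ⟨186, -4, -2048, 7, 42, 415, 815644, 0, 0, 0, 0, 0, 0⟩))
    (.leaf (.box ⟨196, -17, -2048, 29, 172, 402, 200317, 0, 0, 0, 0, 0, 0⟩ ⟨0, 0, 0, 0, 0, 0, 264333, 0, 0, 0, 0, 0, 0⟩ ⟨0, 0, 0, 0, 0, 0, 264333, 0, 0, 0, 0, 0, 0⟩ ⟨0, 0, 0, 0, 0, 0, 388479, 0, 0, 0, 0, 0, 0⟩ ⟨0, 0, 0, 0, 0, 0, 388479, 0, 0, 0, 0, 0, 0⟩ ⟨195, -5, -2048, 8, 48, 420, 732508, 0, 0, 0, 0, 0, 0⟩))))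
    (.s1
    (.leaf (.box ⟨138, -13, -2048, 25, 171, 371, 191077, 0, 0, 0, 0, 0, 0⟩ ⟨0, 0, 0, 0, 0, 0, 254268, 0, 0, 0, 0, 0, 0⟩ ⟨0, 0, 0, 0, 0, 0, 254268, 0, 0, 0, 0, 0, 0⟩ ⟨0, 0, 0, 0, 0, 0, 379907, 0, 0, 0, 0, 0, 0⟩ ⟨0, 0, 0, 0, 0, 0, 379907, 0, 0, 0, 0, 0, 0⟩ ⟨120, -4, -2048, 8, 43, 391, 750980, 0, 0, 0, 0, 0, 0⟩))
    (.leaf (.box ⟨131, -18, -2048, 31, 183, 391, 201534, 0, 0, 0, 0, 0, 0⟩ ⟨0, 0, 0, 0, 0, 0, 268573, 0, 0, 0, 0, 0, 0⟩ ⟨0, 0, 0, 0, 0, 0, 268573, 0, 0, 0, 0, 0, 0⟩ ⟨0, 0, 0, 0, 0, 0, 402440, 0, 0, 0, 0, 0, 0⟩ ⟨0, 0, 0, 0, 0, 0, 402440, 0, 0, 0, 0, 0, 0⟩ ⟨114, -4, -2048, 8, 47, 410, 802375, 0, 0, 0, 0, 0, 0⟩))))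

/-- A piece of the tree. -/
noncomputable def tree80 : Tree LeafX :=
  .s2
    (.s0
    (.s3
    (.s2
    (.leaf (.box ⟨179, -14, -2048, 25, 187, 388, 171152, 0, 0, 0, 0, 0, 0⟩ ⟨0, 0, 0, 0, 0, 0, 238485, 0, 0, 0, 0, 0, 0⟩ ⟨0, 0, 0, 0, 0, 0, 238485, 0, 0, 0, 0, 0, 0⟩ ⟨0, 0, 0, 0, 0, 0, 393154, 0, 0, 0, 0, 0, 0⟩ ⟨0, 0, 0, 0, 0, 0, 393154, 0, 0, 0, 0, 0, 0⟩ ⟨239, -3, -2935, 6, 42, 593, 1118658, 0, 0, 0, 0, 0, 0⟩))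
    (.s1
    (.leaf (.box ⟨105, -8, -2048, 15, 171, 372, 178080, 0, 0, 0, 0, 0, 0⟩ ⟨0, 0, 0, 0, 0, 0, 248246, 0, 0, 0, 0, 0, 0⟩ ⟨0, 0, 0, 0, 0, 0, 248246, 0, 0, 0, 0, 0, 0⟩ ⟨0, 0, 0, 0, 0, 0, 409656, 0, 0, 0, 0, 0, 0⟩ ⟨0, 0, 0, 0, 0, 0, 409656, 0, 0, 0, 0, 0, 0⟩ ⟨213, -3, -4482, 6, 58, 864, 1171121, 0, 0, 0, 0, 0, 0⟩))
    (.leaf (.box ⟨100, -11, -2048, 19, 186, 390, 185590, 0, 0, 0, 0, 0, 0⟩ ⟨0, 0, 0, 0, 0, 0, 259054, 0, 0, 0, 0, 0, 0⟩ ⟨0, 0, 0, 0, 0, 0, 259054, 0, 0, 0, 0, 0, 0⟩ ⟨0, 0, 0, 0, 0, 0, 428784, 0, 0, 0, 0, 0, 0⟩ ⟨0, 0, 0, 0, 0, 0, 428784, 0, 0, 0, 0, 0, 0⟩ ⟨182, -3, -4107, 6, 57, 830, 1243531, 0, 0, 0, 0, 0, 0⟩))))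
    (.s2
    (.leaf (.box ⟨181, -13, -2048, 23, 182, 396, 183125, 0, 0, 0, 0, 0, 0⟩ ⟨0, 0, 0, 0, 0, 0, 251002, 0, 0, 0, 0, 0, 0⟩ ⟨0, 0, 0, 0, 0, 0, 251002, 0, 0, 0, 0, 0, 0⟩ ⟨0, 0, 0, 0, 0, 0, 398830, 0, 0, 0, 0, 0, 0⟩ ⟨0, 0, 0, 0, 0, 0, 398830, 0, 0, 0, 0, 0, 0⟩ ⟨210, -3, -2502, 6, 43, 512, 970281, 0, 0, 0, 0, 0, 0⟩))
    (.leaf (.box ⟨194, -15, -2048, 28, 187, 393, 190790, 0, 0, 0, 0, 0, 0⟩ ⟨0, 0, 0, 0, 0, 0, 261628, 0, 0, 0, 0, 0, 0⟩ ⟨0, 0, 0, 0, 0, 0, 261628, 0, 0, 0, 0, 0, 0⟩ ⟨0, 0, 0, 0, 0, 0, 416129, 0, 0, 0, 0, 0, 0⟩ ⟨0, 0, 0, 0, 0, 0, 416129, 0, 0, 0, 0, 0, 0⟩ ⟨175, -3, -2250, 6, 37, 449, 1016287, 0, 0, 0, 0, 0, 0⟩))))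
    (.s3
    (.s1
    (.s2
    (.leaf (.box ⟨114, -6, -2048, 12, 173, 385, 180883, 0, 0, 0, 0, 0, 0⟩ ⟨0, 0, 0, 0, 0, 0, 251999, 0, 0, 0, 0, 0, 0⟩ ⟨0, 0, 0, 0, 0, 0, 251999, 0, 0, 0, 0, 0, 0⟩ ⟨0, 0, 0, 0, 0, 0, 415262, 0, 0, 0, 0, 0, 0⟩ ⟨0, 0, 0, 0, 0, 0, 415262, 0, 0, 0, 0, 0, 0⟩ ⟨302, -3, -5771, 6, 77, 1149, 1179291, 0, 0, 0, 0, 0, 0⟩))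
    (.leaf (.box ⟨102, -7, -2048, 15, 167, 379, 188785, 0, 0, 0, 0, 0, 0⟩ ⟨0, 0, 0, 0, 0, 0, 263126, 0, 0, 0, 0, 0, 0⟩ ⟨0, 0, 0, 0, 0, 0, 263126, 0, 0, 0, 0, 0, 0⟩ ⟨0, 0, 0, 0, 0, 0, 434045, 0, 0, 0, 0, 0, 0⟩ ⟨0, 0, 0, 0, 0, 0, 434045, 0, 0, 0, 0, 0, 0⟩ ⟨240, -3, -5137, 6, 65, 1004, 1238621, 0, 0, 0, 0, 0, 0⟩)))
    (.leaf (.box ⟨130, -14, -2048, 24, 189, 401, 187639, 0, 0, 0, 0, 0, 0⟩ ⟨0, 0, 0, 0, 0, 0, 261772, 0, 0, 0, 0, 0, 0⟩ ⟨0, 0, 0, 0, 0, 0, 261772, 0, 0, 0, 0, 0, 0⟩ ⟨0, 0, 0, 0, 0, 0, 432740, 0, 0, 0, 0, 0, 0⟩ ⟨0, 0, 0, 0, 0, 0, 432740, 0, 0, 0, 0, 0, 0⟩ ⟨192, -3, -3000, 6, 43, 620, 1247511, 0, 0, 0, 0, 0, 0⟩)))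
    (.s2
    (.leaf (.box ⟨184, -13, -2048, 25, 178, 403, 193433, 0, 0, 0, 0, 0, 0⟩ ⟨0, 0, 0, 0, 0, 0, 265081, 0, 0, 0, 0, 0, 0⟩ ⟨0, 0, 0, 0, 0, 0, 265081, 0, 0, 0, 0, 0, 0⟩ ⟨0, 0, 0, 0, 0, 0, 421028, 0, 0, 0, 0, 0, 0⟩ ⟨0, 0, 0, 0, 0, 0, 421028, 0, 0, 0, 0, 0, 0⟩ ⟨209, -3, -2619, 6, 44, 541, 1022664, 0, 0, 0, 0, 0, 0⟩))
    (.s1
    (.leaf (.box ⟨103, -7, -2048, 14, 162, 386, 202157, 0, 0, 0, 0, 0, 0⟩ ⟨0, 0, 0, 0, 0, 0, 277167, 0, 0, 0, 0, 0, 0⟩ ⟨0, 0, 0, 0, 0, 0, 277167, 0, 0, 0, 0, 0, 0⟩ ⟨0, 0, 0, 0, 0, 0, 440678, 0, 0, 0, 0, 0, 0⟩ ⟨0, 0, 0, 0, 0, 0, 440678, 0, 0, 0, 0, 0, 0⟩ ⟨221, -3, -4748, 6, 72, 937, 1074661, 0, 0, 0, 0, 0, 0⟩))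
    (.leaf (.box ⟨98, -10, -2048, 18, 176, 404, 211382, 0, 0, 0, 0, 0, 0⟩ ⟨0, 0, 0, 0, 0, 0, 290219, 0, 0, 0, 0, 0, 0⟩ ⟨0, 0, 0, 0, 0, 0, 290219, 0, 0, 0, 0, 0, 0⟩ ⟨0, 0, 0, 0, 0, 0, 462838, 0, 0, 0, 0, 0, 0⟩ ⟨0, 0, 0, 0, 0, 0, 462838, 0, 0, 0, 0, 0, 0⟩ ⟨164, -3, -3646, 6, 59, 754, 1142213, 0, 0, 0, 0, 0, 0⟩))))))
    (.s1
    (.s0
    (.leaf (.box ⟨115, -12, -2048, 25, 171, 369, 186491, 0, 0, 0, 0, 0, 0⟩ ⟨0, 0, 0, 0, 0, 0, 257091, 0, 0, 0, 0, 0, 0⟩ ⟨0, 0, 0, 0, 0, 0, 257091, 0, 0, 0, 0, 0, 0⟩ ⟨0, 0, 0, 0, 0, 0, 413708, 0, 0, 0, 0, 0, 0⟩ ⟨0, 0, 0, 0, 0, 0, 413708, 0, 0, 0, 0, 0, 0⟩ ⟨148, -3, -2843, 6, 43, 540, 1058583, 0, 0, 0, 0, 0, 0⟩))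
    (.s3
    (.leaf (.box ⟨96, -11, -2048, 23, 165, 374, 198314, 0, 0, 0, 0, 0, 0⟩ ⟨0, 0, 0, 0, 0, 0, 276470, 0, 0, 0, 0, 0, 0⟩ ⟨0, 0, 0, 0, 0, 0, 276470, 0, 0, 0, 0, 0, 0⟩ ⟨0, 0, 0, 0, 0, 0, 456297, 0, 0, 0, 0, 0, 0⟩ ⟨0, 0, 0, 0, 0, 0, 456297, 0, 0, 0, 0, 0, 0⟩ ⟨141, -3, -3152, 6, 39, 605, 1305347, 0, 0, 0, 0, 0, 0⟩))
    (.leaf (.box ⟨98, -10, -2048, 22, 160, 380, 212508, 0, 0, 0, 0, 0, 0⟩ ⟨0, 0, 0, 0, 0, 0, 291428, 0, 0, 0, 0, 0, 0⟩ ⟨0, 0, 0, 0, 0, 0, 291428, 0, 0, 0, 0, 0, 0⟩ ⟨0, 0, 0, 0, 0, 0, 463595, 0, 0, 0, 0, 0, 0⟩ ⟨0, 0, 0, 0, 0, 0, 463595, 0, 0, 0, 0, 0, 0⟩ ⟨125, -3, -2774, 6, 41, 538, 1132847, 0, 0, 0, 0, 0, 0⟩))))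
    (.leaf (.box ⟨168, -24, -2048, 45, 187, 394, 195102, 0, 0, 0, 0, 0, 0⟩ ⟨0, 0, 0, 0, 0, 0, 269349, 0, 0, 0, 0, 0, 0⟩ ⟨0, 0, 0, 0, 0, 0, 269349, 0, 0, 0, 0, 0, 0⟩ ⟨0, 0, 0, 0, 0, 0, 434821, 0, 0, 0, 0, 0, 0⟩ ⟨0, 0, 0, 0, 0, 0, 434821, 0, 0, 0, 0, 0, 0⟩ ⟨116, -3, -2048, 6, 34, 409, 1127480, 0, 0, 0, 0, 0, 0⟩)))

theorem parts2 :
    (runPathS conQ supQ (fun n Qs i d x => leafR conQ seg n Qs i d x) [.d0 true, .d1 true, .d2 false, .d0 false, .d1 false, .d2 false, .d0 false, .d1 false, .d0 false, .d3 true, .d0 false, .d1 false, .d3 true] tree56 0 0 0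
      (joinS (lay.B * lay.size) rootQ) = true) ∧
    (runPathS conQ supQ (fun n Qs i d x => leafR conQ seg n Qs i d x) [.d0 true, .d1 true, .d2 false, .d0 false, .d1 false, .d2 false, .d0 false, .d1 false, .d0 false, .d3 true, .d0 false, .d1 true] tree57 0 0 0
      (joinS (lay.B * lay.size) rootQ) = true) ∧
    (runPathS conQ supQ (fun n Qs i d x => leafR conQ seg n Qs i d x) [.d0 true, .d1 true, .d2 false, .d0 false, .d1 false, .d2 false, .d0 false, .d1 false, .d0 false, .d3 true, .d0 true] tree58 0 0 0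
      (joinS (lay.B * lay.size) rootQ) = true) ∧
    (runPathS conQ supQ (fun n Qs i d x => leafR conQ seg n Qs i d x) [.d0 true, .d1 true, .d2 false, .d0 false, .d1 false, .d2 false, .d0 false, .d1 false, .d0 true] tree59 0 0 0
      (joinS (lay.B * lay.size) rootQ) = true) ∧
    (runPathS conQ supQ (fun n Qs i d x => leafR conQ seg n Qs i d x) [.d0 true, .d1 true, .d2 false, .d0 false, .d1 false, .d2 false, .d0 false, .d1 true, .d0 false, .d2 false] tree60 0 0 0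
      (joinS (lay.B * lay.size) rootQ) = true) ∧
    (runPathS conQ supQ (fun n Qs i d x => leafR conQ seg n Qs i d x) [.d0 true, .d1 true, .d2 false, .d0 false, .d1 false, .d2 false, .d0 false, .d1 true, .d0 false, .d2 true, .d0 false] tree61 0 0 0
      (joinS (lay.B * lay.size) rootQ) = true) ∧
    (runPathS conQ supQ (fun n Qs i d x => leafR conQ seg n Qs i d x) [.d0 true, .d1 true, .d2 false, .d0 false, .d1 false, .d2 false, .d0 false, .d1 true, .d0 false, .d2 true, .d0 true] tree62 0 0 0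
      (joinS (lay.B * lay.size) rootQ) = true) ∧
    (runPathS conQ supQ (fun n Qs i d x => leafR conQ seg n Qs i d x) [.d0 true, .d1 true, .d2 false, .d0 false, .d1 false, .d2 false, .d0 false, .d1 true, .d0 true] tree63 0 0 0
      (joinS (lay.B * lay.size) rootQ) = true) ∧
    (runPathS conQ supQ (fun n Qs i d x => leafR conQ seg n Qs i d x) [.d0 true, .d1 true, .d2 false, .d0 false, .d1 false, .d2 false, .d0 true] tree64 0 0 0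
      (joinS (lay.B * lay.size) rootQ) = true) ∧
    (runPathS conQ supQ (fun n Qs i d x => leafR conQ seg n Qs i d x) [.d0 true, .d1 true, .d2 false, .d0 false, .d1 false, .d2 true, .d0 false, .d0 false, .d1 false, .d0 false] tree65 0 0 0
      (joinS (lay.B * lay.size) rootQ) = true) ∧
    (runPathS conQ supQ (fun n Qs i d x => leafR conQ seg n Qs i d x) [.d0 true, .d1 true, .d2 false, .d0 false, .d1 false, .d2 true, .d0 false, .d0 false, .d1 false, .d0 true] tree66 0 0 0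
      (joinS (lay.B * lay.size) rootQ) = true) ∧
    (runPathS conQ supQ (fun n Qs i d x => leafR conQ seg n Qs i d x) [.d0 true, .d1 true, .d2 false, .d0 false, .d1 false, .d2 true, .d0 false, .d0 false, .d1 true, .d0 false] tree67 0 0 0
      (joinS (lay.B * lay.size) rootQ) = true) ∧
    (runPathS conQ supQ (fun n Qs i d x => leafR conQ seg n Qs i d x) [.d0 true, .d1 true, .d2 false, .d0 false, .d1 false, .d2 true, .d0 false, .d0 false, .d1 true, .d0 true, .d3 false, .d2 false] tree68 0 0 0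
      (joinS (lay.B * lay.size) rootQ) = true) ∧
    (runPathS conQ supQ (fun n Qs i d x => leafR conQ seg n Qs i d x) [.d0 true, .d1 true, .d2 false, .d0 false, .d1 false, .d2 true, .d0 false, .d0 false, .d1 true, .d0 true, .d3 false, .d2 true] tree69 0 0 0
      (joinS (lay.B * lay.size) rootQ) = true) ∧
    (runPathS conQ supQ (fun n Qs i d x => leafR conQ seg n Qs i d x) [.d0 true, .d1 true, .d2 false, .d0 false, .d1 false, .d2 true, .d0 false, .d0 false, .d1 true, .d0 true, .d3 true] tree70 0 0 0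
      (joinS (lay.B * lay.size) rootQ) = true) ∧
    (runPathS conQ supQ (fun n Qs i d x => leafR conQ seg n Qs i d x) [.d0 true, .d1 true, .d2 false, .d0 false, .d1 false, .d2 true, .d0 false, .d0 true, .d1 false] tree71 0 0 0
      (joinS (lay.B * lay.size) rootQ) = true) ∧
    (runPathS conQ supQ (fun n Qs i d x => leafR conQ seg n Qs i d x) [.d0 true, .d1 true, .d2 false, .d0 false, .d1 false, .d2 true, .d0 false, .d0 true, .d1 true, .d3 false, .d0 false] tree72 0 0 0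
      (joinS (lay.B * lay.size) rootQ) = true) ∧
    (runPathS conQ supQ (fun n Qs i d x => leafR conQ seg n Qs i d x) [.d0 true, .d1 true, .d2 false, .d0 false, .d1 false, .d2 true, .d0 false, .d0 true, .d1 true, .d3 false, .d0 true] tree73 0 0 0
      (joinS (lay.B * lay.size) rootQ) = true) ∧
    (runPathS conQ supQ (fun n Qs i d x => leafR conQ seg n Qs i d x) [.d0 true, .d1 true, .d2 false, .d0 false, .d1 false, .d2 true, .d0 false, .d0 true, .d1 true, .d3 true, .d0 false, .d2 false] tree74 0 0 0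
      (joinS (lay.B * lay.size) rootQ) = true) ∧
    (runPathS conQ supQ (fun n Qs i d x => leafR conQ seg n Qs i d x) [.d0 true, .d1 true, .d2 false, .d0 false, .d1 false, .d2 true, .d0 false, .d0 true, .d1 true, .d3 true, .d0 false, .d2 true] tree75 0 0 0
      (joinS (lay.B * lay.size) rootQ) = true) ∧
    (runPathS conQ supQ (fun n Qs i d x => leafR conQ seg n Qs i d x) [.d0 true, .d1 true, .d2 false, .d0 false, .d1 false, .d2 true, .d0 false, .d0 true, .d1 true, .d3 true, .d0 true] tree76 0 0 0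
      (joinS (lay.B * lay.size) rootQ) = true) ∧
    (runPathS conQ supQ (fun n Qs i d x => leafR conQ seg n Qs i d x) [.d0 true, .d1 true, .d2 false, .d0 false, .d1 false, .d2 true, .d0 true] tree77 0 0 0
      (joinS (lay.B * lay.size) rootQ) = true) ∧
    (runPathS conQ supQ (fun n Qs i d x => leafR conQ seg n Qs i d x) [.d0 true, .d1 true, .d2 false, .d0 false, .d1 true, .d0 false, .d1 false, .d2 false] tree78 0 0 0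
      (joinS (lay.B * lay.size) rootQ) = true) ∧
    (runPathS conQ supQ (fun n Qs i d x => leafR conQ seg n Qs i d x) [.d0 true, .d1 true, .d2 false, .d0 false, .d1 true, .d0 false, .d1 false, .d2 true, .d0 false, .d0 false] tree79 0 0 0
      (joinS (lay.B * lay.size) rootQ) = true) ∧
    (runPathS conQ supQ (fun n Qs i d x => leafR conQ seg n Qs i d x) [.d0 true, .d1 true, .d2 false, .d0 false, .d1 true, .d0 false, .d1 false, .d2 true, .d0 false, .d0 true, .d3 false] tree80 0 0 0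
      (joinS (lay.B * lay.size) rootQ) = true) :=
  ⟨by decide +kernel,
  by decide +kernel,
  by decide +kernel,
  by decide +kernel,
  by decide +kernel,
  by decide +kernel,
  by decide +kernel,
  by decide +kernel,
  by decide +kernel,
  by decide +kernel,
  by decide +kernel,
  by decide +kernel,
  by decide +kernel,
  by decide +kernel,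
  by decide +kernel,
  by decide +kernel,
  by decide +kernel,
  by decide +kernel,
  by decide +kernel,
  by decide +kernel,
  by decide +kernel,
  by decide +kernel,
  by decide +kernel,
  by decide +kernel,
  by decide +kernel⟩

end Vale.Agent.P098.Six.S19
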