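import Vale.Agent.P098.Six.S19.Root

/-!
# P098, six dimensions: checked pieces of the tree
-/

namespace Vale.Agent.P098.Six.S19

/-- A piece of the tree. -/
noncomputable def tree81 : Tree LeafX :=
  .s2
    (.s3
    (.s0
    (.s1
    (.leaf (.box ⟨133, -14, -2048, 28, 182, 389, 196343, 0, 0, 0, 0, 0, 0⟩ ⟨0, 0, 0, 0, 0, 0, 264284, 0, 0, 0, 0, 0, 0⟩ ⟨0, 0, 0, 0, 0, 0, 264284, 0, 0, 0, 0, 0, 0⟩ ⟨0, 0, 0, 0, 0, 0, 404123, 0, 0, 0, 0, 0, 0⟩ ⟨0, 0, 0, 0, 0, 0, 404123, 0, 0, 0, 0, 0, 0⟩ ⟨196, -3, -2954, 6, 56, 588, 858238, 0, 0, 0, 0, 0, 0⟩))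
    (.leaf (.box ⟨134, -13, -2048, 22, 179, 410, 205554, 0, 0, 0, 0, 0, 0⟩ ⟨0, 0, 0, 0, 0, 0, 277082, 0, 0, 0, 0, 0, 0⟩ ⟨0, 0, 0, 0, 0, 0, 277082, 0, 0, 0, 0, 0, 0⟩ ⟨0, 0, 0, 0, 0, 0, 424954, 0, 0, 0, 0, 0, 0⟩ ⟨0, 0, 0, 0, 0, 0, 424954, 0, 0, 0, 0, 0, 0⟩ ⟨154, -3, -2350, 6, 47, 492, 911289, 0, 0, 0, 0, 0, 0⟩)))
    (.s1
    (.s2
    (.leaf (.box ⟨118, -6, -2048, 12, 162, 400, 207287, 0, 0, 0, 0, 0, 0⟩ ⟨0, 0, 0, 0, 0, 0, 278962, 0, 0, 0, 0, 0, 0⟩ ⟨0, 0, 0, 0, 0, 0, 278962, 0, 0, 0, 0, 0, 0⟩ ⟨0, 0, 0, 0, 0, 0, 426400, 0, 0, 0, 0, 0, 0⟩ ⟨0, 0, 0, 0, 0, 0, 426400, 0, 0, 0, 0, 0, 0⟩ ⟨239, -3, -4442, 6, 82, 905, 904391, 0, 0, 0, 0, 0, 0⟩))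
    (.leaf (.box ⟨105, -7, -2048, 14, 156, 393, 216919, 0, 0, 0, 0, 0, 0⟩ ⟨0, 0, 0, 0, 0, 0, 292065, 0, 0, 0, 0, 0, 0⟩ ⟨0, 0, 0, 0, 0, 0, 292065, 0, 0, 0, 0, 0, 0⟩ ⟨0, 0, 0, 0, 0, 0, 446868, 0, 0, 0, 0, 0, 0⟩ ⟨0, 0, 0, 0, 0, 0, 446868, 0, 0, 0, 0, 0, 0⟩ ⟨177, -3, -3667, 6, 65, 732, 950851, 0, 0, 0, 0, 0, 0⟩)))
    (.leaf (.box ⟨131, -12, -2048, 22, 176, 416, 216812, 0, 0, 0, 0, 0, 0⟩ ⟨0, 0, 0, 0, 0, 0, 292210, 0, 0, 0, 0, 0, 0⟩ ⟨0, 0, 0, 0, 0, 0, 292210, 0, 0, 0, 0, 0, 0⟩ ⟨0, 0, 0, 0, 0, 0, 448008, 0, 0, 0, 0, 0, 0⟩ ⟨0, 0, 0, 0, 0, 0, 448008, 0, 0, 0, 0, 0, 0⟩ ⟨150, -3, -2341, 6, 46, 495, 959680, 0, 0, 0, 0, 0, 0⟩))))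
    (.s0
    (.s1
    (.leaf (.box ⟨135, -9, -2048, 17, 159, 397, 211010, 0, 0, 0, 0, 0, 0⟩ ⟨0, 0, 0, 0, 0, 0, 278401, 0, 0, 0, 0, 0, 0⟩ ⟨0, 0, 0, 0, 0, 0, 278401, 0, 0, 0, 0, 0, 0⟩ ⟨0, 0, 0, 0, 0, 0, 409034, 0, 0, 0, 0, 0, 0⟩ ⟨0, 0, 0, 0, 0, 0, 409034, 0, 0, 0, 0, 0, 0⟩ ⟨197, -3, -2935, 6, 64, 591, 770638, 0, 0, 0, 0, 0, 0⟩))
    (.leaf (.box ⟨133, -12, -2048, 21, 172, 418, 221753, 0, 0, 0, 0, 0, 0⟩ ⟨0, 0, 0, 0, 0, 0, 292989, 0, 0, 0, 0, 0, 0⟩ ⟨0, 0, 0, 0, 0, 0, 292989, 0, 0, 0, 0, 0, 0⟩ ⟨0, 0, 0, 0, 0, 0, 431651, 0, 0, 0, 0, 0, 0⟩ ⟨0, 0, 0, 0, 0, 0, 431651, 0, 0, 0, 0, 0, 0⟩ ⟨138, -3, -2117, 6, 49, 449, 819487, 0, 0, 0, 0, 0, 0⟩)))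
    (.s2
    (.leaf (.box ⟨180, -11, -2048, 23, 166, 418, 222661, 0, 0, 0, 0, 0, 0⟩ ⟨0, 0, 0, 0, 0, 0, 293718, 0, 0, 0, 0, 0, 0⟩ ⟨0, 0, 0, 0, 0, 0, 293718, 0, 0, 0, 0, 0, 0⟩ ⟨0, 0, 0, 0, 0, 0, 431381, 0, 0, 0, 0, 0, 0⟩ ⟨0, 0, 0, 0, 0, 0, 431381, 0, 0, 0, 0, 0, 0⟩ ⟨167, -3, -2048, 7, 46, 433, 811922, 0, 0, 0, 0, 0, 0⟩))
    (.s1
    (.leaf (.box ⟨103, -6, -2048, 14, 150, 399, 233300, 0, 0, 0, 0, 0, 0⟩ ⟨0, 0, 0, 0, 0, 0, 307897, 0, 0, 0, 0, 0, 0⟩ ⟨0, 0, 0, 0, 0, 0, 307897, 0, 0, 0, 0, 0, 0⟩ ⟨0, 0, 0, 0, 0, 0, 452619, 0, 0, 0, 0, 0, 0⟩ ⟨0, 0, 0, 0, 0, 0, 452619, 0, 0, 0, 0, 0, 0⟩ ⟨153, -3, -3146, 6, 64, 634, 854052, 0, 0, 0, 0, 0, 0⟩))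
    (.leaf (.box ⟨100, -9, -2048, 17, 162, 419, 245825, 0, 0, 0, 0, 0, 0⟩ ⟨0, 0, 0, 0, 0, 0, 324877, 0, 0, 0, 0, 0, 0⟩ ⟨0, 0, 0, 0, 0, 0, 324877, 0, 0, 0, 0, 0, 0⟩ ⟨0, 0, 0, 0, 0, 0, 478869, 0, 0, 0, 0, 0, 0⟩ ⟨0, 0, 0, 0, 0, 0, 478869, 0, 0, 0, 0, 0, 0⟩ ⟨117, -3, -2566, 6, 56, 542, 910399, 0, 0, 0, 0, 0, 0⟩))))))
    (.s3
    (.s3
    (.leaf (.box ⟨209, -19, -2048, 39, 175, 398, 214774, 0, 0, 0, 0, 0, 0⟩ ⟨0, 0, 0, 0, 0, 0, 291113, 0, 0, 0, 0, 0, 0⟩ ⟨0, 0, 0, 0, 0, 0, 291113, 0, 0, 0, 0, 0, 0⟩ ⟨0, 0, 0, 0, 0, 0, 451642, 0, 0, 0, 0, 0, 0⟩ ⟨0, 0, 0, 0, 0, 0, 451642, 0, 0, 0, 0, 0, 0⟩ ⟨148, -4, -2048, 8, 37, 406, 1006860, 0, 0, 0, 0, 0, 0⟩))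
    (.leaf (.box ⟨207, -18, -2048, 37, 172, 401, 222788, 0, 0, 0, 0, 0, 0⟩ ⟨0, 0, 0, 0, 0, 0, 299086, 0, 0, 0, 0, 0, 0⟩ ⟨0, 0, 0, 0, 0, 0, 299086, 0, 0, 0, 0, 0, 0⟩ ⟨0, 0, 0, 0, 0, 0, 454861, 0, 0, 0, 0, 0, 0⟩ ⟨0, 0, 0, 0, 0, 0, 454861, 0, 0, 0, 0, 0, 0⟩ ⟨147, -4, -2048, 9, 40, 408, 949283, 0, 0, 0, 0, 0, 0⟩)))
    (.s3
    (.leaf (.box ⟨212, -16, -2048, 34, 176, 405, 231241, 0, 0, 0, 0, 0, 0⟩ ⟨0, 0, 0, 0, 0, 0, 307310, 0, 0, 0, 0, 0, 0⟩ ⟨0, 0, 0, 0, 0, 0, 307310, 0, 0, 0, 0, 0, 0⟩ ⟨0, 0, 0, 0, 0, 0, 457960, 0, 0, 0, 0, 0, 0⟩ ⟨0, 0, 0, 0, 0, 0, 457960, 0, 0, 0, 0, 0, 0⟩ ⟨153, -5, -2048, 10, 43, 410, 898349, 0, 0, 0, 0, 0, 0⟩))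
    (.leaf (.box ⟨210, -15, -2048, 32, 171, 408, 240172, 0, 0, 0, 0, 0, 0⟩ ⟨0, 0, 0, 0, 0, 0, 315799, 0, 0, 0, 0, 0, 0⟩ ⟨0, 0, 0, 0, 0, 0, 315799, 0, 0, 0, 0, 0, 0⟩ ⟨0, 0, 0, 0, 0, 0, 460941, 0, 0, 0, 0, 0, 0⟩ ⟨0, 0, 0, 0, 0, 0, 460941, 0, 0, 0, 0, 0, 0⟩ ⟨152, -5, -2048, 10, 46, 413, 852971, 0, 0, 0, 0, 0, 0⟩))))

/-- A piece of the tree. -/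
noncomputable def tree82 : Tree LeafX :=
  .s1
    (.s2
    (.s0
    (.s3
    (.s2
    (.leaf (.box ⟨133, -6, -2048, 14, 172, 397, 191523, 0, 0, 0, 0, 0, 0⟩ ⟨0, 0, 0, 0, 0, 0, 266766, 0, 0, 0, 0, 0, 0⟩ ⟨0, 0, 0, 0, 0, 0, 266766, 0, 0, 0, 0, 0, 0⟩ ⟨0, 0, 0, 0, 0, 0, 439382, 0, 0, 0, 0, 0, 0⟩ ⟨0, 0, 0, 0, 0, 0, 439382, 0, 0, 0, 0, 0, 0⟩ ⟨343, -3, -5736, 6, 76, 1167, 1244967, 0, 0, 0, 0, 0, 0⟩))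
    (.leaf (.box ⟨132, -7, -2048, 16, 171, 393, 200451, 0, 0, 0, 0, 0, 0⟩ ⟨0, 0, 0, 0, 0, 0, 279331, 0, 0, 0, 0, 0, 0⟩ ⟨0, 0, 0, 0, 0, 0, 279331, 0, 0, 0, 0, 0, 0⟩ ⟨0, 0, 0, 0, 0, 0, 460571, 0, 0, 0, 0, 0, 0⟩ ⟨0, 0, 0, 0, 0, 0, 460571, 0, 0, 0, 0, 0, 0⟩ ⟨291, -3, -5281, 6, 67, 1056, 1311558, 0, 0, 0, 0, 0, 0⟩)))
    (.s2
    (.leaf (.box ⟨135, -6, -2048, 13, 167, 404, 204681, 0, 0, 0, 0, 0, 0⟩ ⟨0, 0, 0, 0, 0, 0, 280433, 0, 0, 0, 0, 0, 0⟩ ⟨0, 0, 0, 0, 0, 0, 280433, 0, 0, 0, 0, 0, 0⟩ ⟨0, 0, 0, 0, 0, 0, 445197, 0, 0, 0, 0, 0, 0⟩ ⟨0, 0, 0, 0, 0, 0, 445197, 0, 0, 0, 0, 0, 0⟩ ⟨277, -3, -4587, 6, 72, 943, 1079359, 0, 0, 0, 0, 0, 0⟩))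
    (.s2
    (.leaf (.box ⟨122, -6, -2048, 14, 160, 399, 214522, 0, 0, 0, 0, 0, 0⟩ ⟨0, 0, 0, 0, 0, 0, 294060, 0, 0, 0, 0, 0, 0⟩ ⟨0, 0, 0, 0, 0, 0, 294060, 0, 0, 0, 0, 0, 0⟩ ⟨0, 0, 0, 0, 0, 0, 467329, 0, 0, 0, 0, 0, 0⟩ ⟨0, 0, 0, 0, 0, 0, 467329, 0, 0, 0, 0, 0, 0⟩ ⟨259, -3, -4796, 6, 72, 973, 1137692, 0, 0, 0, 0, 0, 0⟩))
    (.leaf (.box ⟨116, -6, -2048, 14, 158, 397, 220111, 0, 0, 0, 0, 0, 0⟩ ⟨0, 0, 0, 0, 0, 0, 301768, 0, 0, 0, 0, 0, 0⟩ ⟨0, 0, 0, 0, 0, 0, 301768, 0, 0, 0, 0, 0, 0⟩ ⟨0, 0, 0, 0, 0, 0, 479740, 0, 0, 0, 0, 0, 0⟩ ⟨0, 0, 0, 0, 0, 0, 479740, 0, 0, 0, 0, 0, 0⟩ ⟨229, -3, -4493, 6, 66, 904, 1169430, 0, 0, 0, 0, 0, 0⟩)))))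
    (.s2
    (.leaf (.box ⟨145, -6, -2048, 16, 166, 418, 215759, 0, 0, 0, 0, 0, 0⟩ ⟨0, 0, 0, 0, 0, 0, 296909, 0, 0, 0, 0, 0, 0⟩ ⟨0, 0, 0, 0, 0, 0, 296909, 0, 0, 0, 0, 0, 0⟩ ⟨0, 0, 0, 0, 0, 0, 475899, 0, 0, 0, 0, 0, 0⟩ ⟨0, 0, 0, 0, 0, 0, 475899, 0, 0, 0, 0, 0, 0⟩ ⟨262, -2, -4157, 6, 62, 879, 1198273, 0, 0, 0, 0, 0, 0⟩))
    (.leaf (.box ⟨133, -7, -2048, 18, 160, 414, 226885, 0, 0, 0, 0, 0, 0⟩ ⟨0, 0, 0, 0, 0, 0, 312402, 0, 0, 0, 0, 0, 0⟩ ⟨0, 0, 0, 0, 0, 0, 312402, 0, 0, 0, 0, 0, 0⟩ ⟨0, 0, 0, 0, 0, 0, 501380, 0, 0, 0, 0, 0, 0⟩ ⟨0, 0, 0, 0, 0, 0, 501380, 0, 0, 0, 0, 0, 0⟩ ⟨201, -2, -3314, 6, 47, 691, 1269059, 0, 0, 0, 0, 0, 0⟩))))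
    (.s3
    (.leaf (.box ⟨173, -12, -2048, 30, 171, 397, 211155, 0, 0, 0, 0, 0, 0⟩ ⟨0, 0, 0, 0, 0, 0, 294319, 0, 0, 0, 0, 0, 0⟩ ⟨0, 0, 0, 0, 0, 0, 294319, 0, 0, 0, 0, 0, 0⟩ ⟨0, 0, 0, 0, 0, 0, 485554, 0, 0, 0, 0, 0, 0⟩ ⟨0, 0, 0, 0, 0, 0, 485554, 0, 0, 0, 0, 0, 0⟩ ⟨181, -2, -2491, 6, 32, 501, 1386330, 0, 0, 0, 0, 0, 0⟩))
    (.leaf (.box ⟨170, -16, -2048, 39, 157, 402, 226144, 0, 0, 0, 0, 0, 0⟩ ⟨0, 0, 0, 0, 0, 0, 310070, 0, 0, 0, 0, 0, 0⟩ ⟨0, 0, 0, 0, 0, 0, 310070, 0, 0, 0, 0, 0, 0⟩ ⟨0, 0, 0, 0, 0, 0, 493046, 0, 0, 0, 0, 0, 0⟩ ⟨0, 0, 0, 0, 0, 0, 493046, 0, 0, 0, 0, 0, 0⟩ ⟨151, -2, -2063, 6, 32, 419, 1202883, 0, 0, 0, 0, 0, 0⟩))))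
    (.s2
    (.s2
    (.leaf (.box ⟨191, -12, -2048, 25, 196, 428, 198439, 0, 0, 0, 0, 0, 0⟩ ⟨0, 0, 0, 0, 0, 0, 273677, 0, 0, 0, 0, 0, 0⟩ ⟨0, 0, 0, 0, 0, 0, 273677, 0, 0, 0, 0, 0, 0⟩ ⟨0, 0, 0, 0, 0, 0, 440810, 0, 0, 0, 0, 0, 0⟩ ⟨0, 0, 0, 0, 0, 0, 440810, 0, 0, 0, 0, 0, 0⟩ ⟨220, -3, -2746, 6, 47, 598, 1132293, 0, 0, 0, 0, 0, 0⟩))
    (.leaf (.box ⟨195, -13, -2048, 28, 187, 410, 208552, 0, 0, 0, 0, 0, 0⟩ ⟨0, 0, 0, 0, 0, 0, 287759, 0, 0, 0, 0, 0, 0⟩ ⟨0, 0, 0, 0, 0, 0, 287759, 0, 0, 0, 0, 0, 0⟩ ⟨0, 0, 0, 0, 0, 0, 463973, 0, 0, 0, 0, 0, 0⟩ ⟨0, 0, 0, 0, 0, 0, 463973, 0, 0, 0, 0, 0, 0⟩ ⟨169, -3, -2152, 6, 35, 459, 1196938, 0, 0, 0, 0, 0, 0⟩)))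
    (.leaf (.box ⟨179, -20, -2048, 44, 193, 411, 220664, 0, 0, 0, 0, 0, 0⟩ ⟨0, 0, 0, 0, 0, 0, 304531, 0, 0, 0, 0, 0, 0⟩ ⟨0, 0, 0, 0, 0, 0, 304531, 0, 0, 0, 0, 0, 0⟩ ⟨0, 0, 0, 0, 0, 0, 491229, 0, 0, 0, 0, 0, 0⟩ ⟨0, 0, 0, 0, 0, 0, 491229, 0, 0, 0, 0, 0, 0⟩ ⟨157, -4, -2048, 8, 34, 428, 1269546, 0, 0, 0, 0, 0, 0⟩)))

/-- A piece of the tree. -/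
noncomputable def tree83 : Tree LeafX :=
  .s2
    (.s0
    (.s3
    (.s1
    (.s2
    (.leaf (.box ⟨130, -6, -2048, 13, 161, 410, 219208, 0, 0, 0, 0, 0, 0⟩ ⟨0, 0, 0, 0, 0, 0, 294938, 0, 0, 0, 0, 0, 0⟩ ⟨0, 0, 0, 0, 0, 0, 294938, 0, 0, 0, 0, 0, 0⟩ ⟨0, 0, 0, 0, 0, 0, 450610, 0, 0, 0, 0, 0, 0⟩ ⟨0, 0, 0, 0, 0, 0, 450610, 0, 0, 0, 0, 0, 0⟩ ⟨243, -3, -4054, 6, 75, 843, 954304, 0, 0, 0, 0, 0, 0⟩))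
    (.s3
    (.leaf (.box ⟨116, -6, -2048, 15, 154, 403, 230057, 0, 0, 0, 0, 0, 0⟩ ⟨0, 0, 0, 0, 0, 0, 311647, 0, 0, 0, 0, 0, 0⟩ ⟨0, 0, 0, 0, 0, 0, 311647, 0, 0, 0, 0, 0, 0⟩ ⟨0, 0, 0, 0, 0, 0, 482908, 0, 0, 0, 0, 0, 0⟩ ⟨0, 0, 0, 0, 0, 0, 482908, 0, 0, 0, 0, 0, 0⟩ ⟨179, -3, -3435, 6, 56, 699, 1072032, 0, 0, 0, 0, 0, 0⟩))
    (.leaf (.box ⟨115, -6, -2048, 15, 151, 406, 238447, 0, 0, 0, 0, 0, 0⟩ ⟨0, 0, 0, 0, 0, 0, 319922, 0, 0, 0, 0, 0, 0⟩ ⟨0, 0, 0, 0, 0, 0, 319922, 0, 0, 0, 0, 0, 0⟩ ⟨0, 0, 0, 0, 0, 0, 485972, 0, 0, 0, 0, 0, 0⟩ ⟨0, 0, 0, 0, 0, 0, 485972, 0, 0, 0, 0, 0, 0⟩ ⟨185, -3, -3559, 6, 63, 728, 1010406, 0, 0, 0, 0, 0, 0⟩))))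
    (.leaf (.box ⟨141, -13, -2048, 26, 175, 426, 229038, 0, 0, 0, 0, 0, 0⟩ ⟨0, 0, 0, 0, 0, 0, 308628, 0, 0, 0, 0, 0, 0⟩ ⟨0, 0, 0, 0, 0, 0, 308628, 0, 0, 0, 0, 0, 0⟩ ⟨0, 0, 0, 0, 0, 0, 472990, 0, 0, 0, 0, 0, 0⟩ ⟨0, 0, 0, 0, 0, 0, 472990, 0, 0, 0, 0, 0, 0⟩ ⟨140, -3, -2082, 6, 41, 449, 1011868, 0, 0, 0, 0, 0, 0⟩)))
    (.s1
    (.s2
    (.s2
    (.leaf (.box ⟨128, -5, -2048, 11, 156, 419, 235328, 0, 0, 0, 0, 0, 0⟩ ⟨0, 0, 0, 0, 0, 0, 310358, 0, 0, 0, 0, 0, 0⟩ ⟨0, 0, 0, 0, 0, 0, 310358, 0, 0, 0, 0, 0, 0⟩ ⟨0, 0, 0, 0, 0, 0, 455624, 0, 0, 0, 0, 0, 0⟩ ⟨0, 0, 0, 0, 0, 0, 455624, 0, 0, 0, 0, 0, 0⟩ ⟨220, -3, -3765, 6, 80, 797, 856532, 0, 0, 0, 0, 0, 0⟩))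
    (.leaf (.box ⟨124, -5, -2048, 12, 152, 415, 241088, 0, 0, 0, 0, 0, 0⟩ ⟨0, 0, 0, 0, 0, 0, 318042, 0, 0, 0, 0, 0, 0⟩ ⟨0, 0, 0, 0, 0, 0, 318042, 0, 0, 0, 0, 0, 0⟩ ⟨0, 0, 0, 0, 0, 0, 467155, 0, 0, 0, 0, 0, 0⟩ ⟨0, 0, 0, 0, 0, 0, 467155, 0, 0, 0, 0, 0, 0⟩ ⟨198, -3, -3654, 6, 75, 764, 879509, 0, 0, 0, 0, 0, 0⟩)))
    (.s3
    (.leaf (.box ⟨113, -6, -2048, 14, 148, 409, 247296, 0, 0, 0, 0, 0, 0⟩ ⟨0, 0, 0, 0, 0, 0, 328457, 0, 0, 0, 0, 0, 0⟩ ⟨0, 0, 0, 0, 0, 0, 328457, 0, 0, 0, 0, 0, 0⟩ ⟨0, 0, 0, 0, 0, 0, 488916, 0, 0, 0, 0, 0, 0⟩ ⟨0, 0, 0, 0, 0, 0, 488916, 0, 0, 0, 0, 0, 0⟩ ⟨167, -3, -3068, 6, 58, 631, 955891, 0, 0, 0, 0, 0, 0⟩))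
    (.leaf (.box ⟨113, -6, -2048, 14, 145, 412, 256644, 0, 0, 0, 0, 0, 0⟩ ⟨0, 0, 0, 0, 0, 0, 337267, 0, 0, 0, 0, 0, 0⟩ ⟨0, 0, 0, 0, 0, 0, 337267, 0, 0, 0, 0, 0, 0⟩ ⟨0, 0, 0, 0, 0, 0, 491745, 0, 0, 0, 0, 0, 0⟩ ⟨0, 0, 0, 0, 0, 0, 491745, 0, 0, 0, 0, 0, 0⟩ ⟨162, -3, -3012, 6, 61, 623, 907323, 0, 0, 0, 0, 0, 0⟩))))
    (.leaf (.box ⟨146, -12, -2048, 25, 169, 433, 246855, 0, 0, 0, 0, 0, 0⟩ ⟨0, 0, 0, 0, 0, 0, 326041, 0, 0, 0, 0, 0, 0⟩ ⟨0, 0, 0, 0, 0, 0, 326041, 0, 0, 0, 0, 0, 0⟩ ⟨0, 0, 0, 0, 0, 0, 480022, 0, 0, 0, 0, 0, 0⟩ ⟨0, 0, 0, 0, 0, 0, 480022, 0, 0, 0, 0, 0, 0⟩ ⟨145, -4, -2048, 8, 46, 446, 909603, 0, 0, 0, 0, 0, 0⟩))))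
    (.s3
    (.leaf (.box ⟨186, -14, -2048, 33, 163, 431, 246214, 0, 0, 0, 0, 0, 0⟩ ⟨0, 0, 0, 0, 0, 0, 331093, 0, 0, 0, 0, 0, 0⟩ ⟨0, 0, 0, 0, 0, 0, 331093, 0, 0, 0, 0, 0, 0⟩ ⟨0, 0, 0, 0, 0, 0, 505281, 0, 0, 0, 0, 0, 0⟩ ⟨0, 0, 0, 0, 0, 0, 505281, 0, 0, 0, 0, 0, 0⟩ ⟨180, -4, -2048, 9, 38, 445, 1066216, 0, 0, 0, 0, 0, 0⟩))
    (.s1
    (.leaf (.box ⟨134, -6, -2048, 17, 149, 430, 263947, 0, 0, 0, 0, 0, 0⟩ ⟨0, 0, 0, 0, 0, 0, 347914, 0, 0, 0, 0, 0, 0⟩ ⟨0, 0, 0, 0, 0, 0, 347914, 0, 0, 0, 0, 0, 0⟩ ⟨0, 0, 0, 0, 0, 0, 510228, 0, 0, 0, 0, 0, 0⟩ ⟨0, 0, 0, 0, 0, 0, 510228, 0, 0, 0, 0, 0, 0⟩ ⟨152, -2, -2378, 6, 48, 511, 956440, 0, 0, 0, 0, 0, 0⟩))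
    (.leaf (.box ⟨136, -11, -2048, 24, 161, 449, 276238, 0, 0, 0, 0, 0, 0⟩ ⟨0, 0, 0, 0, 0, 0, 364679, 0, 0, 0, 0, 0, 0⟩ ⟨0, 0, 0, 0, 0, 0, 364679, 0, 0, 0, 0, 0, 0⟩ ⟨0, 0, 0, 0, 0, 0, 536418, 0, 0, 0, 0, 0, 0⟩ ⟨0, 0, 0, 0, 0, 0, 536418, 0, 0, 0, 0, 0, 0⟩ ⟨135, -3, -2048, 7, 44, 459, 1013894, 0, 0, 0, 0, 0, 0⟩)))))
    (.s0
    (.s3
    (.leaf (.box ⟨156, -18, -2048, 40, 166, 405, 242691, 0, 0, 0, 0, 0, 0⟩ ⟨0, 0, 0, 0, 0, 0, 326781, 0, 0, 0, 0, 0, 0⟩ ⟨0, 0, 0, 0, 0, 0, 326781, 0, 0, 0, 0, 0, 0⟩ ⟨0, 0, 0, 0, 0, 0, 500039, 0, 0, 0, 0, 0, 0⟩ ⟨0, 0, 0, 0, 0, 0, 500039, 0, 0, 0, 0, 0, 0⟩ ⟨148, -4, -2048, 10, 38, 419, 1064358, 0, 0, 0, 0, 0, 0⟩))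
    (.s1
    (.leaf (.box ⟨114, -10, -2048, 24, 148, 404, 261054, 0, 0, 0, 0, 0, 0⟩ ⟨0, 0, 0, 0, 0, 0, 344542, 0, 0, 0, 0, 0, 0⟩ ⟨0, 0, 0, 0, 0, 0, 344542, 0, 0, 0, 0, 0, 0⟩ ⟨0, 0, 0, 0, 0, 0, 506538, 0, 0, 0, 0, 0, 0⟩ ⟨0, 0, 0, 0, 0, 0, 506538, 0, 0, 0, 0, 0, 0⟩ ⟨106, -3, -2048, 7, 41, 415, 956054, 0, 0, 0, 0, 0, 0⟩))
    (.leaf (.box ⟨109, -13, -2048, 29, 162, 419, 275918, 0, 0, 0, 0, 0, 0⟩ ⟨0, 0, 0, 0, 0, 0, 364646, 0, 0, 0, 0, 0, 0⟩ ⟨0, 0, 0, 0, 0, 0, 364646, 0, 0, 0, 0, 0, 0⟩ ⟨0, 0, 0, 0, 0, 0, 537485, 0, 0, 0, 0, 0, 0⟩ ⟨0, 0, 0, 0, 0, 0, 537485, 0, 0, 0, 0, 0, 0⟩ ⟨103, -4, -2048, 8, 44, 431, 1021821, 0, 0, 0, 0, 0, 0⟩))))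
    (.leaf (.box ⟨159, -17, -2048, 44, 161, 426, 275265, 0, 0, 0, 0, 0, 0⟩ ⟨0, 0, 0, 0, 0, 0, 365870, 0, 0, 0, 0, 0, 0⟩ ⟨0, 0, 0, 0, 0, 0, 365870, 0, 0, 0, 0, 0, 0⟩ ⟨0, 0, 0, 0, 0, 0, 545385, 0, 0, 0, 0, 0, 0⟩ ⟨0, 0, 0, 0, 0, 0, 545385, 0, 0, 0, 0, 0, 0⟩ ⟨149, -4, -2048, 11, 42, 436, 1070754, 0, 0, 0, 0, 0, 0⟩)))

/-- A piece of the tree. -/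
noncomputable def tree84 : Tree LeafX :=
  .s2
    (.leaf (.box ⟨676, -51, -2048, 98, 263, 453, 155807, 0, 0, 0, 0, 0, 0⟩ ⟨0, 0, 0, 0, 0, 0, 209414, 0, 0, 0, 0, 0, 0⟩ ⟨0, 0, 0, 0, 0, 0, 209414, 0, 0, 0, 0, 0, 0⟩ ⟨0, 0, 0, 0, 0, 0, 319255, 0, 0, 0, 0, 0, 0⟩ ⟨0, 0, 0, 0, 0, 0, 319255, 0, 0, 0, 0, 0, 0⟩ ⟨519, -13, -2048, 25, 69, 530, 671432, 0, 0, 0, 0, 0, 0⟩))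
    (.s2
    (.s3
    (.leaf (.box ⟨308, -59, -2048, 97, 265, 428, 167409, 0, 0, 0, 0, 0, 0⟩ ⟨0, 0, 0, 0, 0, 0, 231324, 0, 0, 0, 0, 0, 0⟩ ⟨0, 0, 0, 0, 0, 0, 231324, 0, 0, 0, 0, 0, 0⟩ ⟨0, 0, 0, 0, 0, 0, 374181, 0, 0, 0, 0, 0, 0⟩ ⟨0, 0, 0, 0, 0, 0, 374181, 0, 0, 0, 0, 0, 0⟩ ⟨260, -10, -2048, 17, 46, 456, 978416, 0, 0, 0, 0, 0, 0⟩))
    (.leaf (.box ⟨287, -53, -2048, 90, 244, 444, 195210, 0, 0, 0, 0, 0, 0⟩ ⟨0, 0, 0, 0, 0, 0, 260319, 0, 0, 0, 0, 0, 0⟩ ⟨0, 0, 0, 0, 0, 0, 260319, 0, 0, 0, 0, 0, 0⟩ ⟨0, 0, 0, 0, 0, 0, 390594, 0, 0, 0, 0, 0, 0⟩ ⟨0, 0, 0, 0, 0, 0, 390594, 0, 0, 0, 0, 0, 0⟩ ⟨245, -13, -2048, 22, 62, 465, 781881, 0, 0, 0, 0, 0, 0⟩)))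
    (.leaf (.box ⟨302, -79, -2048, 143, 252, 416, 182006, 0, 0, 0, 0, 0, 0⟩ ⟨0, 0, 0, 0, 0, 0, 246252, 0, 0, 0, 0, 0, 0⟩ ⟨0, 0, 0, 0, 0, 0, 246252, 0, 0, 0, 0, 0, 0⟩ ⟨0, 0, 0, 0, 0, 0, 380595, 0, 0, 0, 0, 0, 0⟩ ⟨0, 0, 0, 0, 0, 0, 380595, 0, 0, 0, 0, 0, 0⟩ ⟨255, -14, -2048, 27, 60, 443, 837495, 0, 0, 0, 0, 0, 0⟩)))

/-- A piece of the tree. -/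
noncomputable def tree85 : Tree LeafX :=
  .s0
    (.s1
    (.s2
    (.s2
    (.leaf (.box ⟨356, -6, -2048, 47, 218, 497, 214508, 0, 0, 0, 0, 0, 0⟩ ⟨0, 0, 0, 0, 0, 0, 286171, 0, 0, 0, 0, 0, 0⟩ ⟨0, 0, 0, 0, 0, 0, 286171, 0, 0, 0, 0, 0, 0⟩ ⟨0, 0, 0, 0, 0, 0, 429735, 0, 0, 0, 0, 0, 0⟩ ⟨0, 0, 0, 0, 0, 0, 429735, 0, 0, 0, 0, 0, 0⟩ ⟨348, -2, -2048, 14, 56, 520, 862358, 0, 0, 0, 0, 0, 0⟩))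
    (.leaf (.box ⟨302, -9, -2048, 35, 190, 476, 224582, 0, 0, 0, 0, 0, 0⟩ ⟨0, 0, 0, 0, 0, 0, 300981, 0, 0, 0, 0, 0, 0⟩ ⟨0, 0, 0, 0, 0, 0, 300981, 0, 0, 0, 0, 0, 0⟩ ⟨0, 0, 0, 0, 0, 0, 456155, 0, 0, 0, 0, 0, 0⟩ ⟨0, 0, 0, 0, 0, 0, 456155, 0, 0, 0, 0, 0, 0⟩ ⟨286, -2, -2048, 9, 46, 488, 941618, 0, 0, 0, 0, 0, 0⟩)))
    (.s3
    (.leaf (.box ⟨225, -24, -2048, 70, 177, 454, 244336, 0, 0, 0, 0, 0, 0⟩ ⟨0, 0, 0, 0, 0, 0, 335998, 0, 0, 0, 0, 0, 0⟩ ⟨0, 0, 0, 0, 0, 0, 335998, 0, 0, 0, 0, 0, 0⟩ ⟨0, 0, 0, 0, 0, 0, 537724, 0, 0, 0, 0, 0, 0⟩ ⟨0, 0, 0, 0, 0, 0, 537724, 0, 0, 0, 0, 0, 0⟩ ⟨209, -4, -2048, 13, 32, 462, 1345574, 0, 0, 0, 0, 0, 0⟩))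
    (.s2
    (.leaf (.box ⟨230, -13, -2048, 40, 160, 467, 277847, 0, 0, 0, 0, 0, 0⟩ ⟨0, 0, 0, 0, 0, 0, 368687, 0, 0, 0, 0, 0, 0⟩ ⟨0, 0, 0, 0, 0, 0, 368687, 0, 0, 0, 0, 0, 0⟩ ⟨0, 0, 0, 0, 0, 0, 547779, 0, 0, 0, 0, 0, 0⟩ ⟨0, 0, 0, 0, 0, 0, 547779, 0, 0, 0, 0, 0, 0⟩ ⟨223, -4, -2048, 11, 42, 474, 1065213, 0, 0, 0, 0, 0, 0⟩))
    (.leaf (.box ⟨204, -17, -2048, 49, 155, 460, 312939, 0, 0, 0, 0, 0, 0⟩ ⟨0, 0, 0, 0, 0, 0, 415697, 0, 0, 0, 0, 0, 0⟩ ⟨0, 0, 0, 0, 0, 0, 415697, 0, 0, 0, 0, 0, 0⟩ ⟨0, 0, 0, 0, 0, 0, 618932, 0, 0, 0, 0, 0, 0⟩ ⟨0, 0, 0, 0, 0, 0, 618932, 0, 0, 0, 0, 0, 0⟩ ⟨196, -5, -2048, 14, 40, 465, 1210980, 0, 0, 0, 0, 0, 0⟩)))))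
    (.s2
    (.leaf (.box ⟨442, -28, -2048, 84, 231, 542, 224089, 0, 0, 0, 0, 0, 0⟩ ⟨0, 0, 0, 0, 0, 0, 300254, 0, 0, 0, 0, 0, 0⟩ ⟨0, 0, 0, 0, 0, 0, 300254, 0, 0, 0, 0, 0, 0⟩ ⟨0, 0, 0, 0, 0, 0, 454850, 0, 0, 0, 0, 0, 0⟩ ⟨0, 0, 0, 0, 0, 0, 454850, 0, 0, 0, 0, 0, 0⟩ ⟨441, -7, -2048, 20, 56, 560, 937611, 0, 0, 0, 0, 0, 0⟩))
    (.leaf (.box ⟨255, -53, -2048, 119, 230, 476, 261447, 0, 0, 0, 0, 0, 0⟩ ⟨0, 0, 0, 0, 0, 0, 352804, 0, 0, 0, 0, 0, 0⟩ ⟨0, 0, 0, 0, 0, 0, 352804, 0, 0, 0, 0, 0, 0⟩ ⟨0, 0, 0, 0, 0, 0, 542298, 0, 0, 0, 0, 0, 0⟩ ⟨0, 0, 0, 0, 0, 0, 542298, 0, 0, 0, 0, 0, 0⟩ ⟨243, -11, -2048, 26, 52, 490, 1171544, 0, 0, 0, 0, 0, 0⟩))))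
    (.leaf (.box ⟨468, -64, -2048, 252, 191, 557, 268054, 0, 0, 0, 0, 0, 0⟩ ⟨0, 0, 0, 0, 0, 0, 356942, 0, 0, 0, 0, 0, 0⟩ ⟨0, 0, 0, 0, 0, 0, 356942, 0, 0, 0, 0, 0, 0⟩ ⟨0, 0, 0, 0, 0, 0, 534027, 0, 0, 0, 0, 0, 0⟩ ⟨0, 0, 0, 0, 0, 0, 534027, 0, 0, 0, 0, 0, 0⟩ ⟨533, -15, -2048, 55, 51, 538, 1059825, 0, 0, 0, 0, 0, 0⟩))

/-- A piece of the tree. -/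
noncomputable def tree86 : Tree LeafX :=
  .s1
    (.s0
    (.leaf (.box ⟨866, 32, -2048, 256, 89, 609, 338137, 0, 0, 0, 0, 0, 0⟩ ⟨0, 0, 0, 0, 0, 0, 448706, 0, 0, 0, 0, 0, 0⟩ ⟨0, 0, 0, 0, 0, 0, 448706, 0, 0, 0, 0, 0, 0⟩ ⟨0, 0, 0, 0, 0, 0, 666716, 0, 0, 0, 0, 0, 0⟩ ⟨0, 0, 0, 0, 0, 0, 666716, 0, 0, 0, 0, 0, 0⟩ ⟨830, 9, -2048, 62, 21, 560, 1296774, 0, 0, 0, 0, 0, 0⟩))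
    (.s2
    (.leaf (.box ⟨575, 55, -2048, 197, 11, 652, 556011, 0, 0, 0, 0, 0, 0⟩ ⟨0, 0, 0, 0, 0, 0, 736363, 0, 0, 0, 0, 0, 0⟩ ⟨0, 0, 0, 0, 0, 0, 736363, 0, 0, 0, 0, 0, 0⟩ ⟨0, 0, 0, 0, 0, 0, 1089883, 0, 0, 0, 0, 0, 0⟩ ⟨0, 0, 0, 0, 0, 0, 1089883, 0, 0, 0, 0, 0, 0⟩ ⟨509, 16, -2048, 49, 1, 628, 2096296, 0, 0, 0, 0, 0, 0⟩))
    (.leaf (.box ⟨1591, 47, -2048, 345, -105, 892, 670837, 0, 0, 0, 0, 0, 0⟩ ⟨0, 0, 0, 0, 0, 0, 890183, 0, 0, 0, 0, 0, 0⟩ ⟨0, 0, 0, 0, 0, 0, 890183, 0, 0, 0, 0, 0, 0⟩ ⟨0, 0, 0, 0, 0, 0, 1322657, 0, 0, 0, 0, 0, 0⟩ ⟨0, 0, 0, 0, 0, 0, 1322657, 0, 0, 0, 0, 0, 0⟩ ⟨1503, 13, -2048, 84, -27, 838, 2572387, 0, 0, 0, 0, 0, 0⟩))))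
    (.leaf (.box ⟨1258, -41, -2048, 570, 138, 699, 339542, 0, 0, 0, 0, 0, 0⟩ ⟨0, 0, 0, 0, 0, 0, 451336, 0, 0, 0, 0, 0, 0⟩ ⟨0, 0, 0, 0, 0, 0, 451336, 0, 0, 0, 0, 0, 0⟩ ⟨0, 0, 0, 0, 0, 0, 672882, 0, 0, 0, 0, 0, 0⟩ ⟨0, 0, 0, 0, 0, 0, 672882, 0, 0, 0, 0, 0, 0⟩ ⟨1051, -11, -2048, 138, 30, 701, 1321618, 0, 0, 0, 0, 0, 0⟩))

/-- A piece of the tree. -/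
noncomputable def tree87 : Tree LeafX :=
  .s0
    (.s0
    (.s1
    (.leaf (.box ⟨324, -5, -2048, 29, 116, 306, 162708, 0, 0, 0, 0, 0, 0⟩ ⟨0, 0, 0, 0, 0, 0, 217699, 0, 0, 0, 0, 0, 0⟩ ⟨0, 0, 0, 0, 0, 0, 217699, 0, 0, 0, 0, 0, 0⟩ ⟨0, 0, 0, 0, 0, 0, 328835, 0, 0, 0, 0, 0, 0⟩ ⟨0, 0, 0, 0, 0, 0, 328835, 0, 0, 0, 0, 0, 0⟩ ⟨294, -2, -2048, 9, 29, 318, 671786, 0, 0, 0, 0, 0, 0⟩))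
    (.leaf (.box ⟨272, -18, -2048, 59, 159, 340, 167453, 0, 0, 0, 0, 0, 0⟩ ⟨0, 0, 0, 0, 0, 0, 224921, 0, 0, 0, 0, 0, 0⟩ ⟨0, 0, 0, 0, 0, 0, 224921, 0, 0, 0, 0, 0, 0⟩ ⟨0, 0, 0, 0, 0, 0, 342440, 0, 0, 0, 0, 0, 0⟩ ⟨0, 0, 0, 0, 0, 0, 342440, 0, 0, 0, 0, 0, 0⟩ ⟨223, -4, -2048, 14, 38, 356, 717142, 0, 0, 0, 0, 0, 0⟩)))
    (.s1
    (.s2
    (.leaf (.box ⟨273, -4, -2048, 23, 113, 322, 185937, 0, 0, 0, 0, 0, 0⟩ ⟨0, 0, 0, 0, 0, 0, 248665, 0, 0, 0, 0, 0, 0⟩ ⟨0, 0, 0, 0, 0, 0, 248665, 0, 0, 0, 0, 0, 0⟩ ⟨0, 0, 0, 0, 0, 0, 375261, 0, 0, 0, 0, 0, 0⟩ ⟨0, 0, 0, 0, 0, 0, 375261, 0, 0, 0, 0, 0, 0⟩ ⟨260, -1, -2163, 6, 30, 350, 764445, 0, 0, 0, 0, 0, 0⟩))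
    (.leaf (.box ⟨270, -5, -2048, 32, 106, 330, 200820, 0, 0, 0, 0, 0, 0⟩ ⟨0, 0, 0, 0, 0, 0, 268599, 0, 0, 0, 0, 0, 0⟩ ⟨0, 0, 0, 0, 0, 0, 268599, 0, 0, 0, 0, 0, 0⟩ ⟨0, 0, 0, 0, 0, 0, 405436, 0, 0, 0, 0, 0, 0⟩ ⟨0, 0, 0, 0, 0, 0, 405436, 0, 0, 0, 0, 0, 0⟩ ⟨240, -1, -2048, 8, 26, 339, 826490, 0, 0, 0, 0, 0, 0⟩)))
    (.s2
    (.leaf (.box ⟨213, -13, -2048, 41, 161, 347, 191238, 0, 0, 0, 0, 0, 0⟩ ⟨0, 0, 0, 0, 0, 0, 256785, 0, 0, 0, 0, 0, 0⟩ ⟨0, 0, 0, 0, 0, 0, 256785, 0, 0, 0, 0, 0, 0⟩ ⟨0, 0, 0, 0, 0, 0, 390694, 0, 0, 0, 0, 0, 0⟩ ⟨0, 0, 0, 0, 0, 0, 390694, 0, 0, 0, 0, 0, 0⟩ ⟨208, -3, -2048, 10, 36, 368, 816469, 0, 0, 0, 0, 0, 0⟩))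
    (.leaf (.box ⟨227, -12, -2048, 50, 146, 358, 211865, 0, 0, 0, 0, 0, 0⟩ ⟨0, 0, 0, 0, 0, 0, 284364, 0, 0, 0, 0, 0, 0⟩ ⟨0, 0, 0, 0, 0, 0, 284364, 0, 0, 0, 0, 0, 0⟩ ⟨0, 0, 0, 0, 0, 0, 432288, 0, 0, 0, 0, 0, 0⟩ ⟨0, 0, 0, 0, 0, 0, 432288, 0, 0, 0, 0, 0, 0⟩ ⟨201, -3, -2048, 12, 35, 371, 900966, 0, 0, 0, 0, 160530742, 0⟩)))))
    (.s1
    (.s2
    (.s0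
    (.s1
    (.leaf (.box ⟨202, -2, -2048, 15, 100, 338, 213342, 0, 0, 0, 0, 0, 0⟩ ⟨0, 0, 0, 0, 0, 0, 285118, 0, 0, 0, 0, 0, 0⟩ ⟨0, 0, 0, 0, 0, 0, 285118, 0, 0, 0, 0, 0, 0⟩ ⟨0, 0, 0, 0, 0, 0, 429677, 0, 0, 0, 0, 0, 0⟩ ⟨0, 0, 0, 0, 0, 0, 429677, 0, 0, 0, 0, 0, 0⟩ ⟨251, -1, -2902, 6, 35, 486, 871577, 0, 0, 0, 0, 0, 0⟩))
    (.leaf (.box ⟨191, -3, -2048, 16, 111, 346, 214510, 0, 0, 0, 0, 0, 0⟩ ⟨0, 0, 0, 0, 0, 0, 287285, 0, 0, 0, 0, 0, 0⟩ ⟨0, 0, 0, 0, 0, 0, 287285, 0, 0, 0, 0, 0, 0⟩ ⟨0, 0, 0, 0, 0, 0, 434792, 0, 0, 0, 0, 0, 0⟩ ⟨0, 0, 0, 0, 0, 0, 434792, 0, 0, 0, 0, 0, 0⟩ ⟨242, -1, -2955, 6, 40, 520, 893626, 0, 0, 0, 0, 0, 0⟩)))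
    (.s2
    (.leaf (.box ⟨224, -2, -2048, 21, 100, 370, 244702, 0, 0, 0, 0, 0, 0⟩ ⟨0, 0, 0, 0, 0, 0, 326831, 0, 0, 0, 0, 0, 0⟩ ⟨0, 0, 0, 0, 0, 0, 326831, 0, 0, 0, 0, 0, 0⟩ ⟨0, 0, 0, 0, 0, 0, 491939, 0, 0, 0, 0, 0, 0⟩ ⟨0, 0, 0, 0, 0, 0, 491939, 0, 0, 0, 0, 0, 0⟩ ⟨242, -1, -2399, 6, 29, 437, 994175, 0, 0, 0, 0, 0, 0⟩))
    (.leaf (.box ⟨214, -3, -2048, 23, 95, 377, 254568, 0, 0, 0, 0, 0, 0⟩ ⟨0, 0, 0, 0, 0, 0, 340116, 0, 0, 0, 0, 0, 0⟩ ⟨0, 0, 0, 0, 0, 0, 340116, 0, 0, 0, 0, 0, 0⟩ ⟨0, 0, 0, 0, 0, 0, 512260, 0, 0, 0, 0, 0, 0⟩ ⟨0, 0, 0, 0, 0, 0, 512260, 0, 0, 0, 0, 0, 0⟩ ⟨209, -1, -2048, 6, 23, 379, 1037246, 0, 0, 0, 0, 0, 0⟩))))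
    (.s0
    (.s1
    (.leaf (.box ⟨202, -2, -2048, 17, 91, 350, 230919, 0, 0, 0, 0, 0, 0⟩ ⟨0, 0, 0, 0, 0, 0, 308754, 0, 0, 0, 0, 0, 0⟩ ⟨0, 0, 0, 0, 0, 0, 308754, 0, 0, 0, 0, 0, 0⟩ ⟨0, 0, 0, 0, 0, 0, 465739, 0, 0, 0, 0, 0, 0⟩ ⟨0, 0, 0, 0, 0, 0, 465739, 0, 0, 0, 0, 0, 0⟩ ⟨236, -1, -2687, 6, 29, 464, 947482, 0, 0, 0, 0, 0, 0⟩))
    (.leaf (.box ⟨188, -4, -2048, 23, 107, 362, 235822, 0, 0, 0, 0, 0, 0⟩ ⟨0, 0, 0, 0, 0, 0, 315870, 0, 0, 0, 0, 0, 0⟩ ⟨0, 0, 0, 0, 0, 0, 315870, 0, 0, 0, 0, 0, 0⟩ ⟨0, 0, 0, 0, 0, 0, 478183, 0, 0, 0, 0, 0, 0⟩ ⟨0, 0, 0, 0, 0, 0, 478183, 0, 0, 0, 0, 0, 0⟩ ⟨195, -1, -2431, 6, 31, 437, 983637, 0, 0, 0, 0, 0, 0⟩)))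
    (.leaf (.box ⟨227, -4, -2048, 32, 93, 388, 265226, 0, 0, 0, 0, 0, 0⟩ ⟨0, 0, 0, 0, 0, 0, 354478, 0, 0, 0, 0, 0, 0⟩ ⟨0, 0, 0, 0, 0, 0, 354478, 0, 0, 0, 0, 0, 0⟩ ⟨0, 0, 0, 0, 0, 0, 534264, 0, 0, 0, 0, 0, 0⟩ ⟨0, 0, 0, 0, 0, 0, 534264, 0, 0, 0, 0, 0, 0⟩ ⟨219, -1, -2048, 8, 23, 389, 1084104, 0, 0, 0, 0, 0, 0⟩))))
    (.s2
    (.s0
    (.s1
    (.leaf (.box ⟨179, -6, -2048, 23, 128, 360, 219154, 0, 0, 0, 0, 0, 0⟩ ⟨0, 0, 0, 0, 0, 0, 294138, 0, 0, 0, 0, 0, 0⟩ ⟨0, 0, 0, 0, 0, 0, 294138, 0, 0, 0, 0, 0, 0⟩ ⟨0, 0, 0, 0, 0, 0, 447118, 0, 0, 0, 0, 0, 0⟩ ⟨0, 0, 0, 0, 0, 0, 447118, 0, 0, 0, 0, 0, 0⟩ ⟨154, -2, -2048, 7, 31, 377, 931689, 0, 0, 0, 0, 0, 0⟩))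
    (.leaf (.box ⟨169, -10, -2048, 32, 146, 373, 227108, 0, 0, 0, 0, 0, 0⟩ ⟨0, 0, 0, 0, 0, 0, 305431, 0, 0, 0, 0, 0, 0⟩ ⟨0, 0, 0, 0, 0, 0, 305431, 0, 0, 0, 0, 0, 0⟩ ⟨0, 0, 0, 0, 0, 0, 466215, 0, 0, 0, 0, 0, 0⟩ ⟨0, 0, 0, 0, 0, 0, 466215, 0, 0, 0, 0, 0, 0⟩ ⟨142, -2, -2048, 8, 35, 392, 984439, 0, 0, 0, 0, 0, 0⟩)))
    (.leaf (.box ⟨248, -11, -2048, 45, 136, 405, 251559, 0, 0, 0, 0, 0, 0⟩ ⟨0, 0, 0, 0, 0, 0, 337446, 0, 0, 0, 0, 0, 0⟩ ⟨0, 0, 0, 0, 0, 0, 337446, 0, 0, 0, 0, 0, 0⟩ ⟨0, 0, 0, 0, 0, 0, 512380, 0, 0, 0, 0, 0, 0⟩ ⟨0, 0, 0, 0, 0, 0, 512380, 0, 0, 0, 0, 0, 0⟩ ⟨189, -3, -2048, 11, 32, 405, 1063929, 0, 0, 0, 0, 0, 0⟩)))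
    (.leaf (.box ⟨241, -13, -2048, 58, 145, 384, 244516, 0, 0, 0, 0, 0, 0⟩ ⟨0, 0, 0, 0, 0, 0, 328095, 0, 0, 0, 0, 0, 0⟩ ⟨0, 0, 0, 0, 0, 0, 328095, 0, 0, 0, 0, 0, 0⟩ ⟨0, 0, 0, 0, 0, 0, 498480, 0, 0, 0, 0, 0, 0⟩ ⟨0, 0, 0, 0, 0, 0, 498480, 0, 0, 0, 0, 0, 0⟩ ⟨257, -3, -2048, 15, 35, 400, 1037027, 0, 0, 0, 0, 0, 0⟩))))

/-- A piece of the tree. -/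
noncomputable def tree88 : Tree LeafX :=
  .s2
    (.s2
    (.s1
    (.leaf (.box ⟨432, -6, -2048, 50, 114, 339, 189541, 0, 0, 0, 0, 0, 0⟩ ⟨0, 0, 0, 0, 0, 0, 253480, 0, 0, 0, 0, 0, 0⟩ ⟨0, 0, 0, 0, 0, 0, 253480, 0, 0, 0, 0, 0, 0⟩ ⟨0, 0, 0, 0, 0, 0, 382515, 0, 0, 0, 0, 0, 0⟩ ⟨0, 0, 0, 0, 0, 0, 382515, 0, 0, 0, 0, 0, 0⟩ ⟨479, -2, -2048, 14, 30, 362, 779136, 0, 0, 0, 0, 0, 0⟩))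
    (.leaf (.box ⟨436, -16, -2048, 83, 176, 376, 203804, 0, 0, 0, 0, 0, 0⟩ ⟨0, 0, 0, 0, 0, 0, 273304, 0, 0, 0, 0, 0, 0⟩ ⟨0, 0, 0, 0, 0, 0, 273304, 0, 0, 0, 0, 0, 0⟩ ⟨0, 0, 0, 0, 0, 0, 414734, 0, 0, 0, 0, 0, 0⟩ ⟨0, 0, 0, 0, 0, 0, 414734, 0, 0, 0, 0, 0, 0⟩ ⟨378, -4, -2048, 21, 42, 388, 859521, 0, 0, 0, 0, 23529290519, 0⟩)))
    (.leaf (.box ⟨619, -20, -2048, 141, 156, 371, 198149, 0, 0, 0, 0, 22039585477, 0⟩ ⟨0, 0, 0, 0, 0, 0, 264908, 0, 0, 0, 0, 0, 0⟩ ⟨0, 0, 0, 0, 0, 0, 264908, 0, 0, 0, 0, 0, 0⟩ ⟨0, 0, 0, 0, 0, 0, 399504, 0, 0, 0, 0, 0, 0⟩ ⟨0, 0, 0, 0, 0, 0, 399504, 0, 0, 0, 0, 0, 0⟩ ⟨575, -5, -2048, 34, 39, 380, 812147, 0, 0, 0, 0, 41179470674, 0⟩)))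
    (.leaf (.skip 8 0))

/-- A piece of the tree. -/
noncomputable def tree89 : Tree LeafX :=
  .s2
    (.s0
    (.s1
    (.s2
    (.leaf (.box ⟨346, -4, -2048, 47, 88, 428, 280927, 0, 0, 0, 0, 0, 0⟩ ⟨0, 0, 0, 0, 0, 0, 374919, 0, 0, 0, 0, 0, 0⟩ ⟨0, 0, 0, 0, 0, 0, 374919, 0, 0, 0, 0, 0, 0⟩ ⟨0, 0, 0, 0, 0, 0, 563428, 0, 0, 0, 0, 0, 0⟩ ⟨0, 0, 0, 0, 0, 0, 563428, 0, 0, 0, 0, 0, 0⟩ ⟨318, -1, -2048, 12, 22, 423, 1133202, 0, 0, 0, 0, 0, 0⟩))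
    (.leaf (.box ⟨412, -6, -2048, 61, 79, 453, 303958, 0, 0, 0, 0, 0, 0⟩ ⟨0, 0, 0, 0, 0, 0, 406045, 0, 0, 0, 0, 0, 0⟩ ⟨0, 0, 0, 0, 0, 0, 406045, 0, 0, 0, 0, 0, 0⟩ ⟨0, 0, 0, 0, 0, 0, 611382, 0, 0, 0, 0, 0, 0⟩ ⟨0, 0, 0, 0, 0, 0, 611382, 0, 0, 0, 0, 0, 0⟩ ⟨329, -1, -2048, 14, 19, 445, 1236867, 0, 0, 0, 0, 0, 0⟩)))
    (.leaf (.box ⟨305, -15, -2048, 72, 133, 448, 288813, 0, 0, 0, 0, 0, 0⟩ ⟨0, 0, 0, 0, 0, 0, 387176, 0, 0, 0, 0, 0, 0⟩ ⟨0, 0, 0, 0, 0, 0, 387176, 0, 0, 0, 0, 0, 0⟩ ⟨0, 0, 0, 0, 0, 0, 587142, 0, 0, 0, 0, 0, 0⟩ ⟨0, 0, 0, 0, 0, 0, 587142, 0, 0, 0, 0, 0, 0⟩ ⟨287, -3, -2048, 17, 32, 450, 1214289, 0, 0, 0, 0, 0, 0⟩)))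
    (.leaf (.box ⟨812, -18, -2048, 154, 78, 569, 366447, 0, 0, 0, 0, 0, 0⟩ ⟨0, 0, 0, 0, 0, 0, 488371, 0, 0, 0, 0, 0, 0⟩ ⟨0, 0, 0, 0, 0, 0, 488371, 0, 0, 0, 0, 0, 0⟩ ⟨0, 0, 0, 0, 0, 0, 731882, 0, 0, 0, 0, 0, 0⟩ ⟨0, 0, 0, 0, 0, 0, 731882, 0, 0, 0, 0, 0, 0⟩ ⟨692, -4, -2048, 36, 19, 530, 1459731, 0, 0, 0, 0, 0, 0⟩)))
    (.leaf (.box ⟨1872, -35, -2048, 300, 111, 535, 331764, 0, 0, 0, 0, 185657976237, 0⟩ ⟨0, 0, 0, 0, 0, 0, 443449, 0, 0, 0, 0, 0, 0⟩ ⟨0, 0, 0, 0, 0, 0, 443449, 0, 0, 0, 0, 0, 0⟩ ⟨0, 0, 0, 0, 0, 0, 668486, 0, 0, 0, 0, 0, 0⟩ ⟨0, 0, 0, 0, 0, 0, 668486, 0, 0, 0, 0, 0, 0⟩ ⟨1478, -8, -2048, 72, 28, 539, 1357252, 0, 0, 0, 0, 140283323045, 0⟩))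

/-- A piece of the tree. -/
noncomputable def tree90 : Tree LeafX :=
  .s2
    (.s0
    (.s1
    (.s2
    (.s0
    (.s3
    (.leaf (.box ⟨207, -28, -2048, 63, 199, 369, 182027, 0, 0, 0, 0, 0, 0⟩ ⟨0, 0, 0, 0, 0, 0, 250968, 0, 0, 0, 0, 0, 0⟩ ⟨0, 0, 0, 0, 0, 0, 250968, 0, 0, 0, 0, 0, 0⟩ ⟨0, 0, 0, 0, 0, 0, 403963, 0, 0, 0, 0, 0, 0⟩ ⟨0, 0, 0, 0, 0, 0, 403963, 0, 0, 0, 0, 0, 0⟩ ⟨183, -5, -2048, 11, 36, 392, 1034802, 0, 0, 0, 0, 0, 0⟩))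
    (.leaf (.box ⟨202, -25, -2048, 59, 186, 383, 209767, 0, 0, 0, 0, 0, 0⟩ ⟨0, 0, 0, 0, 0, 0, 279099, 0, 0, 0, 0, 0, 0⟩ ⟨0, 0, 0, 0, 0, 0, 279099, 0, 0, 0, 0, 0, 0⟩ ⟨0, 0, 0, 0, 0, 0, 416889, 0, 0, 0, 0, 0, 0⟩ ⟨0, 0, 0, 0, 0, 0, 416889, 0, 0, 0, 0, 0, 0⟩ ⟨190, -7, -2048, 16, 48, 401, 823391, 0, 0, 0, 0, 0, 0⟩)))
    (.leaf (.box ⟨245, -24, -2048, 64, 209, 407, 237889, 0, 0, 0, 0, 0, 0⟩ ⟨0, 0, 0, 0, 0, 0, 320518, 0, 0, 0, 0, 0, 0⟩ ⟨0, 0, 0, 0, 0, 0, 320518, 0, 0, 0, 0, 0, 0⟩ ⟨0, 0, 0, 0, 0, 0, 491094, 0, 0, 0, 0, 0, 0⟩ ⟨0, 0, 0, 0, 0, 0, 491094, 0, 0, 0, 0, 0, 0⟩ ⟨211, -6, -2048, 17, 44, 422, 1049769, 0, 0, 0, 0, 0, 0⟩)))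
    (.leaf (.box ⟨368, -39, -2048, 122, 232, 393, 203214, 0, 0, 0, 0, 0, 0⟩ ⟨0, 0, 0, 0, 0, 0, 273728, 0, 0, 0, 0, 0, 0⟩ ⟨0, 0, 0, 0, 0, 0, 273728, 0, 0, 0, 0, 0, 0⟩ ⟨0, 0, 0, 0, 0, 0, 419181, 0, 0, 0, 0, 0, 0⟩ ⟨0, 0, 0, 0, 0, 0, 419181, 0, 0, 0, 0, 0, 0⟩ ⟨311, -9, -2048, 28, 54, 413, 894492, 0, 0, 0, 0, 3524540226, 0⟩)))
    (.leaf (.box ⟨338, -70, -2048, 173, 285, 413, 202480, 0, 0, 0, 0, 0, 0⟩ ⟨0, 0, 0, 0, 0, 0, 273823, 0, 0, 0, 0, 0, 0⟩ ⟨0, 0, 0, 0, 0, 0, 273823, 0, 0, 0, 0, 0, 0⟩ ⟨0, 0, 0, 0, 0, 0, 422788, 0, 0, 0, 0, 0, 0⟩ ⟨0, 0, 0, 0, 0, 0, 422788, 0, 0, 0, 0, 0, 0⟩ ⟨275, -15, -2048, 39, 64, 443, 927212, 0, 0, 0, 0, 0, 0⟩)))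
    (.s1
    (.leaf (.box ⟨406, -36, -2048, 133, 200, 489, 312878, 0, 0, 0, 0, 0, 0⟩ ⟨0, 0, 0, 0, 0, 0, 421100, 0, 0, 0, 0, 0, 0⟩ ⟨0, 0, 0, 0, 0, 0, 421100, 0, 0, 0, 0, 0, 0⟩ ⟨0, 0, 0, 0, 0, 0, 643774, 0, 0, 0, 0, 0, 0⟩ ⟨0, 0, 0, 0, 0, 0, 643774, 0, 0, 0, 0, 0, 0⟩ ⟨377, -8, -2048, 30, 46, 496, 1366221, 0, 0, 0, 0, 0, 0⟩))
    (.leaf (.skip 8 0))))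
    (.leaf (.skip 8 0))

/-- A piece of the tree. -/
noncomputable def tree91 : Tree LeafX :=
  .s1
    (.s2
    (.s0
    (.s2
    (.leaf (.box ⟨1502, -11, -2048, 303, -16, 777, 470029, 0, 0, 0, 0, 0, 0⟩ ⟨0, 0, 0, 0, 0, 0, 625766, 0, 0, 0, 0, 0, 0⟩ ⟨0, 0, 0, 0, 0, 0, 625766, 0, 0, 0, 0, 0, 0⟩ ⟨0, 0, 0, 0, 0, 0, 935843, 0, 0, 0, 0, 0, 0⟩ ⟨0, 0, 0, 0, 0, 0, 935843, 0, 0, 0, 0, 0, 0⟩ ⟨1327, -3, -2048, 74, -3, 724, 1855046, 0, 0, 0, 0, 0, 0⟩))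
    (.leaf (.box ⟨2048, -24, -1350, 325, -39, 633, 504401, 0, 0, 0, 0, 318807552313, 0⟩ ⟨0, 0, 0, 0, 0, 0, 672316, 0, 0, 0, 0, 0, 0⟩ ⟨0, 0, 0, 0, 0, 0, 672316, 0, 0, 0, 0, 0, 0⟩ ⟨0, 0, 0, 0, 0, 0, 1007817, 0, 0, 0, 0, 0, 0⟩ ⟨0, 0, 0, 0, 0, 0, 1007817, 0, 0, 0, 0, 0, 0⟩ ⟨2048, -7, -1609, 89, -10, 692, 2011705, 0, 0, 0, 0, 340646046388, 0⟩)))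
    (.s2
    (.leaf (.box ⟨2048, 16, -847, 342, -167, 789, 744233, 0, 0, 0, 0, 0, 0⟩ ⟨0, 0, 0, 0, 0, 0, 988590, 0, 0, 0, 0, 0, 0⟩ ⟨0, 0, 0, 0, 0, 0, 988590, 0, 0, 0, 0, 0, 0⟩ ⟨0, 0, 0, 0, 0, 0, 1471844, 0, 0, 0, 0, 0, 0⟩ ⟨0, 0, 0, 0, 0, 0, 1471844, 0, 0, 0, 0, 0, 0⟩ ⟨2048, 4, -935, 88, -40, 730, 2879376, 0, 0, 0, 0, 0, 0⟩))
    (.leaf (.box ⟨2048, -1, 42, 245, -119, 413, 772869, 0, 0, 102084214, 102084214, 989043300193, 124651084685⟩ ⟨0, 0, 0, 0, 0, 0, 1028258, 0, 0, 0, 0, 0, 0⟩ ⟨0, 0, 0, 0, 0, 0, 1028258, 0, 0, 0, 0, 0, 0⟩ ⟨0, 0, 0, 0, 0, 0, 1535725, 0, 0, 0, 0, 0, 0⟩ ⟨0, 0, 0, 0, 0, 0, 1535725, 0, 0, 0, 0, 0, 0⟩ ⟨2048, 0, -76, 62, -29, 396, 3032166, 0, 0, 0, 0, 1054319796325,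 0⟩))))
    (.leaf (.skip 8 0)))
    (.s0
    (.leaf (.box ⟨1369, -98, -2048, 492, 238, 690, 532431, 0, 0, 0, 0, 103960951709, 0⟩ ⟨0, 0, 0, 0, 0, 0, 714647, 0, 0, 0, 0, 0, 0⟩ ⟨0, 0, 0, 0, 0, 0, 714647, 0, 0, 0, 0, 0, 0⟩ ⟨0, 0, 0, 0, 0, 0, 1086476, 0, 0, 0, 0, 0, 0⟩ ⟨0, 0, 0, 0, 0, 0, 1086476, 0, 0, 0, 0, 0, 0⟩ ⟨1163, -22, -2048, 111, 56, 686, 2264889, 0, 0, 0, 0, 0, 0⟩))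
    (.leaf (.skip 8 0)))

theorem parts3 :
    (runPathS conQ supQ (fun n Qs i d x => leafR conQ seg n Qs i d x) [.d0 true, .d1 true, .d2 false, .d0 false, .d1 true, .d0 false, .d1 false, .d2 true, .d0 false, .d0 true, .d3 true] tree81 0 0 0
      (joinS (lay.B * lay.size) rootQ) = true) ∧
    (runPathS conQ supQ (fun n Qs i d x => leafR conQ seg n Qs i d x) [.d0 true, .d1 true, .d2 false, .d0 false, .d1 true, .d0 false, .d1 false, .d2 true, .d0 true, .d3 false] tree82 0 0 0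
      (joinS (lay.B * lay.size) rootQ) = true) ∧
    (runPathS conQ supQ (fun n Qs i d x => leafR conQ seg n Qs i d x) [.d0 true, .d1 true, .d2 false, .d0 false, .d1 true, .d0 false, .d1 false, .d2 true, .d0 true, .d3 true] tree83 0 0 0
      (joinS (lay.B * lay.size) rootQ) = true) ∧
    (runPathS conQ supQ (fun n Qs i d x => leafR conQ seg n Qs i d x) [.d0 true, .d1 true, .d2 false, .d0 false, .d1 true, .d0 false, .d1 true] tree84 0 0 0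
      (joinS (lay.B * lay.size) rootQ) = true) ∧
    (runPathS conQ supQ (fun n Qs i d x => leafR conQ seg n Qs i d x) [.d0 true, .d1 true, .d2 false, .d0 false, .d1 true, .d0 true] tree85 0 0 0
      (joinS (lay.B * lay.size) rootQ) = true) ∧
    (runPathS conQ supQ (fun n Qs i d x => leafR conQ seg n Qs i d x) [.d0 true, .d1 true, .d2 false, .d0 true] tree86 0 0 0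
      (joinS (lay.B * lay.size) rootQ) = true) ∧
    (runPathS conQ supQ (fun n Qs i d x => leafR conQ seg n Qs i d x) [.d0 true, .d1 true, .d2 true, .d0 false, .d1 false, .d0 false, .d2 false] tree87 0 0 0
      (joinS (lay.B * lay.size) rootQ) = true) ∧
    (runPathS conQ supQ (fun n Qs i d x => leafR conQ seg n Qs i d x) [.d0 true, .d1 true, .d2 true, .d0 false, .d1 false, .d0 false, .d2 true] tree88 0 0 0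
      (joinS (lay.B * lay.size) rootQ) = true) ∧
    (runPathS conQ supQ (fun n Qs i d x => leafR conQ seg n Qs i d x) [.d0 true, .d1 true, .d2 true, .d0 false, .d1 false, .d0 true] tree89 0 0 0
      (joinS (lay.B * lay.size) rootQ) = true) ∧
    (runPathS conQ supQ (fun n Qs i d x => leafR conQ seg n Qs i d x) [.d0 true, .d1 true, .d2 true, .d0 false, .d1 true] tree90 0 0 0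
      (joinS (lay.B * lay.size) rootQ) = true) ∧
    (runPathS conQ supQ (fun n Qs i d x => leafR conQ seg n Qs i d x) [.d0 true, .d1 true, .d2 true, .d0 true] tree91 0 0 0
      (joinS (lay.B * lay.size) rootQ) = true) :=
  ⟨by decide +kernel,
  by decide +kernel,
  by decide +kernel,
  by decide +kernel,
  by decide +kernel,
  by decide +kernel,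
  by decide +kernel,
  by decide +kernel,
  by decide +kernel,
  by decide +kernel,
  by decide +kernel⟩

end Vale.Agent.P098.Six.S19
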